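import Vale.Agent.P200.Betti.Koszul
import Vale.Agent.P200.Ext.General

/-!
P200, any number of variables: the Betti numbers of the Koszul complex under field extensions, and
their dependence on the graded pieces of low degree.
-/

namespace Vale.P200.Many

open MvPolynomial Module Finset Vale.P200.Ext Vale.P200.Betti

universe u

variable {K : Type u} [Field K] {n : ℕ}

lemma chains_zero_image (I : Ideal (MvPolynomial (Fin n) K)) (j : ℕ) :
    (koszulChains I 0 j).map (koszulD I) = ⊥ :=
  eq_bot_iff.2 <| Submodule.map_le_iff_le_comap.2 fun _ hf =>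
    LinearMap.mem_ker.1 (inf_eq_left.1 (cycles_zero I j) hf)

/-- A Betti number is given by the ranks of the two differentials. -/
lemma betti_add_ranks (I : Ideal (MvPolynomial (Fin n) K)) (p j : ℕ) :
    betti I p j + finrank K ↥((koszulChains I (p + 1) j).map (koszulD I)) +
        finrank K ↥((koszulChains I p j).map (koszulD I)) = finrank K ↥(koszulChains I p j) := by
  have := finite_chains I p j
  have h1 := finrank_inf_ker_add (koszulD I) (koszulChains I p j)
  have h2 := betti_add I p j
  omega

/-- Equal chains and ranks give equal Betti numbers. -/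
lemma betti_eq_of_ranks {K' : Type*} [Field K'] {n' : ℕ} {I : Ideal (MvPolynomial (Fin n) K)}
    {J : Ideal (MvPolynomial (Fin n') K')} {p j : ℕ}
    (hc : finrank K' ↥(koszulChains J p j) = finrank K ↥(koszulChains I p j))
    (h0 : finrank K' ↥((koszulChains J p j).map (koszulD J)) =
      finrank K ↥((koszulChains I p j).map (koszulD I)))
    (h1 : finrank K' ↥((koszulChains J (p + 1) j).map (koszulD J)) =
      finrank K ↥((koszulChains I (p + 1) j).map (koszulD I))) :
    betti J p j = betti I p j := by
  have := betti_add_ranks I p j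
  have := betti_add_ranks J p j
  omega

section BaseChange

variable (L : Type*) [Field L] [Algebra K L]

/-- The extension of an ideal to a larger field. -/
noncomputable abbrev extI (I : Ideal (MvPolynomial (Fin n) K)) : Ideal (MvPolynomial (Fin n) L) :=
  I.map (MvPolynomial.map (algebraMap K L))

variable (I : Ideal (MvPolynomial (Fin n) K))

/-- The map from `S/I` to the quotient over the larger field. -/
noncomputable def quotExt :
    MvPolynomial (Fin n) K ⧸ I →+* MvPolynomial (Fin n) L ⧸ extI L I :=
  Ideal.quotientMap _ (MvPolynomial.map (algebraMap K L)) Ideal.le_comap_map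

lemma quotExt_mk (v : MvPolynomial (Fin n) K) :
    quotExt L I (Ideal.Quotient.mk I v) =
      Ideal.Quotient.mk (extI L I) (MvPolynomial.map (algebraMap K L) v) :=
  Ideal.quotientMap_mk

lemma quotExt_smul (r : K) (x : MvPolynomial (Fin n) K ⧸ I) :
    quotExt L I (r • x) = algebraMap K L r • quotExt L I x := by
  obtain ⟨v, rfl⟩ := Ideal.Quotient.mk_surjective x
  rw [← Ideal.Quotient.mkₐ_eq_mk K, ← map_smul, Ideal.Quotient.mkₐ_eq_mk, quotExt_mk,
    quotExt_mk, MvPolynomial.smul_eq_C_mul, map_mul, map_C, ← MvPolynomial.smul_eq_C_mul,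
    ← Ideal.Quotient.mkₐ_eq_mk L, map_smul, Ideal.Quotient.mkₐ_eq_mk]

/-- The extension of a function with values in `S/I`. -/
noncomputable def funExt' (f : Finset (Fin n) → MvPolynomial (Fin n) K ⧸ I) :
    Finset (Fin n) → MvPolynomial (Fin n) L ⧸ extI L I :=
  fun U => quotExt L I (f U)

/-- The span over the larger field. -/
noncomputable def spanQ (M : Submodule K (Finset (Fin n) → MvPolynomial (Fin n) K ⧸ I)) :
    Submodule L (Finset (Fin n) → MvPolynomial (Fin n) L ⧸ extI L I) :=
  Submodule.span L (funExt' L I '' M)

lemma linearIndependent_funExt' {ι : Type*} [Finite ι]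
    {b : ι → Finset (Fin n) → MvPolynomial (Fin n) K ⧸ I} (hb : LinearIndependent K b) :
    LinearIndependent L fun i => funExt' L I (b i) := by
  classical
  have := Fintype.ofFinite ι
  rw [Fintype.linearIndependent_iff] at hb ⊢
  intro g hg i
  refine (Module.forall_dual_apply_eq_zero_iff K (g i)).1 fun π => ?_
  refine hb (fun k => π (g k)) (funext fun U => ?_) i
  choose v hv using fun k => Ideal.Quotient.mk_surjective (b k U)
  have h1 : Ideal.Quotient.mkₐ L (extI L I)
      (∑ k, g k • MvPolynomial.map (algebraMap K L) (v k)) = 0 := by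
    rw [map_sum]
    have := congrFun hg U
    simp only [Finset.sum_apply, Pi.smul_apply, Pi.zero_apply, funExt', ← hv, quotExt_mk] at this
    rw [← this]
    exact Finset.sum_congr rfl fun k _ => by rw [map_smul]; rfl
  have h2 := mem_spanL_iff.1 (mem_map_iff_spanL.1 (Ideal.Quotient.eq_zero_iff_mem.1 h1)) π
  have hsum : coeffMap π (∑ k, g k • MvPolynomial.map (algebraMap K L) (v k)) =
      ∑ k, π (g k) • v k := by
    ext m
    simp only [coeff_coeffMap, coeff_sum, map_sum, coeff_smul, coeff_map, smul_eq_mul]
    refine Finset.sum_congr rfl fun k _ => ?_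
    rw [mul_comm (g k), ← Algebra.smul_def, map_smul, smul_eq_mul, mul_comm]
  rw [hsum] at h2
  have h3 : Ideal.Quotient.mkₐ K I (∑ k, π (g k) • v k) = 0 :=
    Ideal.Quotient.eq_zero_iff_mem.2 h2
  rw [map_sum] at h3
  rw [Finset.sum_apply, Pi.zero_apply, ← h3]
  exact Finset.sum_congr rfl fun k _ => by
    rw [Pi.smul_apply, map_smul, Ideal.Quotient.mkₐ_eq_mk, hv]

lemma funExt'_add (f g : Finset (Fin n) → MvPolynomial (Fin n) K ⧸ I) :
    funExt' L I (f + g) = funExt' L I f + funExt' L I g :=
  funext fun U => map_add (quotExt L I) (f U) (g U)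

lemma funExt'_smul (r : K) (f : Finset (Fin n) → MvPolynomial (Fin n) K ⧸ I) :
    funExt' L I (r • f) = algebraMap K L r • funExt' L I f :=
  funext fun U => quotExt_smul L I r (f U)

lemma finrank_spanQ (M : Submodule K (Finset (Fin n) → MvPolynomial (Fin n) K ⧸ I))
    [FiniteDimensional K M] : finrank L ↥(spanQ L I M) = finrank K M := by
  classical
  let bs := Module.finBasis K M
  have hli := linearIndependent_funExt' L I (bs.linearIndependent.map' M.subtype M.ker_subtype)
  have hspan : spanQ L I M =
      Submodule.span L (Set.range fun i => funExt' L I ((M.subtype ∘ bs) i)) := by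
    refine le_antisymm (Submodule.span_le.2 ?_) (Submodule.span_mono ?_)
    · rintro _ ⟨f, hf, rfl⟩
      have hmem : f ∈ Submodule.span K (Set.range (M.subtype ∘ bs)) := by
        rw [Set.range_comp, Submodule.span_image, bs.span_eq, Submodule.map_top,
          Submodule.range_subtype]
        exact hf
      clear hf
      induction hmem using Submodule.span_induction with
      | mem x hx => obtain ⟨i, rfl⟩ := hx; exact Submodule.subset_span ⟨i, rfl⟩
      | zero =>
        rw [show funExt' L I 0 = 0 from funext fun U => map_zero (quotExt L I)]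
        exact zero_mem _
      | add x y _ _ ihx ihy =>
        rw [funExt'_add]
        exact add_mem ihx ihy
      | smul r x _ ih =>
        rw [funExt'_smul]
        exact Submodule.smul_mem _ _ ih
    · rintro _ ⟨i, rfl⟩
      exact ⟨_, (bs i).2, rfl⟩
  rw [hspan, finrank_span_eq_card hli, Fintype.card_fin]

lemma koszulD_funExt' (f : Finset (Fin n) → MvPolynomial (Fin n) K ⧸ I) :
    koszulD (extI L I) (funExt' L I f) = funExt' L I (koszulD I f) := by
  funext U
  simp only [funExt', koszulD, kd_apply, map_sum, map_mul, quotExt_mk, map_X, sgn, map_pow,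
    map_neg, map_one]

lemma map_spanQ (M : Submodule K (Finset (Fin n) → MvPolynomial (Fin n) K ⧸ I)) :
    (spanQ L I M).map (koszulD (extI L I)) = spanQ L I (M.map (koszulD I)) := by
  rw [spanQ, spanQ, Submodule.map_span, Submodule.map_coe, Set.image_image, Set.image_image]
  simp only [koszulD_funExt']

lemma hq_extI (d : ℕ) : hq (extI L I) d = hq I d := by
  simp only [hq, finrank_grade_baseChange, finrank_homogeneous]

lemma spanQ_chains (p j : ℕ) : spanQ L I (koszulChains I p j) = koszulChains (extI L I) p j := by
  have := finite_chains I p j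
  have := finite_chains (extI L I) p j
  refine Submodule.eq_of_le_of_finrank_le (Submodule.span_le.2 ?_) ?_
  · rintro _ ⟨f, hf, rfl⟩
    obtain ⟨h1, h2⟩ := mem_suppOn.1 hf
    refine mem_suppOn.2 ⟨fun U hU => ?_, fun U hU => ?_⟩
    · have h := h1 U hU
      simp only [funExt']
      split_ifs at h ⊢ with hpj
      · obtain ⟨v, hv, hvU⟩ := h
        exact ⟨MvPolynomial.map (algebraMap K L) v, IsHomogeneous.map hv _, by
          rw [← hvU]; exact (quotExt_mk L I v).symm⟩
      · rw [Submodule.mem_bot] at h ⊢
        rw [h, map_zero]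
    · simp only [funExt', h2 U hU, map_zero]
  · rw [finrank_spanQ, finrank_chains, finrank_chains, hq_extI]

/-- Betti numbers do not change along field extensions. -/
theorem betti_baseChange (p j : ℕ) :
    betti (I.map (MvPolynomial.map (algebraMap K L))) p j = betti I p j := by
  have hr : ∀ q, finrank L ↥((koszulChains (extI L I) q j).map (koszulD (extI L I))) =
      finrank K ↥((koszulChains I q j).map (koszulD I)) := by
    intro q
    have := finite_chains I q j
    rw [← spanQ_chains, map_spanQ, finrank_spanQ]
  refine betti_eq_of_ranks ?_ (hr p) (hr (p + 1))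
  have := finite_chains I p j
  rw [← spanQ_chains, finrank_spanQ]

end BaseChange

section Congr

variable {I J : Ideal (MvPolynomial (Fin n) K)}

/-- The map `S/J → S/I` on functions. -/
noncomputable def funFactor (h : J ≤ I) :
    (Finset (Fin n) → MvPolynomial (Fin n) K ⧸ J) →ₗ[K]
      (Finset (Fin n) → MvPolynomial (Fin n) K ⧸ I) :=
  (Ideal.Quotient.factorₐ K h).toLinearMap.compLeft (Finset (Fin n))

lemma funFactor_apply (h : J ≤ I) (f : Finset (Fin n) → MvPolynomial (Fin n) K ⧸ J)
    (U : Finset (Fin n)) : funFactor h f U = Ideal.Quotient.factorₐ K h (f U) := rfl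

lemma koszulD_funFactor (h : J ≤ I) :
    (koszulD I).comp (funFactor h) = (funFactor h).comp (koszulD J) := by
  refine LinearMap.ext fun f => funext fun U => ?_
  simp only [LinearMap.comp_apply, funFactor_apply, koszulD, kd_apply, map_sum, map_mul, sgn,
    map_pow, map_neg, map_one]
  exact Finset.sum_congr rfl fun i _ => rfl

lemma betti_congr_of_le (h : J ≤ I) {j : ℕ} (hg : ∀ e ≤ j, grade I e ≤ grade J e) (p : ℕ) :
    betti J p j = betti I p j := by
  -- the map is bijective on the chains
  have hinj : ∀ q, koszulChains J q j ⊓ LinearMap.ker (funFactor h) = ⊥ := by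
    intro q
    rw [Submodule.eq_bot_iff]
    rintro f ⟨hf, hf0⟩
    obtain ⟨h1, h2⟩ := mem_suppOn.1 hf
    funext U
    by_cases hU : U.card = q
    · have hm := h1 U hU
      split_ifs at hm with hq
      · obtain ⟨v, hv, hvU⟩ := hm
        have h0 := congrFun (LinearMap.mem_ker.1 hf0) U
        rw [funFactor_apply, ← hvU] at h0
        have hvI : v ∈ I := Ideal.Quotient.eq_zero_iff_mem.1 h0
        rw [← hvU]
        exact Ideal.Quotient.eq_zero_iff_mem.2 (hg (j - q) (Nat.sub_le _ _) ⟨hvI, hv⟩).1
      · exact (Submodule.mem_bot K).1 hm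
    · exact h2 U hU
  have hsurj : ∀ q, (koszulChains J q j).map (funFactor h) = koszulChains I q j := by
    intro q
    have := finite_chains J q j
    have := finite_chains I q j
    refine Submodule.eq_of_le_of_finrank_le ?_ ?_
    · rintro _ ⟨f, hf, rfl⟩
      obtain ⟨h1, h2⟩ := mem_suppOn.1 hf
      refine mem_suppOn.2 ⟨fun U hU => ?_, fun U hU => ?_⟩
      · have hm := h1 U hU
        rw [funFactor_apply]
        split_ifs at hm ⊢ with hq
        · obtain ⟨v, hv, hvU⟩ := hm
          exact ⟨v, hv, by rw [← hvU]; rfl⟩
        · rw [Submodule.mem_bot] at hm ⊢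
          rw [hm, map_zero]
      · rw [funFactor_apply, h2 U hU, map_zero]
    · have e := finrank_inf_ker_add (funFactor h) (koszulChains J q j)
      rw [hinj, finrank_bot, zero_add] at e
      rw [e, finrank_chains, finrank_chains]
      refine Nat.mul_le_mul_left _ ?_
      split_ifs with hq
      · exact hq_mono h _
      · exact le_rfl
  have hiso : ∀ q (C : Submodule K (Finset (Fin n) → MvPolynomial (Fin n) K ⧸ J)),
      C ≤ koszulChains J q j → finrank K ↥(C.map (funFactor h)) = finrank K C := by
    intro q C hC
    have := finite_chains J q j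
    have : FiniteDimensional K C := Submodule.finiteDimensional_of_le hC
    have e := finrank_inf_ker_add (funFactor h) C
    have h0 : C ⊓ LinearMap.ker (funFactor h) = ⊥ :=
      le_bot_iff.1 ((inf_le_inf_right _ hC).trans (hinj q).le)
    rw [h0, finrank_bot, zero_add] at e
    exact e
  have hrank : ∀ q, finrank K ↥((koszulChains J q j).map (koszulD J)) =
      finrank K ↥((koszulChains I q j).map (koszulD I)) := by
    intro q
    rw [← hsurj q, ← Submodule.map_comp, koszulD_funFactor, Submodule.map_comp]
    match q with
    | 0 => rw [chains_zero_image, Submodule.map_bot, finrank_bot, finrank_bot]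
    | q + 1 => rw [hiso q _ (map_chains_le J q j)]
  refine betti_eq_of_ranks ?_ (hrank p) (hrank (p + 1))
  rw [← hsurj p, hiso p _ le_rfl]

/-- `β_{p,j}` depends only on the parts of degree at most `j`. -/
theorem betti_congr_low {j : ℕ} (h : ∀ e ≤ j, grade J e = grade I e) (p : ℕ) :
    betti J p j = betti I p j := by
  have hle : ∀ {A B : Ideal (MvPolynomial (Fin n) K)} {e : ℕ}, grade A e ≤ grade B e →
      grade A e ≤ grade (A ⊓ B) e := fun hAB x hx => ⟨⟨hx.1, (hAB hx).1⟩, hx.2⟩
  rw [← betti_congr_of_le (J := I ⊓ J) inf_le_right (fun e he => ?_) p,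
    ← betti_congr_of_le (J := I ⊓ J) inf_le_left (fun e he => hle (h e he).ge) p]
  exact fun x hx => ⟨⟨((h e he) ▸ hx : x ∈ grade I e).1, hx.1⟩, hx.2⟩

end Congr

end Vale.P200.Many
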