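import Vale.Agent.P200.Betti.Defs

/-!
P200, any number of variables: contraction and insertion operators on Koszul chains.
-/

namespace Vale.P200.Many

open Finset Vale.P200.Betti

universe u

section Ops

variable {K : Type u} [Field K] {R : Type*} [CommRing R] [Algebra K R] {n : ℕ}

lemma sgn_self_insert (i : Fin n) (U : Finset (Fin n)) :
    sgn R i (insert i U) = sgn R i U := by
  unfold sgn
  rw [filter_insert, if_neg (lt_irrefl i)]

lemma sgn_erase (i : Fin n) (U : Finset (Fin n)) : sgn R i (U.erase i) = sgn R i U := by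
  by_cases h : i ∈ U
  · conv_rhs => rw [← insert_erase h, sgn_self_insert]
  · rw [erase_eq_of_notMem h]

variable (K) in
/-- Contraction with the `i`-th basis vector. -/
noncomputable def iot (i : Fin n) : (Finset (Fin n) → R) →ₗ[K] (Finset (Fin n) → R) where
  toFun f U := if i ∈ U then 0 else sgn R i U * f (insert i U)
  map_add' f g := funext fun U => by by_cases h : i ∈ U <;> simp [h, mul_add]
  map_smul' r f := funext fun U => by by_cases h : i ∈ U <;> simp [h]

variable (K) in
/-- Insertion of the `i`-th basis vector. -/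
noncomputable def eta (i : Fin n) : (Finset (Fin n) → R) →ₗ[K] (Finset (Fin n) → R) where
  toFun f U := if i ∈ U then sgn R i U * f (U.erase i) else 0
  map_add' f g := funext fun U => by by_cases h : i ∈ U <;> simp [h, mul_add]
  map_smul' r f := funext fun U => by by_cases h : i ∈ U <;> simp [h]

lemma iot_apply (i : Fin n) (f : Finset (Fin n) → R) (U : Finset (Fin n)) :
    iot K i f U = if i ∈ U then 0 else sgn R i U * f (insert i U) := rfl

lemma eta_apply (i : Fin n) (f : Finset (Fin n) → R) (U : Finset (Fin n)) :
    eta K i f U = if i ∈ U then sgn R i U * f (U.erase i) else 0 := rfl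

lemma iot_eta_self (i : Fin n) (f : Finset (Fin n) → R) (U : Finset (Fin n)) :
    iot K i (eta K i f) U = if i ∈ U then 0 else f U := by
  rw [iot_apply]
  split_ifs with h
  · rfl
  · rw [eta_apply, if_pos (mem_insert_self i U), sgn_self_insert, erase_insert h, ← mul_assoc,
      sgn_sq, one_mul]

lemma eta_iot_self (i : Fin n) (f : Finset (Fin n) → R) (U : Finset (Fin n)) :
    eta K i (iot K i f) U = if i ∈ U then f U else 0 := by
  rw [eta_apply]
  split_ifs with h
  · rw [iot_apply, if_neg (notMem_erase i U), sgn_erase, insert_erase h, ← mul_assoc, sgn_sq,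
      one_mul]
  · rfl

lemma iot_add_eta (i : Fin n) (f : Finset (Fin n) → R) :
    iot K i (eta K i f) + eta K i (iot K i f) = f := by
  funext U
  rw [Pi.add_apply, iot_eta_self, eta_iot_self]
  by_cases h : i ∈ U <;> simp [h]

lemma eta_eta (i : Fin n) (f : Finset (Fin n) → R) : eta K i (eta K i f) = 0 := by
  funext U
  rw [eta_apply, Pi.zero_apply]
  split_ifs with h
  · rw [eta_apply, if_neg (notMem_erase i U), mul_zero]
  · rfl

lemma iot_iot (i k : Fin n) (f : Finset (Fin n) → R) :
    iot K i (iot K k f) = -iot K k (iot K i f) := by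
  funext U
  simp only [iot_apply, Pi.neg_apply, mem_insert]
  rcases eq_or_ne i k with rfl | hne
  · simp
  by_cases hi : i ∈ U
  · simp [hi]
  by_cases hk : k ∈ U
  · simp [hk]
  simp only [hi, hk, hne, hne.symm, if_false, or_self, sgn_insert R hi, sgn_insert R hk,
    Finset.insert_comm i k U]
  rcases lt_or_gt_of_ne hne with h | h
  · rw [if_pos h, if_neg (not_lt.2 h.le)]; ring
  · rw [if_neg (not_lt.2 h.le), if_pos h]; ring

lemma iot_self (i : Fin n) (f : Finset (Fin n) → R) : iot K i (iot K i f) = 0 := by
  funext U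
  simp [iot_apply]

lemma iot_eta {i k : Fin n} (hne : i ≠ k) (f : Finset (Fin n) → R) :
    iot K i (eta K k f) = -eta K k (iot K i f) := by
  funext U
  simp only [iot_apply, eta_apply, Pi.neg_apply, mem_insert, mem_erase, hne.symm, false_or]
  by_cases hk : k ∈ U
  · by_cases hi : i ∈ U
    · simp [hi, hk, hne]
    · have h1 : k ∉ U.erase k := notMem_erase k U
      simp only [hi, hk, if_true, if_false, and_false, sgn_insert R hi]
      have h2 : sgn R i U = (if k < i then -1 else 1) * sgn R i (U.erase k) := by
        conv_lhs => rw [← insert_erase hk, sgn_insert R h1]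
      rw [h2, erase_insert_of_ne hne]
      rcases lt_or_gt_of_ne hne with h | h
      · rw [if_pos h, if_neg (not_lt.2 h.le)]; ring
      · rw [if_neg (not_lt.2 h.le), if_pos h]; ring
  · simp [hk]

variable (K) in
/-- A linear map applied to each value. -/
noncomputable def vmap {R' : Type*} [CommRing R'] [Algebra K R'] (g : R →ₗ[K] R') :
    (Finset (Fin n) → R) →ₗ[K] (Finset (Fin n) → R') where
  toFun f U := g (f U)
  map_add' _ _ := funext fun _ => map_add g _ _
  map_smul' r _ := funext fun _ => map_smul g r _

lemma vmap_apply {R' : Type*} [CommRing R'] [Algebra K R'] (g : R →ₗ[K] R')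
    (f : Finset (Fin n) → R) (U : Finset (Fin n)) : vmap K g f U = g (f U) := rfl

lemma map_sgn_mul {R' : Type*} [CommRing R'] [Algebra K R'] (g : R →ₗ[K] R') (i : Fin n)
    (U : Finset (Fin n)) (x : R) : g (sgn R i U * x) = sgn R' i U * g x := by
  unfold sgn
  rcases Nat.even_or_odd (U.filter (· < i)).card with h | h
  · simp [h.neg_one_pow]
  · simp [h.neg_one_pow]

lemma vmap_iot {R' : Type*} [CommRing R'] [Algebra K R'] (g : R →ₗ[K] R') (i : Fin n)
    (f : Finset (Fin n) → R) : vmap K g (iot K i f) = iot K i (vmap K g f) := by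
  funext U
  simp only [vmap_apply, iot_apply]
  split_ifs
  · exact map_zero g
  · exact map_sgn_mul g i U _

lemma vmap_eta {R' : Type*} [CommRing R'] [Algebra K R'] (g : R →ₗ[K] R') (i : Fin n)
    (f : Finset (Fin n) → R) : vmap K g (eta K i f) = eta K i (vmap K g f) := by
  funext U
  simp only [vmap_apply, eta_apply]
  split_ifs
  · exact map_sgn_mul g i U _
  · exact map_zero g

variable (K) in
/-- Multiplication by `y` on each value. -/
noncomputable def vmul (y : R) : (Finset (Fin n) → R) →ₗ[K] (Finset (Fin n) → R) :=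
  vmap K (LinearMap.mulLeft K y)

lemma vmul_apply (y : R) (f : Finset (Fin n) → R) (U : Finset (Fin n)) :
    vmul K y f U = y * f U := rfl

lemma vmul_iot (y : R) (i : Fin n) (f : Finset (Fin n) → R) :
    vmul K y (iot K i f) = iot K i (vmul K y f) := vmap_iot _ i f

lemma vmul_eta (y : R) (i : Fin n) (f : Finset (Fin n) → R) :
    vmul K y (eta K i f) = eta K i (vmul K y f) := vmap_eta _ i f

lemma kd_eq (y : Fin n → R) (f : Finset (Fin n) → R) :
    kd K y f = ∑ i, vmul K (y i) (iot K i f) := by
  funext U
  rw [kd_apply, Finset.sum_apply]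
  rw [← sum_subset (subset_univ Uᶜ) (fun i _ hi => ?_)]
  · refine sum_congr rfl fun i hi => ?_
    rw [vmul_apply, iot_apply, if_neg (mem_compl.1 hi)]
    ring
  · rw [mem_compl, not_not] at hi
    rw [vmul_apply, iot_apply, if_pos hi, mul_zero]

end Ops

end Vale.P200.Many
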