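import Vale.Agent.P200.Betti.Koszul
import Vale.Agent.P200.Many.Ops

/-!
P200, any number of variables: graded Betti numbers as ranks on lifted chains.
-/

namespace Vale.P200.Many

open MvPolynomial Module Finset Vale.P200.Ext Vale.P200.Betti

universe u

variable {K : Type u} [Field K] {n : ℕ}

variable (K n) in
/-- The values of the chains of homological degree `p` and internal degree `j`. -/
noncomputable def sDeg (p j : ℕ) : Submodule K (MvPolynomial (Fin n) K) :=
  if p ≤ j then homogeneousSubmodule (Fin n) K (j - p) else ⊥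

/-- The values of such chains in `I`. -/
noncomputable def iDeg (I : Ideal (MvPolynomial (Fin n) K)) (p j : ℕ) :
    Submodule K (MvPolynomial (Fin n) K) :=
  if p ≤ j then grade I (j - p) else ⊥

variable (K n) in
/-- The chains of the Koszul complex of the polynomial ring. -/
noncomputable def chS (p j : ℕ) : Submodule K (Finset (Fin n) → MvPolynomial (Fin n) K) :=
  suppOn K p (sDeg K n p j)

/-- The chains with values in `I`. -/
noncomputable def chI (I : Ideal (MvPolynomial (Fin n) K)) (p j : ℕ) :
    Submodule K (Finset (Fin n) → MvPolynomial (Fin n) K) :=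
  suppOn K p (iDeg I p j)

variable (K n) in
/-- The Koszul differential of the variables. -/
noncomputable def dS :
    (Finset (Fin n) → MvPolynomial (Fin n) K) →ₗ[K] (Finset (Fin n) → MvPolynomial (Fin n) K) :=
  kd K fun i => X i

/-- The rank of the differential from homological degree `p` modulo `I`. -/
noncomputable def rk (I : Ideal (MvPolynomial (Fin n) K)) (p j : ℕ) : ℕ :=
  finrank K ↥((chS K n p j).map (dS K n) ⊔ chI I (p - 1) j) - finrank K ↥(chI I (p - 1) j)

lemma iDeg_le (I : Ideal (MvPolynomial (Fin n) K)) (p j : ℕ) : iDeg I p j ≤ sDeg K n p j := by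
  unfold iDeg sDeg
  split_ifs
  · exact inf_le_right
  · exact le_rfl

lemma chI_le (I : Ideal (MvPolynomial (Fin n) K)) (p j : ℕ) : chI I p j ≤ chS K n p j :=
  Submodule.pi_mono fun U _ => by
    split_ifs
    · exact iDeg_le I p j
    · exact le_rfl

instance finite_sDeg (p j : ℕ) : FiniteDimensional K ↥(sDeg K n p j) := by
  by_cases h : p ≤ j
  · rw [sDeg, if_pos h]; exact finite_hom (K := K) _
  · rw [sDeg, if_neg h]; infer_instance

instance finite_iDeg (I : Ideal (MvPolynomial (Fin n) K)) (p j : ℕ) :
    FiniteDimensional K ↥(iDeg I p j) :=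
  Submodule.finiteDimensional_of_le (iDeg_le I p j)

instance finite_chS (p j : ℕ) : FiniteDimensional K ↥(chS K n p j) := finite_suppOn p _

instance finite_chI (I : Ideal (MvPolynomial (Fin n) K)) (p j : ℕ) :
    FiniteDimensional K ↥(chI I p j) := finite_suppOn p _

lemma dS_apply_zero {p j : ℕ} {f : Finset (Fin n) → MvPolynomial (Fin n) K}
    (hf : f ∈ chS K n p j) {U : Finset (Fin n)} (hU : U.card + 1 ≠ p) : dS K n f U = 0 := by
  rw [dS, kd_apply]
  exact Finset.sum_eq_zero fun i hi => by
    rw [(mem_suppOn.1 hf).2 _ (by rwa [card_insert_of_notMem (mem_compl.1 hi)]), mul_zero]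

lemma map_chS_zero (j : ℕ) : (chS K n 0 j).map (dS K n) = ⊥ := by
  rw [Submodule.eq_bot_iff]
  rintro _ ⟨f, hf, rfl⟩
  exact funext fun U => dS_apply_zero hf (Nat.succ_ne_zero _)

lemma X_mul_mem_sDeg {p j : ℕ} (i : Fin n) {q : MvPolynomial (Fin n) K}
    (hq : q ∈ sDeg K n (p + 1) j) : X i * q ∈ sDeg K n p j := by
  unfold sDeg at hq ⊢
  by_cases h : p + 1 ≤ j
  · rw [if_pos h] at hq
    rw [if_pos (by omega), show j - p = 1 + (j - (p + 1)) by omega]
    exact (isHomogeneous_X K i).mul hq
  · rw [if_neg h, Submodule.mem_bot] at hq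
    rw [hq, mul_zero]; exact zero_mem _

lemma map_chS_le (p j : ℕ) : (chS K n (p + 1) j).map (dS K n) ≤ chS K n p j := by
  rintro _ ⟨f, hf, rfl⟩
  refine mem_suppOn.2 ⟨fun U hU => ?_, fun U hU => dS_apply_zero hf (by omega)⟩
  rw [dS, kd_apply]
  refine Submodule.sum_mem _ fun i hi => ?_
  have h := (mem_suppOn.1 hf).1 (insert i U)
    (by rw [card_insert_of_notMem (mem_compl.1 hi), hU])
  rw [mul_assoc, sgn]
  rcases neg_one_pow_eq_or (MvPolynomial (Fin n) K) (U.filter (· < i)).card with h1 | h1
  · simpa [h1] using X_mul_mem_sDeg i h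
  · simpa [h1] using Submodule.neg_mem _ (X_mul_mem_sDeg i h)

lemma map_chS_le' (p j : ℕ) : (chS K n p j).map (dS K n) ≤ chS K n (p - 1) j := by
  cases p with
  | zero => rw [map_chS_zero]; exact bot_le
  | succ p => exact map_chS_le p j

variable (I : Ideal (MvPolynomial (Fin n) K))

/-- The quotient map on chains. -/
noncomputable def toQuot :
    (Finset (Fin n) → MvPolynomial (Fin n) K) →ₗ[K]
      (Finset (Fin n) → MvPolynomial (Fin n) K ⧸ I) :=
  vmap K (Ideal.Quotient.mkₐ K I).toLinearMap

lemma toQuot_dS (f : Finset (Fin n) → MvPolynomial (Fin n) K) :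
    toQuot I (dS K n f) = koszulD I (toQuot I f) := by
  funext U
  simp [toQuot, vmap_apply, dS, koszulD, kd_apply, sgn]

lemma map_toQuot (p j : ℕ) : (chS K n p j).map (toQuot I) = koszulChains I p j := by
  classical
  apply le_antisymm
  · rintro _ ⟨f, hf, rfl⟩
    refine mem_suppOn.2 ⟨fun U hU => ?_, fun U hU => ?_⟩
    · have h := (mem_suppOn.1 hf).1 U hU
      unfold sDeg at h
      split_ifs at h ⊢
      · exact ⟨_, h, rfl⟩
      · rw [Submodule.mem_bot] at h ⊢
        simp [toQuot, vmap_apply, h]
    · simp [toQuot, vmap_apply, (mem_suppOn.1 hf).2 U hU]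
  · intro g hg
    have h : ∀ U, ∃ q, q ∈ (if U.card = p then sDeg K n p j else ⊥) ∧
        (Ideal.Quotient.mkₐ K I).toLinearMap q = g U := by
      intro U
      split_ifs with hU
      · have := (mem_suppOn.1 hg).1 U hU
        unfold sDeg
        split_ifs at this ⊢
        · obtain ⟨q, hq, h⟩ := this
          exact ⟨q, hq, h⟩
        · rw [Submodule.mem_bot] at this
          exact ⟨0, zero_mem _, by rw [this, map_zero]⟩
      · exact ⟨0, zero_mem _, by rw [(mem_suppOn.1 hg).2 U hU, map_zero]⟩
    choose q hq hqg using h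
    refine ⟨q, ?_, funext hqg⟩
    exact Submodule.mem_pi.2 fun U _ => hq U

lemma chS_inf_ker (p j : ℕ) :
    chS K n p j ⊓ LinearMap.ker (toQuot I) = chI I p j := by
  ext f
  constructor
  · rintro ⟨hf, hk⟩
    refine mem_suppOn.2 ⟨fun U hU => ?_, (mem_suppOn.1 hf).2⟩
    have h := (mem_suppOn.1 hf).1 U hU
    unfold sDeg at h
    unfold iDeg
    split_ifs at h ⊢
    · exact ⟨Ideal.Quotient.eq_zero_iff_mem.1 (congrFun hk U), h⟩
    · exact h
  · refine fun hf => ⟨chI_le I p j hf, funext fun U => ?_⟩
    by_cases hU : U.card = p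
    · have h := (mem_suppOn.1 hf).1 U hU
      unfold iDeg at h
      split_ifs at h
      · exact Ideal.Quotient.eq_zero_iff_mem.2 h.1
      · rw [Submodule.mem_bot] at h
        simp [toQuot, vmap_apply, h]
    · simp [toQuot, vmap_apply, (mem_suppOn.1 hf).2 U hU]

/-- The dimension of the image modulo `I` of a space of chains. -/
lemma finrank_map_toQuot {p j : ℕ} {W : Submodule K (Finset (Fin n) → MvPolynomial (Fin n) K)}
    (hW : W ≤ chS K n p j) :
    finrank K ↥(W.map (toQuot I)) + finrank K ↥(chI I p j) = finrank K ↥(W ⊔ chI I p j) := by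
  have : FiniteDimensional K ↥W := Submodule.finiteDimensional_of_le hW
  have h1 := finrank_inf_ker_add (toQuot I) W
  have h2 := Submodule.finrank_sup_add_finrank_inf_eq W (chI I p j)
  rw [show W ⊓ LinearMap.ker (toQuot I) = W ⊓ chI I p j by
    rw [← chS_inf_ker I p j, ← inf_assoc, inf_eq_left.2 hW]] at h1
  omega

lemma finrank_boundary (p j : ℕ) :
    finrank K ↥((koszulChains I p j).map (koszulD I)) = rk I p j := by
  have h1 : (koszulChains I p j).map (koszulD I) =
      ((chS K n p j).map (dS K n)).map (toQuot I) := by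
    rw [← map_toQuot, ← Submodule.map_comp, ← Submodule.map_comp]
    congr 1
    exact LinearMap.ext fun f => (toQuot_dS I f).symm
  have h2 := finrank_map_toQuot I (map_chS_le' (K := K) (n := n) p j)
  rw [h1, rk]
  omega

/-- The Betti number from the two ranks. -/
theorem betti_rank (p j : ℕ) :
    betti I p j + rk I p j + rk I (p + 1) j + finrank K ↥(chI I p j) =
      finrank K ↥(chS K n p j) := by
  have := finite_chains I p j
  have h1 := finrank_inf_ker_add (koszulD I) (koszulChains I p j)
  have h2 := betti_add I p j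
  rw [finrank_boundary] at h1 h2
  have h3 := finrank_map_toQuot I (le_refl (chS K n p j))
  rw [map_toQuot, sup_eq_left.2 (chI_le I p j)] at h3
  omega

end Vale.P200.Many
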