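import Vale.Agent.P200.Many.Layers

/-!
P200, any number of variables: the Betti numbers are unchanged by coordinate changes and by the
distraction of the last variable.
-/

namespace Vale.P200.Many

open MvPolynomial Module Finset Vale.P200.Ext Vale.P200.Betti

universe u

section General

variable {K : Type u} [Field K] {n : ℕ}

/-- A map preserving degrees commutes with the homogeneous components. -/
lemma hcomp_comm {σ τ : Type*} (ψ : MvPolynomial σ K →ₗ[K] MvPolynomial τ K)
    (hψ : ∀ d q, q.IsHomogeneous d → (ψ q).IsHomogeneous d) (d : ℕ) (q : MvPolynomial σ K) :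
    homogeneousComponent d (ψ q) = ψ (homogeneousComponent d q) := by
  conv_lhs => rw [← sum_homogeneousComponent q, map_sum, map_sum]
  rw [Finset.sum_congr rfl fun e _ => homogeneousComponent_of_mem
    ((mem_homogeneousSubmodule _ _).2 (hψ e _ (homogeneousComponent_isHomogeneous e q))),
    Finset.sum_ite_eq]
  split_ifs with h
  · rfl
  · rw [homogeneousComponent_eq_zero, map_zero]
    simp at h
    omega

lemma dS_eq (f : Finset (Fin n) → MvPolynomial (Fin n) K) :
    dS K n f = ∑ i, vmul K (X i : MvPolynomial (Fin n) K) (iot K i f) := kd_eq _ f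

/-- The differential anticommutes with insertion up to multiplication. -/
lemma dS_eta (k : Fin n) (f : Finset (Fin n) → MvPolynomial (Fin n) K) :
    dS K n (eta K k f) + eta K k (dS K n f) = vmul K (X k) f := by
  rw [dS_eq, dS_eq, map_sum, ← Finset.sum_add_distrib, Finset.sum_eq_single k]
  · rw [← vmul_eta, ← map_add, iot_add_eta]
  · intro i _ hi
    rw [← vmul_eta, ← map_add, iot_eta hi, neg_add_cancel, map_zero]
  · simp

theorem exists_twist (z : Fin n)
    (ψ π : MvPolynomial (Fin n) K →ₗ[K] MvPolynomial (Fin n) K) (c : Fin n → K) (hc : c z = 0)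
    (hinj : Function.Injective ψ) (hψ : ∀ d q, q.IsHomogeneous d → (ψ q).IsHomogeneous d)
    (hπ : ∀ d q, q.IsHomogeneous d → (π q).IsHomogeneous d)
    (hX : ∀ i, i ≠ z → ∀ q, ψ (X i * q) = X i * ψ q)
    (hπX : ∀ i, i ≠ z → ∀ q, π (X i * q) = X i * π q)
    (hz : ∀ q, ψ (X z * q - (∑ k, c k • X k) * π q) = X z * ψ q) (j : ℕ) :
    ∃ Ψ : (Finset (Fin n) → MvPolynomial (Fin n) K) →ₗ[K]
        (Finset (Fin n) → MvPolynomial (Fin n) K),
      Function.Injective Ψ ∧ (∀ f, dS K n (Ψ f) = Ψ (dS K n f)) ∧
      (∀ p, (chS K n p j).map Ψ = chS K n p j) ∧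
      ∀ I I' : Ideal (MvPolynomial (Fin n) K), (∀ q ∈ I, π q ∈ I) → (∀ q ∈ I, ψ q ∈ I') →
        (∀ d, finrank K ↥(grade I' d) = finrank K ↥(grade I d)) →
        ∀ p, (chI I p j).map Ψ = chI I' p j := by
  classical
  set V := Finset (Fin n) → MvPolynomial (Fin n) K
  let Θ : V →ₗ[K] V := ∑ k, c k • (eta K k).comp ((vmap K π).comp (iot K z))
  let Ψ : V →ₗ[K] V := (vmap K ψ).comp (LinearMap.id + Θ)
  have hΘ : ∀ f, Θ f = ∑ k, c k • eta K k (vmap K π (iot K z f)) := fun f => by simp [Θ]
  have hιΘ : ∀ f, iot K z (Θ f) = 0 := fun f => by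
    rw [hΘ, map_sum]
    refine Finset.sum_eq_zero fun k _ => ?_
    rcases eq_or_ne z k with rfl | hk
    · rw [hc, zero_smul, map_zero]
    · rw [map_smul, iot_eta hk, ← vmap_iot, iot_self, map_zero, map_zero, neg_zero, smul_zero]
  have hΨinj : Function.Injective Ψ := by
    rw [injective_iff_map_eq_zero]
    intro f hf
    have h1 : f + Θ f = 0 := funext fun U => hinj (by
      rw [Pi.zero_apply, map_zero]; exact congrFun hf U)
    have h2 := congrArg (iot K z) h1
    rw [map_add, hιΘ, add_zero, map_zero] at h2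
    rw [hΘ, h2] at h1
    simpa using h1
  have hψd : ∀ g, dS K n (vmap K ψ g) = vmap K ψ (dS K n g -
      vmul K (∑ k, c k • X k) (vmap K π (iot K z g))) := fun g => by
    have e : ∀ y i, vmap K ψ (vmul K y (iot K i g)) = fun U => ψ (y * iot K i g U) := fun _ _ => rfl
    funext U
    rw [dS_eq, dS_eq, map_sub, map_sum, Pi.sub_apply, Finset.sum_apply, Finset.sum_apply,
      ← Finset.sum_erase_add _ _ (Finset.mem_univ z), ← Finset.sum_erase_add _ _ (Finset.mem_univ z),
      add_sub_assoc]
    congr 1
    · refine Finset.sum_congr rfl fun i hi => ?_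
      rw [← vmap_iot, vmul_apply, vmap_apply, e]
      exact (hX i (Finset.mem_erase.1 hi).1 _).symm
    · rw [← vmap_iot, vmul_apply, vmap_apply, e]
      dsimp only
      rw [vmap_apply, vmul_apply, vmap_apply, ← map_sub, hz]
  have hιd : ∀ f, vmap K π (iot K z (dS K n f)) = -dS K n (vmap K π (iot K z f)) := fun f => by
    rw [dS_eq, dS_eq, map_sum, map_sum, ← Finset.sum_neg_distrib]
    refine Finset.sum_congr rfl fun i _ => ?_
    rw [← vmul_iot, ← vmap_iot]
    funext U
    rcases eq_or_ne i z with rfl | hi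
    · simp [vmap_apply, iot_self]
    · rw [vmap_apply, vmul_apply, hπX i hi, Pi.neg_apply, vmul_apply, vmap_apply, iot_iot]
      simp
  have hdΨ : ∀ f, dS K n (Ψ f) = Ψ (dS K n f) := fun f => by
    show dS K n (vmap K ψ (f + Θ f)) = vmap K ψ (dS K n f + Θ (dS K n f))
    rw [hψd]
    congr 1
    rw [map_add (iot K z), hιΘ, add_zero, map_add (dS K n), hΘ, hΘ, map_sum, hιd, add_sub_assoc]
    congr 1
    have e : ∀ k, dS K n (c k • eta K k (vmap K π (iot K z f))) =
        c k • eta K k (-dS K n (vmap K π (iot K z f))) + c k • vmul K (X k) (vmap K π (iot K z f)) :=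
      fun k => by rw [map_smul, ← smul_add, ← dS_eta, map_neg]; congr 1; abel
    rw [Finset.sum_congr rfl fun k _ => e k, Finset.sum_add_distrib, sub_eq_iff_eq_add]
    congr 1
    funext U
    rw [Finset.sum_apply, vmul_apply, Finset.sum_mul]
    exact Finset.sum_congr rfl fun k _ => by rw [Pi.smul_apply, vmul_apply, smul_mul_assoc]
  have hmap : ∀ (M M' : Submodule K (MvPolynomial (Fin n) K)) (p : ℕ),
      (∀ q ∈ M, ψ q ∈ M') → (∀ q ∈ M, π q ∈ M) →
      ∀ f ∈ suppOn (n := n) K p M, Ψ f ∈ suppOn K p M' := by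
    intro M M' p h1 h2 f hf
    obtain ⟨hf1, hf2⟩ := mem_suppOn.1 hf
    have hg : f + Θ f ∈ suppOn K p M := by
      refine Submodule.add_mem _ hf (hΘ f ▸ Submodule.sum_mem _ fun k _ => Submodule.smul_mem _ _ ?_)
      refine mem_suppOn.2 ⟨fun U hU => ?_, fun U hU => ?_⟩ <;> rw [eta_apply] <;> split_ifs with hk
      · rw [vmap_apply, iot_apply]
        split_ifs with hz'
        · simp
        · rw [map_sgn_mul, sgn, sgn]
          have := h2 _ (hf1 (insert z (U.erase k)) (by
            rw [card_insert_of_notMem hz', card_erase_of_mem hk]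
            have := card_pos.2 ⟨k, hk⟩
            omega))
          rcases neg_one_pow_eq_or (MvPolynomial (Fin n) K) (U.filter (· < k)).card with h | h <;>
          rcases neg_one_pow_eq_or (MvPolynomial (Fin n) K)
            ((U.erase k).filter (· < z)).card with h' | h' <;> simp [h, h', this]
      · exact zero_mem _
      · rw [vmap_apply, iot_apply]
        split_ifs with hz'
        · simp
        · rw [hf2 _ (by
            rw [card_insert_of_notMem hz', card_erase_of_mem hk]
            have := card_pos.2 ⟨k, hk⟩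
            omega)]
          simp
      · rfl
    exact mem_suppOn.2 ⟨fun U hU => h1 _ ((mem_suppOn.1 hg).1 U hU), fun U hU => by
      show ψ ((f + Θ f) U) = 0
      rw [(mem_suppOn.1 hg).2 U hU, map_zero]⟩
  have hC : ∀ p, (chS K n p j).map Ψ = chS K n p j := by
    intro p
    refine Submodule.eq_of_le_of_finrank_eq ?_
      (Submodule.equivMapOfInjective Ψ hΨinj _).finrank_eq.symm
    rintro _ ⟨f, hf, rfl⟩
    refine hmap _ _ p (fun q hq => ?_) (fun q hq => ?_) f hf <;>
    · unfold sDeg at hq ⊢
      split_ifs at hq ⊢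
      · first | exact hψ _ _ hq | exact hπ _ _ hq
      · rw [Submodule.mem_bot] at hq ⊢
        simp [hq]
  refine ⟨Ψ, hΨinj, hdΨ, hC, fun I I' hπI hψI hdim => ?_⟩
  have hfin : ∀ p, finrank K ↥(chI I' p j) = finrank K ↥(chI I p j) := by
    intro p
    rw [chI, chI, finrank_suppOn, finrank_suppOn]
    congr 1
    by_cases h : p ≤ j
    · rw [iDeg, iDeg, if_pos h, if_pos h]; exact hdim _
    · rw [iDeg, iDeg, if_neg h, if_neg h]
  have hD : ∀ p, (chI I p j).map Ψ = chI I' p j := by
    intro p
    refine Submodule.eq_of_le_of_finrank_eq ?_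
      (((Submodule.equivMapOfInjective Ψ hΨinj _).finrank_eq.symm).trans (hfin p).symm)
    rintro _ ⟨f, hf, rfl⟩
    refine hmap _ _ p (fun q hq => ?_) (fun q hq => ?_) f hf <;>
    · unfold iDeg at hq ⊢
      split_ifs at hq ⊢
      · first | exact ⟨hψI _ hq.1, hψ _ _ hq.2⟩ | exact ⟨hπI _ hq.1, hπ _ _ hq.2⟩
      · rw [Submodule.mem_bot] at hq ⊢
        simp [hq]
  exact hD

/-- A twist of the last variable keeps the Betti numbers. -/
theorem betti_twist (I I' : Ideal (MvPolynomial (Fin n) K)) (z : Fin n)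
    (ψ π : MvPolynomial (Fin n) K →ₗ[K] MvPolynomial (Fin n) K) (c : Fin n → K) (hc : c z = 0)
    (hinj : Function.Injective ψ) (hψ : ∀ d q, q.IsHomogeneous d → (ψ q).IsHomogeneous d)
    (hπ : ∀ d q, q.IsHomogeneous d → (π q).IsHomogeneous d) (hπI : ∀ q ∈ I, π q ∈ I)
    (hψI : ∀ q ∈ I, ψ q ∈ I') (hdim : ∀ d, finrank K ↥(grade I' d) = finrank K ↥(grade I d))
    (hX : ∀ i, i ≠ z → ∀ q, ψ (X i * q) = X i * ψ q)
    (hπX : ∀ i, i ≠ z → ∀ q, π (X i * q) = X i * π q)
    (hz : ∀ q, ψ (X z * q - (∑ k, c k • X k) * π q) = X z * ψ q) (p j : ℕ) :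
    betti I' p j = betti I p j := by
  obtain ⟨Ψ, hΨinj, hdΨ, hC, hD'⟩ := exists_twist z ψ π c hc hinj hψ hπ hX hπX hz j
  have hD := hD' I I' hπI hψI hdim
  have hfin : ∀ p, finrank K ↥(chI I' p j) = finrank K ↥(chI I p j) := fun p => by
    rw [← hD p, ← (Submodule.equivMapOfInjective Ψ hΨinj _).finrank_eq]
  have hrk : ∀ p, rk I' p j = rk I p j := by
    intro p
    have e : ((chS K n p j).map (dS K n) ⊔ chI I (p - 1) j).map Ψ =
        (chS K n p j).map (dS K n) ⊔ chI I' (p - 1) j := by
      rw [Submodule.map_sup, hD, ← Submodule.map_comp]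
      congr 1
      conv_rhs => rw [← hC p, ← Submodule.map_comp]
      congr 1
      exact LinearMap.ext fun f => (hdΨ f).symm
    have e' := (Submodule.equivMapOfInjective Ψ hΨinj
      ((chS K n p j).map (dS K n) ⊔ chI I (p - 1) j)).finrank_eq
    rw [e] at e'
    rw [rk, rk, hfin, e']
  have h1 := betti_rank I p j
  have h2 := betti_rank I' p j
  rw [hrk p, hrk (p + 1), hfin p] at h2
  omega

end General

section Distraction

variable {K : Type u} [Field K] {r : ℕ}

/-- Dividing by the last variable. -/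
noncomputable def down : MvPolynomial (Fin (r + 1)) K →ₗ[K] MvPolynomial (Fin (r + 1)) K :=
  (basisMonomials (Fin (r + 1)) K).constr K fun m =>
    if m (Fin.last r) = 0 then 0 else monomial (m - Finsupp.single (Fin.last r) 1) 1

lemma down_monomial (m : Fin (r + 1) →₀ ℕ) (c : K) :
    down (monomial m c) =
      if m (Fin.last r) = 0 then 0 else monomial (m - Finsupp.single (Fin.last r) 1) c := by
  have h := (basisMonomials (Fin (r + 1)) K).constr_basis K
      (fun m => if m (Fin.last r) = 0 then (0 : MvPolynomial (Fin (r + 1)) K) else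
        monomial (m - Finsupp.single (Fin.last r) 1) 1) m
  rw [coe_basisMonomials] at h
  rw [show monomial m c = c • monomial m (1 : K) by simp [smul_monomial], down, map_smul, h]
  split_ifs <;> simp [smul_monomial]

lemma down_X_mul (i : Fin r) (p : MvPolynomial (Fin (r + 1)) K) :
    down (X i.castSucc * p) = X i.castSucc * down p := by
  induction p using MvPolynomial.induction_on' with
  | add p q hp hq => simp [mul_add, map_add, hp, hq]
  | monomial n c =>
    rw [show (X i.castSucc : MvPolynomial (Fin (r + 1)) K) * monomial n c =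
      monomial (Finsupp.single i.castSucc 1 + n) c by simp [X, monomial_mul],
      down_monomial, down_monomial]
    have : (Finsupp.single i.castSucc 1 + n : Fin (r + 1) →₀ ℕ) (Fin.last r) = n (Fin.last r) := by
      simp [Fin.castSucc_ne_last]
    rw [this]
    split_ifs with h
    · simp
    · rw [X, monomial_mul, one_mul, add_tsub_assoc_of_le]
      exact Finsupp.single_le_iff.2 (Nat.one_le_iff_ne_zero.2 h)

lemma down_z_mul (p : MvPolynomial (Fin (r + 1)) K) : down (X (Fin.last r) * p) = p := by
  induction p using MvPolynomial.induction_on' with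
  | add p q hp hq => simp [mul_add, map_add, hp, hq]
  | monomial n c =>
    rw [show (X (Fin.last r) : MvPolynomial (Fin (r + 1)) K) * monomial n c =
      monomial (Finsupp.single (Fin.last r) 1 + n) c by simp [X, monomial_mul], down_monomial]
    simp

lemma z_mul_down (p : MvPolynomial (Fin (r + 1)) K) :
    X (Fin.last r) * down p = p - zc 0 p := by
  induction p using MvPolynomial.induction_on' with
  | add p q hp hq => rw [map_add, map_add, mul_add, hp, hq]; abel
  | monomial n c =>
    rw [down_monomial, zc_monomial]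
    split_ifs with h
    · simp
    · rw [X, monomial_mul, one_mul, sub_zero,
        add_tsub_cancel_of_le (Finsupp.single_le_iff.2 (Nat.one_le_iff_ne_zero.2 h))]

lemma X_down_homogeneous (i : Fin r) {q : MvPolynomial (Fin (r + 1)) K} {d : ℕ}
    (hq : q.IsHomogeneous d) : (X i.castSucc * down q).IsHomogeneous d := by
  rw [q.as_sum, map_sum, Finset.mul_sum]
  refine IsHomogeneous.sum _ _ _ fun m hm => ?_
  have hd : m.degree = d := by
    by_contra hne
    exact mem_support_iff.1 hm (hq.coeff_eq_zero hne)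
  rw [down_monomial]
  split_ifs with h
  · rw [mul_zero]; exact isHomogeneous_zero _ _ _
  · rw [X, monomial_mul]
    refine isHomogeneous_monomial _ ?_
    have e := add_tsub_cancel_of_le (Finsupp.single_le_iff.2 (Nat.one_le_iff_ne_zero.2 h))
    rw [← e, map_add, Finsupp.degree_single] at hd
    rw [map_add, Finsupp.degree_single, hd]

end Distraction

end Vale.P200.Many
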