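import Vale.Agent.P200.Betti.Final
import Vale.Agent.P200.Many.Twist

/-!
P200, any number of variables: a coordinate change making the last variable regular, and the
variation of the Betti numbers along an inclusion.
-/

namespace Vale.P200.Many

open MvPolynomial Module Finset Vale.P200.Ext Vale.P200.Betti

universe u

section Mono

variable {K : Type u} [Field K] {n : ℕ}

lemma finrank_chI (I : Ideal (MvPolynomial (Fin n) K)) {p j : ℕ} (hp : p ≤ j) :
    finrank K ↥(chI I p j) = n.choose p * finrank K ↥(grade I (j - p)) := by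
  rw [chI, finrank_suppOn, iDeg, if_pos hp]

/-- Enlarging an ideal raises a Betti number by at most the chains of the difference. -/
theorem betti_le_of_le {I I' : Ideal (MvPolynomial (Fin n) K)} {p j : ℕ} (hp : p + 1 ≤ j)
    (h : ∀ d ≤ j, grade I d ≤ grade I' d) :
    betti I' (p + 1) j ≤ betti I (p + 1) j +
      n.choose p * (finrank K ↥(grade I' (j - p)) - finrank K ↥(grade I (j - p))) := by
  have hle : ∀ q, chI I q j ≤ chI I' q j := fun q => Submodule.pi_mono fun U _ => by
    split_ifs
    · unfold iDeg
      split_ifs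
      · exact h _ (Nat.sub_le _ _)
      · exact le_rfl
    · exact le_rfl
  have hrk : ∀ q, rk I (q + 1) j + finrank K ↥(chI I q j) ≤
      rk I' (q + 1) j + finrank K ↥(chI I' q j) := fun q => by
    rw [rk, rk, show q + 1 - 1 = q from rfl]
    have : FiniteDimensional K ↥((chS K n (q + 1) j).map (dS K n)) := Module.Finite.map _ _
    rw [Nat.sub_add_cancel (Submodule.finrank_mono le_sup_right),
      Nat.sub_add_cancel (Submodule.finrank_mono le_sup_right)]
    exact Submodule.finrank_mono (sup_le_sup_left (hle q) _)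
  have h1 := betti_rank I (p + 1) j
  have h2 := betti_rank I' (p + 1) j
  have h3 := hrk p
  have h4 := hrk (p + 1)
  have h6 := finrank_chI I (show p ≤ j by omega)
  have h7 := finrank_chI I' (show p ≤ j by omega)
  have h8 := Submodule.finrank_mono (hle p)
  rw [Nat.mul_sub]
  omega

end Mono

section Coord

variable {K : Type u} [Field K] [Infinite K] {r : ℕ}

/-- A regular linear form in which the last variable has coefficient one. -/
lemma exists_last_form {l : List (MvPolynomial (Fin (r + 1)) K)} (hl : l.length < r + 1)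
    (hpos : ∀ g ∈ l, PosForm g) (hreg : RegMod ⊥ l) :
    ∃ c : Fin (r + 1) → K, c (Fin.last r) = 0 ∧
      NZD (Ideal.ofList l) (X (Fin.last r) - ∑ k, c k • X k) := by
  classical
  let Q := Ideal.ofList l
  let ι := {P : Ideal (MvPolynomial (Fin (r + 1)) K) //
    P ∈ associatedPrimes (MvPolynomial (Fin (r + 1)) K) (MvPolynomial (Fin (r + 1)) K ⧸ Q)}
  have : Finite ι := (associatedPrimes.finite _ _).to_subtype
  let T : (Fin (r + 1) → K) →ₗ[K] MvPolynomial (Fin (r + 1)) K :=
    ∑ k, (LinearMap.proj k).smulRight (X k : MvPolynomial (Fin (r + 1)) K)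
  have hT : ∀ v, T v = ∑ k, v k • X k := fun v => by simp [T]
  let S : Option ι → Submodule K (Fin (r + 1) → K) := fun o => o.elim
    (LinearMap.ker (LinearMap.proj (Fin.last r) : (Fin (r + 1) → K) →ₗ[K] K))
    fun P => (P.1.restrictScalars K).comap T
  obtain ⟨v, hv⟩ := Submodule.exists_forall_notMem_of_forall_ne_top S fun o ho => by
    cases o with
    | none =>
      have : (Pi.single (Fin.last r) 1 : Fin (r + 1) → K) ∈ S none := ho ▸ Submodule.mem_top
      simp [S] at this
    | some P =>
      obtain ⟨hprime, y, hy⟩ := isAssociatedPrime_iff.1 P.2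
      obtain ⟨w, rfl⟩ := Submodule.Quotient.mk_surjective (p := Q) y
      refine not_all_X hl hpos hreg hprime (r := w) (fun x => ?_) fun i => ?_
      · rw [hy, Submodule.mem_colon_singleton, Submodule.mem_bot, ← Submodule.Quotient.mk_smul,
          Submodule.Quotient.mk_eq_zero, smul_eq_mul]
      · have : (Pi.single i 1 : Fin (r + 1) → K) ∈ S (some P) := ho ▸ Submodule.mem_top
        simpa [S, hT, Pi.single_apply, ite_smul] using this
  set g := T v
  have hnzd : NZD Q g := by
    intro p hp
    have hreg1 : IsSMulRegular (MvPolynomial (Fin (r + 1)) K ⧸ Q) g := by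
      by_contra hn
      have h1 : g ∈ ({x : MvPolynomial (Fin (r + 1)) K |
          IsSMulRegular (MvPolynomial (Fin (r + 1)) K ⧸ Q) x}ᶜ : Set _) := hn
      rw [← biUnion_associatedPrimes_eq_compl_regular] at h1
      simp only [Set.mem_iUnion, SetLike.mem_coe] at h1
      obtain ⟨P, hP, hgP⟩ := h1
      exact hv (some ⟨P, hP⟩) hgP
    exact (isSMulRegular_quotient_iff_mem_of_smul_mem _ _).1 hreg1 p hp
  have hv0 : v (Fin.last r) ≠ 0 := fun h0 => hv none (by simp [S, h0])
  refine ⟨fun k => if k = Fin.last r then 0 else -(v (Fin.last r))⁻¹ * v k, if_pos rfl, ?_⟩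
  have e : X (Fin.last r) - ∑ k, (if k = Fin.last r then 0 else -(v (Fin.last r))⁻¹ * v k) • X k =
      C (v (Fin.last r))⁻¹ * g := by
    rw [show g = ∑ k, v k • X k from hT v, C_mul', Finset.smul_sum, ← Finset.add_sum_erase _ _ (Finset.mem_univ (Fin.last r)),
      ← Finset.add_sum_erase _ _ (Finset.mem_univ (Fin.last r)), if_pos rfl, zero_smul, zero_add,
      smul_smul, inv_mul_cancel₀ hv0, one_smul, sub_eq_add_neg, ← Finset.sum_neg_distrib]
    congr 1
    refine Finset.sum_congr rfl fun k hk => ?_
    rw [if_neg (Finset.mem_erase.1 hk).1, smul_smul, neg_mul, neg_smul, neg_neg]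
  intro p hp
  rw [e, mul_assoc] at hp
  have := Ideal.mul_mem_left _ (C (v (Fin.last r))) hp
  rw [← mul_assoc, ← map_mul, mul_inv_cancel₀ hv0, map_one, one_mul] at this
  exact hnzd p this

omit [Infinite K] in
/-- The substitution `z ↦ z + ∑ c k X k`, with the same Betti numbers. -/
theorem exists_coord (c : Fin (r + 1) → K) (hc : c (Fin.last r) = 0) :
    ∃ A : MvPolynomial (Fin (r + 1)) K ≃ₐ[K] MvPolynomial (Fin (r + 1)) K,
      (∀ d p, (A p).IsHomogeneous d ↔ p.IsHomogeneous d) ∧
      A (X (Fin.last r) - ∑ k, c k • X k) = X (Fin.last r) ∧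
      ∀ I : Ideal (MvPolynomial (Fin (r + 1)) K), ∀ p j, betti (I.map A) p j = betti I p j := by
  classical
  set L : MvPolynomial (Fin (r + 1)) K := ∑ k, c k • X k with hL
  let φ (s : K) : MvPolynomial (Fin (r + 1)) K →ₐ[K] MvPolynomial (Fin (r + 1)) K :=
    aeval fun i => if i = Fin.last r then X i + s • L else X i
  have hφX : ∀ s i, φ s (X i) = if i = Fin.last r then X i + s • L else X i := fun s i => by simp [φ]
  have hφL : ∀ s, φ s L = L := fun s => by
    rw [hL, map_sum]
    refine Finset.sum_congr rfl fun k _ => ?_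
    rw [map_smul, hφX]
    split_ifs with hk
    · rw [hk, hc, zero_smul, zero_smul]
    · rfl
  have hinv : ∀ s, (φ s).comp (φ (-s)) = AlgHom.id K _ := fun s => by
    refine MvPolynomial.algHom_ext fun i => ?_
    rw [AlgHom.comp_apply, hφX]
    split_ifs with hi
    · rw [map_add, map_smul, hφL, hφX, if_pos hi, add_assoc, ← add_smul, add_neg_cancel, zero_smul,
        add_zero]
      rfl
    · rw [hφX, if_neg hi]; rfl
  let A := AlgEquiv.ofAlgHom (φ 1) (φ (-1)) (hinv 1) (by simpa using hinv (-1))
  have hA : ∀ p, A p = φ 1 p := fun p => rfl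
  have hLh : L.IsHomogeneous 1 := IsHomogeneous.sum _ _ _ fun k _ =>
    (homogeneousSubmodule (Fin (r + 1)) K 1).smul_mem _ (isHomogeneous_X K k)
  have hφh : ∀ s d p, p.IsHomogeneous d → (φ s p).IsHomogeneous d := fun s d p hp => by
    have := hp.aeval (fun i => if i = Fin.last r then X i + s • L else X i) (n := 1) fun i => by
      split_ifs
      · exact (isHomogeneous_X K i).add ((homogeneousSubmodule (Fin (r + 1)) K 1).smul_mem s hLh)
      · exact isHomogeneous_X K i
    simpa [φ] using this
  have hhom : ∀ d p, (A p).IsHomogeneous d ↔ p.IsHomogeneous d := fun d p => by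
    refine ⟨fun h => ?_, fun h => hφh 1 d p h⟩
    have h1 := hφh (-1) d _ h
    rwa [hA, ← AlgHom.comp_apply, show (φ (-1)).comp (φ 1) = AlgHom.id K _ by
      simpa using hinv (-1), AlgHom.id_apply] at h1
  refine ⟨A, hhom, ?_, fun I p j => ?_⟩
  · rw [map_sub, hA, hA, hφX, if_pos rfl, one_smul, hφL, add_sub_cancel_right]
  · refine betti_twist I _ (Fin.last r) A.toLinearMap LinearMap.id c hc A.injective
      (fun d q hq => (hhom d q).2 hq) (fun d q hq => hq) (fun q hq => hq)
      (fun q hq => Ideal.mem_map_of_mem _ hq) (finrank_grade_equiv A hhom I) (fun i hi q => ?_)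
      (fun i _ q => rfl) (fun q => ?_) p j
    · show A (X i * q) = X i * A q
      rw [map_mul, hA, hφX, if_neg hi]
    · show A (X (Fin.last r) * q - L * q) = X (Fin.last r) * A q
      rw [← sub_mul, map_mul, map_sub, hA (X _), hA L, hφX, if_pos rfl, one_smul, hφL,
        add_sub_cancel_right]

end Coord

end Vale.P200.Many
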