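import Vale.Agent.P200.Betti.Final
import Vale.Agent.P200.Many.Change

/-!
P200, any number of variables: the lex-plus-powers statement over every field from the statement
over infinite fields.
-/

namespace Vale.P200.Many

open MvPolynomial Module Vale.P200.Ext Vale.P200.Betti

universe u

/-- The lex-plus-powers statement in `n` variables over `K` for forms of the degrees `a`. -/
def LppAt (K : Type u) [Field K] (n : ℕ) {c : ℕ} (a : Fin c → ℕ) : Prop :=
  ∀ (h : c ≤ n), (∀ i, 2 ≤ a i) → Monotone a →
    ∀ f : Fin c → MvPolynomial (Fin n) K, (∀ i, (f i).IsHomogeneous (a i)) →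
      RegMod ⊥ (List.ofFn f) →
    ∀ I : Ideal (MvPolynomial (Fin n) K), Closed I → (∀ i, f i ∈ I) →
    ∃ J : Ideal (MvPolynomial (Fin n) K),
      (∀ d, grade J d = lppSpaceN (powersIdeal K h a) I d ∧
        finrank K ↥(grade J d) = finrank K ↥(grade I d)) ∧
      ∀ p j, betti I p j ≤ betti J p j

/-- The lex-plus-powers statement for `c` forms in `n` variables over `K`. -/
def LppBettiN (K : Type u) [Field K] (n c : ℕ) : Prop :=
  ∀ (h : c ≤ n) (a : Fin c → ℕ), (∀ i, 2 ≤ a i) → Monotone a →
    ∀ f : Fin c → MvPolynomial (Fin n) K, (∀ i, (f i).IsHomogeneous (a i)) →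
      RegMod ⊥ (List.ofFn f) →
    ∀ I : Ideal (MvPolynomial (Fin n) K), Closed I → (∀ i, f i ∈ I) →
    ∃ J : Ideal (MvPolynomial (Fin n) K),
      (∀ d, grade J d = lppSpaceN (powersIdeal K h a) I d ∧
        finrank K ↥(grade J d) = finrank K ↥(grade I d)) ∧
      ∀ p j, betti I p j ≤ betti J p j

lemma LppBettiN.at {K : Type u} [Field K] {n c : ℕ} (H : LppBettiN K n c) (a : Fin c → ℕ) :
    LppAt K n a := fun h ha hmono => H h a ha hmono

lemma lppBettiN_of_at {K : Type u} [Field K] {n c : ℕ} (H : ∀ a : Fin c → ℕ, LppAt K n a) :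
    LppBettiN K n c := fun h a ha hmono => H a h ha hmono

/-- From infinite fields to all fields. -/
theorem lppAt_of_infinite {n c : ℕ} {a : Fin c → ℕ}
    (hinf : ∀ (L : Type u) [Field L] [Infinite L], LppAt L n a)
    (K : Type u) [Field K] : LppAt K n a := by
  classical
  intro h ha hmono f hf hreg I hI hfI
  let L := RatFunc K
  have : Infinite L := Infinite.of_injective _ (RatFunc.algebraMap_injective K)
  let φ := MvPolynomial.map (σ := Fin n) (algebraMap K L)
  have hregL : RegMod ⊥ (List.ofFn fun i => φ (f i)) := by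
    have := RegMod.baseChange (L := L) _ _ hreg
    rw [Ideal.map_bot, List.map_ofFn] at this
    exact this
  obtain ⟨JL, hJL, hJLb⟩ := hinf L h ha hmono (fun i => φ (f i)) (fun i => (hf i).map _) hregL (I.map φ)
    (Closed.baseChange hI) (fun i => Ideal.mem_map_of_mem _ (hfI i))
  obtain ⟨S, hS, hpow, hcount⟩ := hasMon_of_family h a (fun _ => JL) fun _ d _ => hJL d
  obtain ⟨J, hJ⟩ := exists_lpp_of_hasMon h hmono (I := I)
    ⟨S, hS, hpow, fun d => (hcount d).trans (finrank_grade_baseChange I d)⟩
  refine ⟨J, hJ, fun p j => ?_⟩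
  have hgrade : ∀ e, grade (J.map φ) e = grade JL e := by
    intro e
    rw [(hJL e).1, lppSpaceN_eq_restrict, finrank_grade_baseChange]
    have := finiteDimensional_grade (J.map φ) e
    refine (Submodule.eq_of_le_of_finrank_le ?_ ?_).symm
    · rw [restrictSupport_eq_span, Submodule.span_le]
      rintro _ ⟨m, hm, rfl⟩
      have : monomial m (1 : K) ∈ grade J e := by
        rw [(hJ e).1, lppSpaceN_eq_restrict, monomial_mem_restrictSupport]
        exact Or.inl hm
      have h1 := Ideal.mem_map_of_mem φ this.1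
      rw [map_monomial, map_one] at h1
      exact ⟨h1, isHomogeneous_monomial _ hm.1⟩
    · rw [finrank_grade_baseChange, (hJ e).1, lppSpaceN_eq_restrict, finrank_restrictSupport_gen,
        finrank_restrictSupport_gen]
  rw [← betti_baseChange L I, ← betti_baseChange L J,
    betti_congr_low (I := JL) (J := J.map φ) (fun e _ => hgrade e) p]
  exact hJLb p j

theorem lppBettiN_of_infinite {n c : ℕ}
    (hinf : ∀ (L : Type u) [Field L] [Infinite L], LppBettiN L n c)
    (K : Type u) [Field K] : LppBettiN K n c :=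
  lppBettiN_of_at fun a => lppAt_of_infinite (fun L _ _ => (hinf L).at a) K

end Vale.P200.Many
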