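import Vale.Agent.P200.Many.Complex

/-!
P200, any number of variables: ranks of the Koszul differential on a pair of ideals.
-/

namespace Vale.P200.Many

open MvPolynomial Module Finset Vale.P200.Ext Vale.P200.Betti

universe u

variable {K : Type u} [Field K] {n : ℕ}

/-- The rank of the Koszul differential from the chains with values in `L`, modulo `G`. -/
noncomputable def rkP (G L : Ideal (MvPolynomial (Fin n) K)) (p j : ℕ) : ℕ :=
  finrank K ↥((chI L p j).map (dS K n) ⊔ chI G (p - 1) j) - finrank K ↥(chI G (p - 1) j)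

lemma rkP_add (G L : Ideal (MvPolynomial (Fin n) K)) (p j : ℕ) :
    rkP G L p j + finrank K ↥(chI G (p - 1) j) =
      finrank K ↥((chI L p j).map (dS K n) ⊔ chI G (p - 1) j) := by
  have : FiniteDimensional K ↥((chI L p j).map (dS K n)) := Module.Finite.map _ _
  exact Nat.sub_add_cancel (Submodule.finrank_mono le_sup_right)

lemma chI_top (p j : ℕ) : chI (⊤ : Ideal (MvPolynomial (Fin n) K)) p j = chS K n p j := by
  rw [chI, chS]
  congr 1
  unfold iDeg sDeg
  split_ifs
  · ext q; simp [Ext.grade]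
  · rfl

/-- The rank modulo `I` is the rank on the pair `(I, ⊤)`. -/
lemma rk_eq_rkP (I : Ideal (MvPolynomial (Fin n) K)) (p j : ℕ) : rk I p j = rkP I ⊤ p j := by
  rw [rk, rkP, chI_top]

lemma chI_congr {I I' : Ideal (MvPolynomial (Fin n) K)} {p j : ℕ}
    (h : p ≤ j → grade I (j - p) = grade I' (j - p)) : chI I p j = chI I' p j := by
  rw [chI, chI]
  congr 1
  unfold iDeg
  split_ifs with hp
  · exact h hp
  · rfl

lemma chI_mono {I I' : Ideal (MvPolynomial (Fin n) K)} {p j : ℕ}
    (h : p ≤ j → grade I (j - p) ≤ grade I' (j - p)) : chI I p j ≤ chI I' p j :=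
  Submodule.pi_mono fun U _ => by
    split_ifs
    · unfold iDeg
      split_ifs with hp
      · exact h hp
      · exact le_rfl
    · exact le_rfl

lemma chI_eq_bot {I : Ideal (MvPolynomial (Fin n) K)} {p j : ℕ} (h : n < p ∨ j < p) :
    chI I p j = ⊥ := by
  rw [Submodule.eq_bot_iff]
  intro f hf
  funext U
  by_cases hU : U.card = p
  · have hv := (mem_suppOn.1 hf).1 U hU
    rcases h with h | h
    · exact absurd (hU ▸ card_finset_fin_le U) (not_le.2 h)
    · rwa [iDeg, if_neg (not_le.2 h), Submodule.mem_bot] at hv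
  · exact (mem_suppOn.1 hf).2 U hU

lemma map_chI_le' (L : Ideal (MvPolynomial (Fin n) K)) (p j : ℕ) :
    (chI L p j).map (dS K n) ≤ chS K n (p - 1) j :=
  (Submodule.map_mono (chI_le L p j)).trans (map_chS_le' p j)

lemma rkP_zero (G L : Ideal (MvPolynomial (Fin n) K)) (j : ℕ) : rkP G L 0 j = 0 := by
  have h : (chI L 0 j).map (dS K n) = ⊥ :=
    le_bot_iff.1 ((Submodule.map_mono (chI_le L 0 j)).trans (map_chS_zero j).le)
  rw [rkP, h, bot_sup_eq, Nat.sub_self]

lemma rkP_eq_zero {G L : Ideal (MvPolynomial (Fin n) K)} {p j : ℕ} (h : n < p ∨ j < p) :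
    rkP G L p j = 0 := by
  rw [rkP, chI_eq_bot (I := L) h, Submodule.map_bot, bot_sup_eq, Nat.sub_self]

/-- The rank depends on `L` in one degree and on `G` in the next one. -/
lemma rkP_congr {G G' L L' : Ideal (MvPolynomial (Fin n) K)} {p j : ℕ}
    (hL : p ≤ j → grade L (j - p) = grade L' (j - p))
    (hG : 1 ≤ p → p ≤ j → grade G (j - p + 1) = grade G' (j - p + 1)) :
    rkP G L p j = rkP G' L' p j := by
  rcases Nat.lt_or_ge j p with hj | hj
  · rw [rkP_eq_zero (Or.inr hj), rkP_eq_zero (Or.inr hj)]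
  rcases p with _ | p
  · rw [rkP_zero, rkP_zero]
  · rw [rkP, rkP, chI_congr hL, chI_congr (I := G) (I' := G') (p := p + 1 - 1) fun _ => ?_]
    have := hG (Nat.succ_le_succ (Nat.zero_le p)) hj
    rwa [show j - (p + 1) + 1 = j - (p + 1 - 1) by omega] at this

/-- A larger source has a larger rank. -/
lemma rkP_mono {G L L' : Ideal (MvPolynomial (Fin n) K)} {p j : ℕ}
    (hL : p ≤ j → grade L (j - p) ≤ grade L' (j - p)) : rkP G L p j ≤ rkP G L' p j := by
  have : FiniteDimensional K ↥((chI L' p j).map (dS K n)) := Module.Finite.map _ _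
  refine Nat.sub_le_sub_right (Submodule.finrank_mono (sup_le_sup_right ?_ _)) _
  exact Submodule.map_mono (chI_mono hL)

/-- Nothing survives modulo a full degree. -/
lemma rkP_of_full {G L : Ideal (MvPolynomial (Fin n) K)} {p j : ℕ}
    (h : p ≤ j → grade G (j - p + 1) = homogeneousSubmodule (Fin n) K (j - p + 1)) :
    rkP G L p j = 0 := by
  rcases p with _ | p
  · exact rkP_zero G L j
  rcases Nat.lt_or_ge j (p + 1) with hj | hj
  · exact rkP_eq_zero (Or.inr hj)
  rw [rkP, sup_eq_right.2, Nat.sub_self]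
  refine (map_chI_le' L (p + 1) j).trans (Submodule.pi_mono fun U _ => ?_)
  split_ifs
  · unfold iDeg sDeg
    split_ifs with hp
    · have := h hj
      rw [show j - (p + 1) + 1 = j - (p + 1 - 1) by omega] at this
      rw [this]
    · exact le_rfl
  · exact le_rfl

end Vale.P200.Many
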