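import Vale.Agent.P200.Ext.CI
import Vale.Agent.P200.Many.Pair

/-!
P200, any number of variables: self-duality of the Koszul complex under linkage.
-/

namespace Vale.P200.Many

open MvPolynomial Module Finset Vale.P200.Ext Vale.P200.Betti

universe u

variable {K : Type u} [Field K] {n : ℕ}

/-- The rank on a pair, by the kernel. -/
lemma rkP_add_kernel (G L : Ideal (MvPolynomial (Fin n) K)) (p j : ℕ) :
    rkP G L p j + finrank K ↥(chI L p j ⊓ (chI G (p - 1) j).comap (dS K n)) =
      finrank K ↥(chI L p j) := by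
  set D := chI G (p - 1) j
  set Z := chI L p j ⊓ D.comap (dS K n)
  have : FiniteDimensional K ↥Z := Submodule.finiteDimensional_of_le inf_le_left
  have : FiniteDimensional K ↥((chI L p j).map (dS K n)) := Module.Finite.map _ _
  have h1 : rkP G L p j + finrank K ↥D = finrank K ↥((chI L p j).map (dS K n) ⊔ D) :=
    rkP_add G L p j
  have h2 := finrank_inf_ker_add (dS K n) Z
  have h3 := finrank_inf_ker_add (dS K n) (chI L p j)
  have h4 := Submodule.finrank_sup_add_finrank_inf_eq ((chI L p j).map (dS K n)) D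
  have h5 : Z ⊓ LinearMap.ker (dS K n) = chI L p j ⊓ LinearMap.ker (dS K n) :=
    le_antisymm (inf_le_inf_right _ inf_le_left) fun f hf =>
      ⟨⟨hf.1, by rw [SetLike.mem_coe, Submodule.mem_comap, LinearMap.mem_ker.1 hf.2]; exact zero_mem _⟩,
        hf.2⟩
  have h6 : Z.map (dS K n) = (chI L p j).map (dS K n) ⊓ D :=
    le_antisymm (by rintro _ ⟨f, hf, rfl⟩; exact ⟨⟨f, hf.1, rfl⟩, hf.2⟩)
      (by rintro _ ⟨⟨f, hf, rfl⟩, hm⟩; exact ⟨f, ⟨hf, hm⟩, rfl⟩)
  rw [h5, h6] at h2
  omega

/-- A functional detecting the socle. -/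
lemma exists_socle_functional {Q : Ideal (MvPolynomial (Fin n) K)} {σ : ℕ} (hs : Soc1 Q σ)
    (hz : ∀ (d : ℕ) (p : MvPolynomial (Fin n) K), σ < d → p.IsHomogeneous d → p ∈ Q) :
    ∃ lam : MvPolynomial (Fin n) K →ₗ[K] K, (∀ p ∈ Q, lam p = 0) ∧
      ∀ p : MvPolynomial (Fin n) K, p.IsHomogeneous σ → lam p = 0 → p ∈ Q := by
  obtain ⟨u, hud, huX, hu, huniq⟩ := hs.2
  obtain ⟨lam, hlamu, hlam⟩ :=
    Submodule.exists_dual_map_eq_bot_of_notMem (p := Q.restrictScalars K) hu inferInstance
  have hlamQ : ∀ p ∈ Q, lam p = 0 := fun p hp => by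
    have : lam p ∈ (Q.restrictScalars K).map lam := ⟨p, hp, rfl⟩
    rwa [hlam, Submodule.mem_bot] at this
  refine ⟨lam, hlamQ, fun p hp h0 => ?_⟩
  obtain ⟨r, hr⟩ := huniq p hp fun i => hz (1 + σ) _ (by omega) ((isHomogeneous_X K i).mul hp)
  have h1 := hlamQ _ hr
  rw [map_sub, h0, ← smul_eq_C_mul, map_smul, smul_eq_mul, zero_sub, neg_eq_zero] at h1
  rcases mul_eq_zero.1 h1 with h2 | h2
  · simpa [h2] using hr
  · exact absurd h2 hlamu

/-- Double linkage in one degree: what pairs to zero with the linked ideal lies in the ideal. -/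
lemma mem_of_linked {Q I : Ideal (MvPolynomial (Fin n) K)} (hI : Closed I) (hle : Q ≤ I) {σ : ℕ}
    (hs : Soc1 Q σ)
    (hz : ∀ (d : ℕ) (p : MvPolynomial (Fin n) K), σ < d → p.IsHomogeneous d → p ∈ Q)
    {lam : MvPolynomial (Fin n) K →ₗ[K] K}
    (hlam : ∀ p : MvPolynomial (Fin n) K, p.IsHomogeneous σ → lam p = 0 → p ∈ Q)
    {m : ℕ} (hm : m ≤ σ) {x : MvPolynomial (Fin n) K} (hx : x.IsHomogeneous m)
    (h : ∀ g ∈ grade (Q.colon (I : Set (MvPolynomial (Fin n) K))) (σ - m), lam (x * g) = 0) :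
    x ∈ I := by
  set I' := I ⊔ Ideal.span {x}
  have hI' : Closed I' := hI.sup_span hx
  have hle' : Q ≤ I' := hle.trans le_sup_left
  have hL : grade (Q.colon (I' : Set (MvPolynomial (Fin n) K))) (σ - m) =
      grade (Q.colon (I : Set (MvPolynomial (Fin n) K))) (σ - m) := by
    refine le_antisymm ?_ fun g hg => ⟨?_, hg.2⟩
    · rintro g ⟨hg, hgd⟩
      refine ⟨?_, hgd⟩
      show g ∈ Q.colon (I : Set (MvPolynomial (Fin n) K))
      exact Submodule.mem_colon.2 fun y hy => Submodule.mem_colon.1 hg y (le_sup_left (a := I) hy)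
    · show g ∈ Q.colon (I' : Set (MvPolynomial (Fin n) K))
      rw [Submodule.mem_colon]
      intro y hy
      obtain ⟨q, hq, v, rfl⟩ := mem_sup_span.1 hy
      have hgx : x * g ∈ Q := hlam _ (by
        have := hx.mul hg.2
        rwa [show m + (σ - m) = σ by omega] at this) (h g hg)
      rw [smul_eq_mul, show g * (q + v * x) = g * q + v * (x * g) by ring]
      exact Q.add_mem (Submodule.mem_colon.1 hg.1 q hq) (Q.mul_mem_left _ hgx)
  have h1 := hq_colon hI hle hs hz (e := σ - m) (Nat.sub_le _ _)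
  have h2 := hq_colon hI' hle' hs hz (e := σ - m) (Nat.sub_le _ _)
  rw [show σ - (σ - m) = m by omega] at h1 h2
  simp only [hq] at h1 h2
  rw [hL] at h2
  have := finite_grade I' m
  have h3 := finrank_grade_le_hom (K := K) I m
  have h4 := finrank_grade_le_hom (K := K) I' m
  have heq : grade I m = grade I' m :=
    Submodule.eq_of_le_of_finrank_le (inf_le_inf_right _ (le_sup_left (a := I))) (by omega)
  have hxI' : x ∈ grade I' m := ⟨Submodule.mem_sup_right (Ideal.subset_span rfl), hx⟩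
  rw [← heq] at hxI'
  exact hxI'.1

/-- The sign of an index set. -/
def idxSign (R : Type*) [CommRing R] (U : Finset (Fin n)) : R := (-1) ^ (∑ i ∈ U, i.val)

lemma sgn_compl {R : Type*} [CommRing R] {U : Finset (Fin n)} {i : Fin n} (hi : i ∉ U) :
    idxSign R U * sgn R i U = idxSign R (insert i U) * sgn R i (insert i U)ᶜ := by
  have h : (U.filter (· < i)).card + ((insert i U)ᶜ.filter (· < i)).card = i.val := by
    rw [← card_union_of_disjoint ?_]
    · have : U.filter (· < i) ∪ (insert i U)ᶜ.filter (· < i) = Finset.Iio i := by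
        ext k
        simp only [mem_union, mem_filter, mem_compl, mem_insert, mem_Iio, not_or]
        constructor
        · rintro (h | h) <;> exact h.2
        · intro hk
          by_cases hkU : k ∈ U
          · exact Or.inl ⟨hkU, hk⟩
          · exact Or.inr ⟨⟨hk.ne, hkU⟩, hk⟩
      rw [this, Fin.card_Iio]
    · refine disjoint_left.2 fun k hk hk' => ?_
      simp only [mem_filter, mem_compl, mem_insert, not_or] at hk hk'
      exact hk'.1.2 hk.1
  unfold idxSign sgn
  rw [sum_insert hi, ← pow_add, ← pow_add,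
    show i.val + ∑ k ∈ U, k.val + ((insert i U)ᶜ.filter (· < i)).card =
      (∑ k ∈ U, k.val + (U.filter (· < i)).card) +
        2 * ((insert i U)ᶜ.filter (· < i)).card by omega,
    pow_add _ (∑ k ∈ U, k.val + _) (2 * _), pow_mul, neg_one_sq, one_pow, mul_one]

/-- The Koszul differential is adjoint to itself for complementary index sets. -/
lemma dS_adjoint (u v : Finset (Fin n) → MvPolynomial (Fin n) K) :
    ∑ U, idxSign (MvPolynomial (Fin n) K) U * (dS K n u U * v Uᶜ) =
      ∑ W, idxSign (MvPolynomial (Fin n) K) W * (u W * dS K n v Wᶜ) := by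
  simp only [dS, kd_apply, sum_mul, mul_sum, compl_compl]
  rw [sum_sigma', sum_sigma']
  refine sum_nbij' (fun x => ⟨insert x.2 x.1, x.2⟩) (fun y => ⟨y.1.erase y.2, y.2⟩) ?_ ?_ ?_ ?_ ?_
  · intro x hx
    simp at hx ⊢
  · intro y hy
    simp at hy ⊢
  · rintro ⟨U, i⟩ hx
    simp at hx
    simp [erase_insert hx]
  · rintro ⟨W, i⟩ hy
    simp at hy
    simp [insert_erase hy]
  · rintro ⟨U, i⟩ hx
    simp at hx
    show idxSign (MvPolynomial (Fin n) K) U *
        (sgn (MvPolynomial (Fin n) K) i U * X i * u (insert i U) * v Uᶜ) =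
      idxSign (MvPolynomial (Fin n) K) (insert i U) *
        (u (insert i U) * (sgn (MvPolynomial (Fin n) K) i (insert i U)ᶜ * X i *
          v (insert i (insert i U)ᶜ)))
    have hU : insert i (insert i U)ᶜ = Uᶜ := by
      ext k
      simp only [mem_insert, mem_compl, not_or]
      by_cases hk : k = i
      · subst hk; simp [hx]
      · simp [hk]
    rw [hU]
    linear_combination (X i * u (insert i U) * v Uᶜ) *
      sgn_compl (R := MvPolynomial (Fin n) K) hx

lemma idxSign_mul_self (R : Type*) [CommRing R] (U : Finset (Fin n)) :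
    idxSign R U * idxSign R U = 1 := by
  rw [idxSign, ← mul_pow, neg_one_mul, neg_neg, one_pow]

lemma dS_mem_iff {G : Ideal (MvPolynomial (Fin n) K)} {p j : ℕ}
    {f : Finset (Fin n) → MvPolynomial (Fin n) K} (hp : p + 1 ≤ j)
    (hf : f ∈ chS K n (p + 1) j) :
    dS K n f ∈ chI G p j ↔ ∀ U : Finset (Fin n), U.card = p → dS K n f U ∈ G := by
  have h := map_chS_le p j ⟨f, hf, rfl⟩
  refine ⟨fun hd U hU => ?_, fun hd => mem_suppOn.2 ⟨fun U hU => ?_, (mem_suppOn.1 h).2⟩⟩
  · have := (mem_suppOn.1 hd).1 U hU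
    rw [iDeg, if_pos (by omega)] at this
    exact this.1
  · have hv := (mem_suppOn.1 h).1 U hU
    rw [sDeg, if_pos (by omega)] at hv
    rw [iDeg, if_pos (by omega)]
    exact ⟨hd U hU, hv⟩

lemma single_mem_chI {G : Ideal (MvPolynomial (Fin n) K)} {p j : ℕ} (hp : p ≤ j)
    {U : Finset (Fin n)} (hU : U.card = p) {g : MvPolynomial (Fin n) K} (hg : g ∈ grade G (j - p)) :
    (Pi.single U g : Finset (Fin n) → MvPolynomial (Fin n) K) ∈ chI G p j := by
  refine mem_suppOn.2 ⟨fun V _ => ?_, fun V hV => ?_⟩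
  · rw [iDeg, if_pos hp]
    by_cases hVU : V = U
    · subst hVU; rwa [Pi.single_eq_same]
    · rw [Pi.single_eq_of_ne hVU]; exact zero_mem _
  · exact Pi.single_eq_of_ne (by rintro rfl; exact hV hU) _

/-- The differential of `S/I` is adjoint to the differential of the linked module. -/
theorem rk_dual {Q I : Ideal (MvPolynomial (Fin n) K)} (_hQ : Closed Q) (hI : Closed I)
    (hle : Q ≤ I) {σ : ℕ} (hs : Soc1 Q σ)
    (hz : ∀ (d : ℕ) (p : MvPolynomial (Fin n) K), σ < d → p.IsHomogeneous d → p ∈ Q)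
    {p j : ℕ} (hp : 1 ≤ p) (hpn : p ≤ n) (hj : j ≤ σ + n) :
    rk I p j = rkP Q (Q.colon (I : Set (MvPolynomial (Fin n) K))) (n + 1 - p) (σ + n - j) := by
  classical
  set L := Q.colon (I : Set (MvPolynomial (Fin n) K))
  have hfull : ∀ (G : Ideal (MvPolynomial (Fin n) K)), Q ≤ G → ∀ d, σ < d →
      grade G d = homogeneousSubmodule (Fin n) K d := fun G hG d hd =>
    le_antisymm inf_le_right fun x hx => ⟨hG (hz d x hd hx), hx⟩
  rw [rk_eq_rkP]
  rcases Nat.lt_or_ge j p with hjp | hjp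
  · rw [rkP_eq_zero (Or.inr hjp), rkP_of_full fun _ => hfull Q le_rfl _ (by omega)]
  rcases Nat.lt_or_ge σ (j - p + 1) with hm | hm
  · rw [rkP_of_full fun _ => hfull I hle _ hm, rkP_eq_zero (Or.inr (by omega))]
  obtain ⟨p, rfl⟩ : ∃ p', p = p' + 1 := ⟨p - 1, by omega⟩
  obtain ⟨p₂, hp₂⟩ : ∃ p', n + 1 - (p + 1) = p' + 1 := ⟨n + 1 - (p + 1) - 1, by omega⟩
  set j₂ := σ + n - j with hj₂
  rw [hp₂]
  obtain ⟨lam, hlamQ, hlam⟩ := exists_socle_functional hs hz
  set R := MvPolynomial (Fin n) K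
  set C := chI (⊤ : Ideal (MvPolynomial (Fin n) K)) (p + 1) j with hCdef
  set V := chI L (p₂ + 1) j₂ with hVdef
  let F : (Finset (Fin n) → R) → (Finset (Fin n) → R) → R := fun u v =>
    ∑ U, idxSign R U * (dS K n u U * v Uᶜ)
  let ψ : ↥C →ₗ[K] Module.Dual K ↥V :=
    LinearMap.mk₂ K (fun u v => lam (F u.1 v.1))
      (fun u u' v => by simp [F, add_mul, mul_add, sum_add_distrib])
      (fun s u v => by simp [F, mul_sum])
      (fun u v v' => by simp [F, mul_add, sum_add_distrib])
      (fun s u v => by simp [F, mul_sum])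
  have hψ : ∀ u v, ψ u v = lam (F u.1 v.1) := fun u v => rfl
  have hCS : C ≤ chS K n (p + 1) j := chI_le _ _ _
  have hVS : V ≤ chS K n (p₂ + 1) j₂ := chI_le _ _ _
  -- the left kernel
  have hkψ : LinearMap.ker ψ = Submodule.comap C.subtype (C ⊓ (chI I p j).comap (dS K n)) := by
    ext ⟨u, hu⟩
    show ψ ⟨u, hu⟩ = 0 ↔ u ∈ C ∧ dS K n u ∈ chI I p j
    constructor
    · intro h0
      refine ⟨hu, (dS_mem_iff hjp (hCS hu)).2 fun U hU => ?_⟩
      have hUd : (dS K n u U).IsHomogeneous (j - p) := by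
        have := (mem_suppOn.1 (map_chS_le p j ⟨u, hCS hu, rfl⟩)).1 U hU
        rwa [sDeg, if_pos (by omega)] at this
      refine mem_of_linked hI hle hs hz hlam (by omega) hUd fun g hg => ?_
      have hgV : (Pi.single Uᶜ g : Finset (Fin n) → R) ∈ V := by
        refine single_mem_chI (by omega) (by rw [card_compl, Fintype.card_fin, hU]; omega) ?_
        rwa [show j₂ - (p₂ + 1) = σ - (j - p) by omega]
      have h1 : lam (F u (Pi.single Uᶜ g)) = 0 := LinearMap.congr_fun h0 ⟨_, hgV⟩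
      rw [show F u (Pi.single Uᶜ g) = idxSign R U * (dS K n u U * g) by
        simp only [F]
        rw [sum_eq_single U (fun U' _ hne => by
          rw [Pi.single_eq_of_ne (fun h => hne (compl_injective h)), mul_zero, mul_zero])
          (by simp), Pi.single_eq_same]] at h1
      rcases neg_one_pow_eq_or R (∑ i ∈ U, i.val) with h2 | h2
      · simpa [idxSign, h2] using h1
      · simpa [idxSign, h2] using h1
    · rintro ⟨-, hd⟩
      refine LinearMap.ext fun v => ?_
      rw [hψ, LinearMap.zero_apply]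
      refine hlamQ _ (Q.sum_mem fun U _ => Q.mul_mem_left _ ?_)
      have hvL : v.1 Uᶜ ∈ L := by
        by_cases hc : Uᶜ.card = p₂ + 1
        · have := (mem_suppOn.1 v.2).1 Uᶜ hc
          rw [iDeg, if_pos (by omega)] at this
          exact this.1
        · rw [(mem_suppOn.1 v.2).2 _ hc]; exact zero_mem _
      have hdI : dS K n u U ∈ I := by
        by_cases hc : U.card = p
        · exact (dS_mem_iff hjp (hCS hu)).1 hd U hc
        · rw [(mem_suppOn.1 hd).2 U hc]; exact zero_mem _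
      rw [mul_comm]
      exact Submodule.mem_colon.1 hvL _ hdI
  -- the right kernel
  have : FiniteDimensional K ↥V := finite_chI _ _ _
  have : FiniteDimensional K ↥C := finite_chI _ _ _
  let φ := ψ.dualMap.comp (Module.evalEquiv K ↥V).toLinearMap
  have hφ : ∀ v u, φ v u = lam (F u.1 v.1) := fun v u => rfl
  have hrank : finrank K ↥(LinearMap.range φ) = finrank K ↥(LinearMap.range ψ) := by
    rw [LinearMap.range_comp_of_range_eq_top _ (LinearEquiv.range _)]
    exact LinearMap.finrank_range_dualMap_eq_finrank_range ψ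
  have hkφ : LinearMap.ker φ = Submodule.comap V.subtype (V ⊓ (chI Q p₂ j₂).comap (dS K n)) := by
    ext ⟨v, hv⟩
    show φ ⟨v, hv⟩ = 0 ↔ v ∈ V ∧ dS K n v ∈ chI Q p₂ j₂
    constructor
    · intro h0
      refine ⟨hv, (dS_mem_iff (by omega) (hVS hv)).2 fun T hT => ?_⟩
      have hTd : (dS K n v T).IsHomogeneous (j₂ - p₂) := by
        have := (mem_suppOn.1 (map_chS_le p₂ j₂ ⟨v, hVS hv, rfl⟩)).1 T hT
        rwa [sDeg, if_pos (by omega)] at this
      refine mem_of_pairing hs (j - (p + 1)) (j₂ - p₂) _ hTd (by omega) fun g hg => ?_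
      have hgC : (Pi.single Tᶜ g : Finset (Fin n) → R) ∈ C :=
        single_mem_chI hjp (by rw [card_compl, Fintype.card_fin, hT]; omega)
          ⟨Submodule.mem_top, hg⟩
      have h1 : lam (F (Pi.single Tᶜ g) v) = 0 := LinearMap.congr_fun h0 ⟨_, hgC⟩
      rw [show F (Pi.single Tᶜ g) v = idxSign R Tᶜ * (g * dS K n v T) by
        simp only [F]
        rw [dS_adjoint, sum_eq_single Tᶜ (fun W _ hne => by
          rw [Pi.single_eq_of_ne hne, zero_mul, mul_zero]) (by simp), Pi.single_eq_same,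
          compl_compl]] at h1
      refine hlam _ ?_ ?_
      · have := hg.mul hTd
        rwa [show j - (p + 1) + (j₂ - p₂) = σ by omega] at this
      rcases neg_one_pow_eq_or R (∑ i ∈ Tᶜ, i.val) with h2 | h2
      · simpa [idxSign, h2] using h1
      · simpa [idxSign, h2] using h1
    · rintro ⟨-, hd⟩
      refine LinearMap.ext fun u => ?_
      rw [hφ, LinearMap.zero_apply]
      show lam (∑ U, idxSign R U * (dS K n u.1 U * v Uᶜ)) = 0
      rw [dS_adjoint]
      refine hlamQ _ (Q.sum_mem fun W _ => Q.mul_mem_left _ (Q.mul_mem_left _ ?_))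
      by_cases hc : Wᶜ.card = p₂
      · exact (dS_mem_iff (by omega) (hVS hv)).1 hd _ hc
      · rw [(mem_suppOn.1 hd).2 _ hc]; exact zero_mem _
  have a1 := LinearMap.finrank_range_add_finrank_ker ψ
  have a2 := LinearMap.finrank_range_add_finrank_ker φ
  rw [hkψ, (Submodule.comapSubtypeEquivOfLe (inf_le_left :
    C ⊓ (chI I p j).comap (dS K n) ≤ C)).finrank_eq] at a1
  rw [hkφ, (Submodule.comapSubtypeEquivOfLe (inf_le_left :
    V ⊓ (chI Q p₂ j₂).comap (dS K n) ≤ V)).finrank_eq, hrank] at a2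
  have b1 : rkP I ⊤ (p + 1) j + finrank K ↥(C ⊓ (chI I p j).comap (dS K n)) = finrank K ↥C :=
    rkP_add_kernel I ⊤ (p + 1) j
  have b2 : rkP Q L (p₂ + 1) j₂ + finrank K ↥(V ⊓ (chI Q p₂ j₂).comap (dS K n)) = finrank K ↥V :=
    rkP_add_kernel Q L (p₂ + 1) j₂
  omega

end Vale.P200.Many
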