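import Vale.Agent.P200.Ext.Link
import Vale.Agent.P200.Ext.Lit
import Vale.Agent.P200.Betti.Final

/-!
P200, any number of variables: the linked ideal of a lex-plus-powers ideal is lex-plus-powers.

The exponents outside the powers form a box. The colon of the powers by `J` consists, outside the
powers, of the exponents whose complement in the box is outside `J`; complementing reverses the
order, and linkage gives the number of exponents in each degree.
-/

namespace Vale.P200.Many

open MvPolynomial Module Finset Vale.P200.Ext Vale.P200.Betti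

universe u

variable {K : Type u} [Field K] {n : ℕ}

lemma mem_restrictSupport_coeff {S : Set (Fin n →₀ ℕ)} {p : MvPolynomial (Fin n) K} :
    p ∈ restrictSupport K S ↔ ∀ x, coeff x p ≠ 0 → x ∈ S :=
  ⟨fun h _ hx => h (MvPolynomial.mem_support_iff.2 hx),
    fun h x hx => h x (MvPolynomial.mem_support_iff.1 hx)⟩

lemma mem_powers_iff {c : ℕ} {h : c ≤ n} {a : Fin c → ℕ} {p : MvPolynomial (Fin n) K} :
    p ∈ powersIdeal K h a ↔ ∀ x, coeff x p ≠ 0 → ¬ OutN h a x := by
  rw [powersIdeal_eq]
  exact mem_restrictSupport_coeff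

/-- The powers of the first `c` variables form a regular sequence. -/
lemma powers_regMod_le : ∀ {c : ℕ} (h : c ≤ n) (a : Fin c → ℕ),
    RegMod ⊥ (List.ofFn fun i => (X (Fin.castLE h i) : MvPolynomial (Fin n) K) ^ a i) := by
  intro c
  induction c with
  | zero => intro h a; simp [RegMod]
  | succ c ih =>
    intro h a
    rw [List.ofFn_succ', List.concat_eq_append]
    refine regMod_snoc.2 ⟨ih (c.le_succ.trans h) fun i => a i.castSucc, fun p hp => ?_⟩
    have hP : Ideal.ofList (List.ofFn fun i : Fin c =>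
        (X (Fin.castLE h i.castSucc) : MvPolynomial (Fin n) K) ^ a i.castSucc) =
        powersIdeal K (c.le_succ.trans h) fun i => a i.castSucc :=
      congrArg Ideal.span (Set.ext fun x => List.mem_ofFn)
    rw [hP, mem_powers_iff] at hp ⊢
    intro x hx ho
    refine hp (Finsupp.single (Fin.castLE h (Fin.last c)) (a (Fin.last c)) + x) ?_ fun i => ?_
    · rwa [X_pow_eq_monomial, coeff_monomial_mul, one_mul]
    · rw [Finsupp.add_apply, Finsupp.single_eq_of_ne, zero_add]
      · exact ho i
      · simp only [ne_eq, Fin.ext_iff, Fin.val_castLE, Fin.val_last]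
        omega

/-- The powers of all variables form a regular sequence generating the powers ideal. -/
theorem powers_regMod (a : Fin n → ℕ) (ha : ∀ i, 1 ≤ a i) :
    RegMod ⊥ (List.ofFn fun i => (X i : MvPolynomial (Fin n) K) ^ a i) ∧
      powersIdeal K le_rfl a =
        Ideal.ofList (List.ofFn fun i => (X i : MvPolynomial (Fin n) K) ^ a i) :=
  have _ := ha
  ⟨powers_regMod_le le_rfl a, congrArg Ideal.span (Set.ext fun _ => List.mem_ofFn.symm)⟩

lemma coe_mem_lev {a : Fin n → ℕ} {d : ℕ} {x : Fin n →₀ ℕ} :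
    (x : Fin n → ℕ) ∈ lev a d ↔ x.degree = d ∧ OutN le_rfl a x := by
  rw [mem_lev, and_comm, Finsupp.degree_eq_sum]
  exact Iff.rfl

lemma ncard_outN_gt (a : Fin n → ℕ) (d : ℕ) (x : Fin n →₀ ℕ) :
    {y : Fin n →₀ ℕ | y.degree = d ∧ toLex x < toLex y ∧ OutN le_rfl a y}.ncard =
      Ext.rk a d (x : Fin n → ℕ) := by
  classical
  rw [Ext.rk, ← Set.ncard_coe_finset,
    ← Set.ncard_image_of_injective _ (DFunLike.coe_injective (F := Fin n →₀ ℕ))]
  congr 1
  ext g
  simp only [Set.mem_image, Finset.coe_filter, Set.mem_ofPred_eq]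
  constructor
  · rintro ⟨y, ⟨h1, h2, h3⟩, rfl⟩
    exact ⟨coe_mem_lev.2 ⟨h1, h3⟩, h2⟩
  · rintro ⟨hg, h2⟩
    refine ⟨Finsupp.equivFunOnFinite.symm g, ⟨?_, h2, ?_⟩, rfl⟩
    · exact ((coe_mem_lev (x := Finsupp.equivFunOnFinite.symm g)).1 hg).1
    · exact ((coe_mem_lev (x := Finsupp.equivFunOnFinite.symm g)).1 hg).2

/-- An exponent outside the powers lies in the lex-plus-powers set when its rank is small. -/
lemma mem_lpSet_iff {a : Fin n → ℕ} {d r : ℕ} {x : Fin n →₀ ℕ}
    (hx : (x : Fin n → ℕ) ∈ lev a d) :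
    x ∈ lpSet le_rfl a d r ↔ Ext.rk a d (x : Fin n → ℕ) <
      r - {m : Fin n →₀ ℕ | m.degree = d ∧ ¬ OutN le_rfl a m}.ncard := by
  obtain ⟨h1, h2⟩ := coe_mem_lev.1 hx
  rw [lpSet, Set.mem_ofPred_eq, ncard_outN_gt]
  simp [h1, h2]

/-- Above the socle degree a complete intersection contains everything. -/
lemma mem_ofList_of_socle_lt {a : Fin n → ℕ} {f : Fin n → MvPolynomial (Fin n) K}
    (hf : ∀ i, (f i).IsHomogeneous (a i)) (hreg : RegMod ⊥ (List.ofFn f))
    (j : ℕ) (p : MvPolynomial (Fin n) K) (hj : ∑ i, (a i - 1) < j) (hp : p.IsHomogeneous j) :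
    p ∈ Ideal.ofList (List.ofFn f) := by
  have h0 : hq (Ideal.ofList (List.ofFn f)) j = 0 := by
    rw [hq_ofList hf hreg j, Finset.card_eq_zero, Finset.eq_empty_iff_forall_notMem]
    exact fun x hx => absurd (flipExp_mem hx).2.2 (not_le.2 hj)
  have := finite_hom (K := K) (n := n) j
  have heq : grade (Ideal.ofList (List.ofFn f)) j = homogeneousSubmodule (Fin n) K j :=
    Submodule.eq_of_le_of_finrank_le inf_le_right (by simp only [hq] at h0; omega)
  exact (heq.symm ▸ hp : p ∈ grade (Ideal.ofList (List.ofFn f)) j).1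

/-- The colon of the powers by the lex-plus-powers ideal of `I` is the lex-plus-powers ideal of
the linked ideal of `I`. -/
theorem lpp_colon [Infinite K] {a : Fin n → ℕ} (ha : ∀ i, 1 ≤ a i)
    {f : Fin n → MvPolynomial (Fin n) K} (hf : ∀ i, (f i).IsHomogeneous (a i))
    (hreg : RegMod ⊥ (List.ofFn f)) {I J : Ideal (MvPolynomial (Fin n) K)} (hI : Closed I)
    (hfI : ∀ i, f i ∈ I) (hJc : Closed J)
    (hJ : ∀ d, grade J d = lppSpaceN (powersIdeal K le_rfl a) I d ∧
      finrank K ↥(grade J d) = finrank K ↥(grade I d)) (d : ℕ) :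
    grade ((powersIdeal K le_rfl a).colon (J : Set (MvPolynomial (Fin n) K))) d =
        lppSpaceN (powersIdeal K le_rfl a)
          ((Ideal.ofList (List.ofFn f)).colon (I : Set (MvPolynomial (Fin n) K))) d ∧
      finrank K ↥(grade ((powersIdeal K le_rfl a).colon (J : Set (MvPolynomial (Fin n) K))) d) =
        finrank K ↥(grade ((Ideal.ofList (List.ofFn f)).colon
          (I : Set (MvPolynomial (Fin n) K))) d) := by
  classical
  obtain ⟨hregP, hPeq⟩ := powers_regMod (K := K) a ha
  have hXa : ∀ i, ((X i : MvPolynomial (Fin n) K) ^ a i).IsHomogeneous (a i) := fun i => by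
    simpa using (isHomogeneous_X K i).pow (a i)
  set P := powersIdeal K le_rfl a with hPdef
  set Q := Ideal.ofList (List.ofFn f) with hQdef
  set s := ∑ i, (a i - 1) with hsdef
  have hJset : ∀ e, grade J e =
      restrictSupport K (lpSet le_rfl a e (finrank K ↥(grade I e))) := fun e => by
    rw [(hJ e).1, hPdef, lppSpaceN_eq_restrict]
  have hmonJ : ∀ y : Fin n →₀ ℕ, monomial y (1 : K) ∈ J ↔
      y ∈ lpSet le_rfl a y.degree (finrank K ↥(grade I y.degree)) := by
    intro y
    constructor
    · intro hy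
      have : monomial y (1 : K) ∈ grade J y.degree := ⟨hy, isHomogeneous_monomial _ rfl⟩
      rw [hJset, monomial_mem_restrictSupport] at this
      simpa using this
    · intro hy
      have : monomial y (1 : K) ∈ grade J y.degree := by
        rw [hJset, monomial_mem_restrictSupport]
        exact Or.inl hy
      exact this.1
  have hPJ : P ≤ J := by
    refine Ideal.span_le.2 ?_
    rintro _ ⟨i, rfl⟩
    show (X i : MvPolynomial (Fin n) K) ^ a i ∈ J
    rw [X_pow_eq_monomial, hmonJ]
    refine ⟨rfl, Or.inl fun ho => ?_⟩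
    have := ho i
    simp at this
  have hQI : Q ≤ I := Ideal.span_le.2 fun x hx => by
    obtain ⟨i, rfl⟩ := List.mem_ofFn.1 hx
    exact hfI i
  have hzQ : ∀ (j : ℕ) (p : MvPolynomial (Fin n) K), s < j → p.IsHomogeneous j → p ∈ Q :=
    mem_ofList_of_socle_lt hf hreg
  have hzP : ∀ (j : ℕ) (p : MvPolynomial (Fin n) K), s < j → p.IsHomogeneous j → p ∈ P := by
    rw [hPeq]
    exact mem_ofList_of_socle_lt hXa hregP
  have hsocQ : Soc1 Q s := soc1_ofList noSocleHyp ha hf hreg
  have hsocP : Soc1 P s := by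
    rw [hPeq]
    exact soc1_ofList noSocleHyp ha hXa hregP
  have hqQ : ∀ e, hq Q e = (lev a e).card := hq_ofList hf hreg
  have hqP : ∀ e, hq P e = (lev a e).card := by
    rw [hPeq]
    exact hq_ofList hXa hregP
  set L := Q.colon (I : Set (MvPolynomial (Fin n) K)) with hLdef
  set L' := P.colon (J : Set (MvPolynomial (Fin n) K)) with hL'def
  have hrank : finrank K ↥(grade L' d) = finrank K ↥(grade L d) := by
    rcases Nat.lt_or_ge s d with hd | hd
    · have h1 : grade L' d = homogeneousSubmodule (Fin n) K d :=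
        le_antisymm inf_le_right fun p hp => ⟨le_colon (hzP d p hd hp), hp⟩
      have h2 : grade L d = homogeneousSubmodule (Fin n) K d :=
        le_antisymm inf_le_right fun p hp => ⟨le_colon (hzQ d p hd hp), hp⟩
      rw [h1, h2]
    · have e1 := hq_colon hJc hPJ hsocP hzP hd
      have e2 := hq_colon hI hQI hsocQ hzQ hd
      have e3 : hq J (s - d) = hq I (s - d) := by simp only [hq, (hJ (s - d)).2]
      rw [hqP, e3, ← hqQ, ← hL'def] at e1
      rw [← hLdef] at e2
      have h3 := finrank_grade_le_hom (K := K) L d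
      have h4 := finrank_grade_le_hom (K := K) L' d
      simp only [hq] at e1 e2
      omega
  refine ⟨?_, hrank⟩
  -- the counts of exponents outside the powers in complementary degrees
  have hcount : ∀ e ≤ s,
      (finrank K ↥(grade L e) - {m : Fin n →₀ ℕ | m.degree = e ∧ ¬ OutN le_rfl a m}.ncard) +
      (finrank K ↥(grade I (s - e)) -
        {m : Fin n →₀ ℕ | m.degree = s - e ∧ ¬ OutN le_rfl a m}.ncard) = (lev a e).card := by
    intro e he
    have e2 := hq_colon hI hQI hsocQ hzQ he
    have p1 := hqP e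
    have p2 := hqP (s - e)
    rw [hqQ, ← hLdef] at e2
    have hf1 := card_lev_flip a he
    rw [← hsdef] at hf1
    have h1 := finrank_grade_le_hom (K := K) L e
    have h2 := finrank_grade_le_hom (K := K) I (s - e)
    have h3 := finrank_grade_le_hom (K := K) P e
    have h4 := finrank_grade_le_hom (K := K) P (s - e)
    simp only [hq] at e2 p1 p2
    rw [← finrank_grade_powers (K := K), ← finrank_grade_powers (K := K), ← hPdef]
    omega
  -- exponents and their complements
  let fl : (Fin n →₀ ℕ) → Fin n →₀ ℕ := fun x =>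
    Finsupp.equivFunOnFinite.symm (flipExp a (x : Fin n → ℕ))
  have hfl : ∀ x : Fin n →₀ ℕ, (x : Fin n → ℕ) ∈ lev a d →
      (x ∈ lpSet le_rfl a d (finrank K ↥(grade L d)) ↔ monomial (fl x) (1 : K) ∉ J) := by
    intro x hx
    obtain ⟨hfx, -, hd⟩ := flipExp_mem hx
    rw [← hsdef] at hfx
    have hdeg : (fl x).degree = s - d := (coe_mem_lev (x := fl x).1 hfx).1
    rw [hmonJ, hdeg, mem_lpSet_iff hx, mem_lpSet_iff (x := fl x) hfx]
    have hr : Ext.rk a (s - d) (fl x : Fin n → ℕ) + Ext.rk a d (x : Fin n → ℕ) + 1 =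
        (lev a d).card := rk_flip hx
    have := hcount d hd
    omega
  rw [hPdef, lppSpaceN_eq_restrict]
  refine le_antisymm (fun p hp => ?_) ?_
  · obtain ⟨hpL, hpd⟩ := hp
    rw [mem_restrictSupport_coeff]
    intro x hx
    have hxd : x.degree = d := by
      by_contra hne
      exact hx (IsHomogeneous.coeff_eq_zero hpd hne)
    by_cases ho : OutN le_rfl a x
    swap
    · exact ⟨hxd, Or.inl ho⟩
    rw [hfl x (coe_mem_lev.2 ⟨hxd, ho⟩)]
    intro hmJ
    have hmul : p * monomial (fl x) 1 ∈ P := Submodule.mem_colon.1 hpL _ hmJ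
    rw [hPdef, mem_powers_iff] at hmul
    refine hmul (x + fl x) ?_ fun i => ?_
    · rw [coeff_mul_monomial, mul_one]
      exact hx
    · show x i + (a i - 1 - x i) < a i
      have : x i < a i := ho i
      omega
  · rw [restrictSupport_eq_span, Submodule.span_le]
    rintro _ ⟨x, hx, rfl⟩
    refine ⟨Submodule.mem_colon.2 fun h hh => ?_, isHomogeneous_monomial _ hx.1⟩
    rw [smul_eq_mul, hPdef, mem_powers_iff]
    intro z hz ho
    rw [coeff_monomial_mul'] at hz
    split_ifs at hz with hle
    swap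
    · exact hz rfl
    rw [one_mul] at hz
    set y := z - x with hy
    have hzy : z = x + y := (add_tsub_cancel_of_le hle).symm
    have hox : OutN le_rfl a x := fun i => lt_of_le_of_lt (hle _) (ho i)
    have hc : homogeneousComponent y.degree h ∈ grade J y.degree :=
      ⟨hJc h hh _, homogeneousComponent_isHomogeneous _ _⟩
    rw [hJset, mem_restrictSupport_coeff] at hc
    have hyS := hc y (by
      rw [coeff_homogeneousComponent, if_pos rfl]
      exact hz)
    have hyle : y ≤ fl x := by
      intro i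
      have h1 : z i < a i := ho i
      show y i ≤ a i - 1 - x i
      rw [hzy, Finsupp.add_apply] at h1
      omega
    refine (hfl x (coe_mem_lev.2 ⟨hx.1, hox⟩)).1 hx ?_
    obtain ⟨γ, hγ⟩ := exists_add_of_le hyle
    rw [hγ, ← one_mul (1 : K), ← monomial_mul]
    exact J.mul_mem_right _ ((hmonJ y).2 hyS)

end Vale.P200.Many
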