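import Vale.Agent.P200.Many.Twist

/-!
P200, any number of variables: the Betti numbers through the section by the last variable.
-/

namespace Vale.P200.Many

open MvPolynomial Module Finset Vale.P200.Ext Vale.P200.Betti

universe u

variable {K : Type u} [Field K] {r : ℕ}

/-- Setting the last variable to zero. -/
noncomputable def killLast : MvPolynomial (Fin (r + 1)) K →ₐ[K] MvPolynomial (Fin r) K :=
  aeval (Fin.lastCases 0 X)

lemma killLast_X_castSucc (i : Fin r) :
    killLast (X i.castSucc : MvPolynomial (Fin (r + 1)) K) = X i := by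
  simp [killLast]

lemma killLast_X_last : killLast (X (Fin.last r) : MvPolynomial (Fin (r + 1)) K) = 0 := by
  simp [killLast]

lemma killLast_rename (q : MvPolynomial (Fin r) K) : killLast (rename Fin.castSucc q) = q := by
  rw [killLast, aeval_rename]
  simp [Function.comp_def]

lemma rename_killLast (q : MvPolynomial (Fin (r + 1)) K) :
    rename Fin.castSucc (killLast q) = zc 0 q := by
  induction q using MvPolynomial.induction_on with
  | C s =>
    rw [show killLast (C s : MvPolynomial (Fin (r + 1)) K) = C s by simp [killLast], rename_C,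
      show (C s : MvPolynomial (Fin (r + 1)) K) = monomial 0 s from rfl, zc_monomial]
    simp
  | add p q hp hq => simp [hp, hq]
  | mul_X p i hp =>
    rw [map_mul, map_mul, hp, mul_comm p]
    induction i using Fin.lastCases with
    | last => simp [killLast_X_last, zc_z_mul]
    | cast i => rw [killLast_X_castSucc, rename_X, zc_X_mul, mul_comm]

lemma isHomogeneous_killLast {q : MvPolynomial (Fin (r + 1)) K} {d : ℕ} (hq : q.IsHomogeneous d) :
    (killLast q).IsHomogeneous d := by
  have h := IsHomogeneous.aeval hq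
    (Fin.lastCases 0 X : Fin (r + 1) → MvPolynomial (Fin r) K) (n := 1) (fun i => by
      induction i using Fin.lastCases with
      | last => simpa using isHomogeneous_zero _ _ _
      | cast i => simpa using isHomogeneous_X K i)
  rwa [one_mul] at h

lemma grade_map_killLast {I : Ideal (MvPolynomial (Fin (r + 1)) K)} (hI : Closed I) (d : ℕ) :
    grade (I.map killLast) d = (grade I d).map killLast.toLinearMap := by
  apply le_antisymm
  · rintro q ⟨hq, hqd⟩
    obtain ⟨x, hx, rfl⟩ := (Ideal.mem_map_iff_of_surjective (killLast (K := K) (r := r))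
      (fun q => ⟨_, killLast_rename q⟩)).1 hq
    refine ⟨homogeneousComponent d x, ⟨hI x hx d, homogeneousComponent_isHomogeneous _ _⟩, ?_⟩
    rw [← hcomp_comm _ (fun e q hq => isHomogeneous_killLast hq)]
    exact homogeneousComponent_eq_self hqd
  · rintro _ ⟨x, hx, rfl⟩
    exact ⟨Ideal.mem_map_of_mem _ hx.1, isHomogeneous_killLast hx.2⟩

lemma isHomogeneous_down {q : MvPolynomial (Fin (r + 1)) K} {d : ℕ} (hq : q.IsHomogeneous d) :
    (down q).IsHomogeneous (d - 1) := by
  rw [q.as_sum, map_sum]
  refine IsHomogeneous.sum _ _ _ fun m hm => ?_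
  have hd : m.degree = d := by
    by_contra hne
    exact mem_support_iff.1 hm (hq.coeff_eq_zero hne)
  rw [down_monomial]
  split_ifs with h
  · exact isHomogeneous_zero _ _ _
  · refine isHomogeneous_monomial _ ?_
    have e := congrArg Finsupp.degree
      (add_tsub_cancel_of_le (Finsupp.single_le_iff.2 (Nat.one_le_iff_ne_zero.2 h)))
    rw [map_add, Finsupp.degree_single, hd] at e
    omega

/-- The elements of degree `e` of the colon ideal by the last variable. -/
noncomputable def zCol (I : Ideal (MvPolynomial (Fin (r + 1)) K)) (e : ℕ) :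
    Submodule K (MvPolynomial (Fin (r + 1)) K) :=
  homogeneousSubmodule (Fin (r + 1)) K e ⊓
    (I.restrictScalars K).comap (LinearMap.mulLeft K (X (Fin.last r)))

lemma mem_zCol {I : Ideal (MvPolynomial (Fin (r + 1)) K)} {e : ℕ}
    {q : MvPolynomial (Fin (r + 1)) K} :
    q ∈ zCol I e ↔ q.IsHomogeneous e ∧ X (Fin.last r) * q ∈ I := Iff.rfl

instance finite_zCol (I : Ideal (MvPolynomial (Fin (r + 1)) K)) (e : ℕ) :
    FiniteDimensional K ↥(zCol I e) :=
  have := finite_hom (K := K) (n := r + 1) e
  Submodule.finiteDimensional_of_le inf_le_left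

/-- The colon by the last variable, by Hilbert functions. -/
theorem colon_add {I : Ideal (MvPolynomial (Fin (r + 1)) K)} (hI : Closed I) (e : ℕ) :
    finrank K ↥(zCol I e) - finrank K ↥(grade I e) =
      hq I e + hq (I.map killLast) (e + 1) - hq I (e + 1) := by
  set z : MvPolynomial (Fin (r + 1)) K := X (Fin.last r)
  set kl := (killLast (K := K) (r := r)).toLinearMap
  set μ := LinearMap.mulLeft K z
  have hμ : Function.Injective μ := mul_right_injective₀ (X_ne_zero _)
  have hker : ∀ q : MvPolynomial (Fin (r + 1)) K, q.IsHomogeneous (e + 1) → kl q = 0 →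
      ∃ x : MvPolynomial (Fin (r + 1)) K, x.IsHomogeneous e ∧ z * x = q := fun q hq h0 => by
    refine ⟨down q, Nat.add_sub_cancel e 1 ▸ isHomogeneous_down hq, ?_⟩
    rw [z_mul_down, ← rename_killLast, show killLast q = 0 from h0, map_zero, sub_zero]
  have hzμ : ∀ x : MvPolynomial (Fin (r + 1)) K, x.IsHomogeneous e →
      (z * x).IsHomogeneous (e + 1) ∧ kl (z * x) = 0 := fun x hx =>
    ⟨Nat.add_comm 1 e ▸ (isHomogeneous_X K _).mul hx,
      by simp [kl, z, killLast_X_last]⟩
  -- the forms
  have hH1 : (homogeneousSubmodule (Fin (r + 1)) K e).map μ =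
      homogeneousSubmodule (Fin (r + 1)) K (e + 1) ⊓ LinearMap.ker kl := by
    apply le_antisymm
    · rintro _ ⟨x, hx, rfl⟩
      exact ⟨(hzμ x hx).1, (hzμ x hx).2⟩
    · rintro q ⟨hq, h0⟩
      obtain ⟨x, hx, rfl⟩ := hker q hq h0
      exact ⟨x, hx, rfl⟩
  have hH2 : (homogeneousSubmodule (Fin (r + 1)) K (e + 1)).map kl =
      homogeneousSubmodule (Fin r) K (e + 1) :=
    le_antisymm (by rintro _ ⟨x, hx, rfl⟩; exact isHomogeneous_killLast hx) fun q hq =>
      ⟨rename Fin.castSucc q, hq.rename_isHomogeneous, killLast_rename q⟩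
  -- the ideal
  have hI1 : (zCol I e).map μ = grade I (e + 1) ⊓ LinearMap.ker kl := by
    apply le_antisymm
    · rintro _ ⟨x, hx, rfl⟩
      exact ⟨⟨(mem_zCol.1 hx).2, (hzμ x (mem_zCol.1 hx).1).1⟩, (hzμ x (mem_zCol.1 hx).1).2⟩
    · rintro q ⟨⟨hqI, hq⟩, h0⟩
      obtain ⟨x, hx, rfl⟩ := hker q hq h0
      exact ⟨x, mem_zCol.2 ⟨hx, hqI⟩, rfl⟩
  have := finite_hom (K := K) (n := r + 1) e
  have := finite_hom (K := K) (n := r + 1) (e + 1)
  have := finiteDimensional_grade I (e + 1)
  have a1 := finrank_inf_ker_add kl (homogeneousSubmodule (Fin (r + 1)) K (e + 1))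
  have a2 := finrank_inf_ker_add kl (grade I (e + 1))
  rw [← hH1, hH2, ← (Submodule.equivMapOfInjective μ hμ _).finrank_eq] at a1
  rw [← hI1, ← grade_map_killLast hI, ← (Submodule.equivMapOfInjective μ hμ _).finrank_eq] at a2
  have b1 := Submodule.finrank_mono (R := K) (show zCol I e ≤ homogeneousSubmodule _ K e from inf_le_left)
  have b2 := Submodule.finrank_mono (R := K)
    (show grade I e ≤ zCol I e from fun x hx => mem_zCol.2 ⟨hx.2, I.mul_mem_left _ hx.1⟩)
  have b3 := finrank_grade_le_homogeneous (I.map killLast) (e + 1)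
  simp only [hq] at *
  omega

/-- The index sets without the last one. -/
noncomputable def preS (U : Finset (Fin (r + 1))) : Finset (Fin r) :=
  Finset.univ.filter fun i => i.castSucc ∈ U

lemma preS_map (V : Finset (Fin r)) : preS (V.map Fin.castSuccEmb) = V := by
  ext i; simp [preS]

lemma last_notMem_map (V : Finset (Fin r)) : Fin.last r ∉ V.map Fin.castSuccEmb := by
  simp [Fin.castSucc_ne_last]

lemma map_preS {U : Finset (Fin (r + 1))} (hU : Fin.last r ∉ U) :
    (preS U).map Fin.castSuccEmb = U := by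
  ext i
  induction i using Fin.lastCases with
  | last => simp [hU, Fin.castSucc_ne_last]
  | cast i => simp [preS]

lemma card_preS {U : Finset (Fin (r + 1))} (hU : Fin.last r ∉ U) : (preS U).card = U.card := by
  conv_rhs => rw [← map_preS hU, card_map]

lemma insert_preS {U : Finset (Fin (r + 1))} (hU : Fin.last r ∈ U) :
    insert (Fin.last r) ((preS U).map Fin.castSuccEmb) = U := by
  ext i
  induction i using Fin.lastCases with
  | last => simp [hU]
  | cast i => simp [preS, Fin.castSucc_ne_last]

lemma card_preS_of_mem {U : Finset (Fin (r + 1))} (hU : Fin.last r ∈ U) :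
    (preS U).card + 1 = U.card := by
  conv_rhs => rw [← insert_preS hU, card_insert_of_notMem (last_notMem_map _), card_map]

lemma preS_insert_last (V : Finset (Fin r)) :
    preS (insert (Fin.last r) (V.map Fin.castSuccEmb)) = V := by
  ext i; simp [preS, Fin.castSucc_ne_last]

lemma preS_insert (i : Fin r) (U : Finset (Fin (r + 1))) :
    preS (insert i.castSucc U) = insert i (preS U) := by
  ext k; simp [preS]

lemma sgn_castSucc (R : Type*) [CommRing R] (i : Fin r) (U : Finset (Fin (r + 1))) :
    sgn R i.castSucc U = sgn R i (preS U) := by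
  unfold sgn
  congr 1
  have : U.filter (· < i.castSucc) = ((preS U).filter (· < i)).map Fin.castSuccEmb := by
    ext k
    induction k using Fin.lastCases with
    | last =>
      simp only [mem_filter, mem_map, Fin.coe_castSuccEmb, Fin.castSucc_ne_last, and_false,
        exists_false, iff_false, not_and, not_lt]
      exact fun _ => (Fin.castSucc_lt_last i).le
    | cast k => simp [preS]
  rw [this, card_map]

lemma dS_apply_sum {n : ℕ} (f : Finset (Fin n) → MvPolynomial (Fin n) K) (U : Finset (Fin n)) :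
    dS K n f U = ∑ i, if i ∈ U then 0 else sgn (MvPolynomial (Fin n) K) i U * X i * f (insert i U) := by
  rw [dS, kd_apply]
  refine Eq.trans ?_ (sum_subset (subset_univ Uᶜ) fun i _ hi => if_pos (by simpa using hi))
  exact sum_congr rfl fun i hi => (if_neg (mem_compl.1 hi)).symm

/-- The differential split along the last variable. -/
lemma dS_split (f : Finset (Fin (r + 1)) → MvPolynomial (Fin (r + 1)) K) (U : Finset (Fin (r + 1))) :
    dS K (r + 1) f U = (∑ i : Fin r, if i ∈ preS U then 0 else
        sgn (MvPolynomial (Fin (r + 1)) K) i (preS U) * X i.castSucc * f (insert i.castSucc U)) +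
      if Fin.last r ∈ U then 0 else X (Fin.last r) * iot K (Fin.last r) f U := by
  rw [dS_apply_sum, Fin.sum_univ_castSucc]
  congr 1
  · exact sum_congr rfl fun i _ => by simp [preS, sgn_castSucc]
  · split_ifs with h
    · rfl
    · rw [iot_apply, if_neg h]; ring

/-- The chains off the last index, with the last variable set to zero. -/
noncomputable def secF : (Finset (Fin (r + 1)) → MvPolynomial (Fin (r + 1)) K) →ₗ[K]
    (Finset (Fin r) → MvPolynomial (Fin r) K) :=
  LinearMap.pi fun V => killLast.toLinearMap.comp (LinearMap.proj (V.map Fin.castSuccEmb))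

lemma secF_apply (f : Finset (Fin (r + 1)) → MvPolynomial (Fin (r + 1)) K) (V : Finset (Fin r)) :
    secF f V = killLast (f (V.map Fin.castSuccEmb)) := rfl

lemma secF_dS (f : Finset (Fin (r + 1)) → MvPolynomial (Fin (r + 1)) K) :
    secF (dS K (r + 1) f) = dS K r (secF f) := by
  funext V
  rw [secF_apply, dS_split, dS_apply_sum, map_add, map_sum, preS_map,
    if_neg (last_notMem_map V), map_mul, killLast_X_last, zero_mul, add_zero]
  refine sum_congr rfl fun i _ => ?_
  split_ifs with h
  · exact map_zero _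
  · rw [secF_apply, map_insert, map_mul, map_mul, killLast_X_castSucc]
    simp [sgn]

/-- Chains on the index sets without the last one. -/
noncomputable def offF (x : Finset (Fin r) → MvPolynomial (Fin (r + 1)) K) :
    Finset (Fin (r + 1)) → MvPolynomial (Fin (r + 1)) K :=
  fun U => if Fin.last r ∈ U then 0 else x (preS U)

/-- The lift of chains. -/
noncomputable def upF (g : Finset (Fin r) → MvPolynomial (Fin r) K) :
    Finset (Fin (r + 1)) → MvPolynomial (Fin (r + 1)) K :=
  offF fun V => rename Fin.castSucc (g V)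

lemma secF_offF (x : Finset (Fin r) → MvPolynomial (Fin (r + 1)) K) (V : Finset (Fin r)) :
    secF (offF x) V = killLast (x V) := by
  rw [secF_apply, offF, if_neg (last_notMem_map V), preS_map]

lemma secF_upF (g : Finset (Fin r) → MvPolynomial (Fin r) K) : secF (upF g) = g :=
  funext fun V => by rw [upF, secF_offF, killLast_rename]

lemma dS_upF (g : Finset (Fin r) → MvPolynomial (Fin r) K) :
    dS K (r + 1) (upF g) = upF (dS K r g) := by
  funext U
  rw [dS_split]
  by_cases hU : Fin.last r ∈ U
  · rw [if_pos hU, add_zero]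
    simp only [upF, offF, hU, if_true]
    refine sum_eq_zero fun i _ => ?_
    simp [hU]
  · rw [if_neg hU]
    have h0 : iot K (Fin.last r) (upF g) U = 0 := by simp [iot_apply, upF, offF]
    rw [h0, mul_zero, add_zero]
    simp only [upF, offF, hU, if_false]
    rw [dS_apply_sum, map_sum]
    refine sum_congr rfl fun i _ => ?_
    split_ifs with h h'
    · rw [map_zero]
    · simp [hU, (Fin.castSucc_ne_last i).symm] at h'
    · rw [map_mul, map_mul, rename_X, preS_insert]
      simp [sgn]

lemma offF_mem {p : ℕ} {M : Submodule K (MvPolynomial (Fin (r + 1)) K)}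
    {x : Finset (Fin r) → MvPolynomial (Fin (r + 1)) K} (hx : x ∈ suppOn K p M) :
    offF x ∈ suppOn K p M := by
  refine mem_suppOn.2 ⟨fun U hU => ?_, fun U hU => ?_⟩ <;> unfold offF <;> split_ifs with h
  · exact zero_mem _
  · exact (mem_suppOn.1 hx).1 _ (by rw [card_preS h, hU])
  · rfl
  · exact (mem_suppOn.1 hx).2 _ (by rw [card_preS h]; exact hU)

lemma mem_chI_of {n p j : ℕ} {I : Ideal (MvPolynomial (Fin n) K)}
    {f : Finset (Fin n) → MvPolynomial (Fin n) K} (hf : f ∈ chS K n p j) (h : ∀ U, f U ∈ I) :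
    f ∈ chI I p j := by
  refine mem_suppOn.2 ⟨fun U hU => ?_, (mem_suppOn.1 hf).2⟩
  have hv := (mem_suppOn.1 hf).1 U hU
  unfold sDeg at hv
  unfold iDeg
  split_ifs at hv ⊢
  · exact ⟨h U, hv⟩
  · exact hv

lemma value_mem_of_chI {n p j : ℕ} {I : Ideal (MvPolynomial (Fin n) K)}
    {f : Finset (Fin n) → MvPolynomial (Fin n) K} (hf : f ∈ chI I p j) (U : Finset (Fin n)) :
    f U ∈ I := by
  by_cases hU : U.card = p
  · have h := (mem_suppOn.1 hf).1 U hU
    unfold iDeg at h
    split_ifs at h
    · exact h.1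
    · rw [(Submodule.mem_bot K).1 h]; exact zero_mem _
  · rw [(mem_suppOn.1 hf).2 U hU]; exact zero_mem _

lemma upF_mem {p j : ℕ} {g : Finset (Fin r) → MvPolynomial (Fin r) K} (hg : g ∈ chS K r p j) :
    upF g ∈ chS K (r + 1) p j := by
  refine offF_mem (mem_suppOn.2 ⟨fun V hV => ?_, fun V hV => ?_⟩)
  · have h := (mem_suppOn.1 hg).1 V hV
    unfold sDeg at h ⊢
    split_ifs at h ⊢
    · exact IsHomogeneous.rename_isHomogeneous h
    · rw [Submodule.mem_bot] at h ⊢; rw [h, map_zero]
  · rw [(mem_suppOn.1 hg).2 V hV, map_zero]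

lemma down_mem_sDeg {p j : ℕ} {q : MvPolynomial (Fin (r + 1)) K}
    (hq : q ∈ sDeg K (r + 1) p j) : down q ∈ sDeg K (r + 1) (p + 1) j := by
  unfold sDeg at hq ⊢
  by_cases h : p ≤ j
  · rw [if_pos h] at hq
    split_ifs with h'
    · exact (show j - p - 1 = j - (p + 1) by omega) ▸ isHomogeneous_down hq
    · rw [Submodule.mem_bot, q.as_sum, map_sum]
      refine sum_eq_zero fun m hm => ?_
      have hd : m.degree = j - p := by
        by_contra hne
        exact mem_support_iff.1 hm (IsHomogeneous.coeff_eq_zero hq hne)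
      have := Finsupp.le_degree (Fin.last r) m
      rw [down_monomial, if_pos (by omega)]
  · rw [if_neg h, Submodule.mem_bot] at hq
    rw [hq, map_zero]; exact zero_mem _

lemma secF_chS (p j : ℕ) : (chS K (r + 1) p j).map secF = chS K r p j := by
  refine le_antisymm ?_ fun g hg => ⟨upF g, upF_mem hg, secF_upF g⟩
  rintro _ ⟨f, hf, rfl⟩
  refine mem_suppOn.2 ⟨fun V hV => ?_, fun V hV => ?_⟩
  · have h := (mem_suppOn.1 hf).1 (V.map Fin.castSuccEmb) (by rw [card_map, hV])
    rw [secF_apply]
    unfold sDeg at h ⊢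
    split_ifs at h ⊢
    · exact isHomogeneous_killLast h
    · rw [Submodule.mem_bot] at h ⊢; rw [h, map_zero]
  · rw [secF_apply, (mem_suppOn.1 hf).2 _ (by rwa [card_map]), map_zero]

lemma secF_chI {I : Ideal (MvPolynomial (Fin (r + 1)) K)} (hI : Closed I) (p j : ℕ) :
    (chI I p j).map secF = chI (I.map killLast) p j := by
  classical
  apply le_antisymm
  · rintro _ ⟨f, hf, rfl⟩
    exact mem_chI_of ((secF_chS p j).le ⟨f, chI_le I p j hf, rfl⟩)
      fun V => Ideal.mem_map_of_mem _ (value_mem_of_chI hf _)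
  · intro g hg
    have h : ∀ V, ∃ x, x ∈ (if V.card = p then iDeg I p j else ⊥) ∧ killLast x = g V := by
      intro V
      split_ifs with hV
      · have hv := (mem_suppOn.1 hg).1 V hV
        unfold iDeg at hv ⊢
        split_ifs at hv ⊢
        · rw [grade_map_killLast hI] at hv
          obtain ⟨x, hx, h⟩ := hv
          exact ⟨x, hx, h⟩
        · rw [Submodule.mem_bot] at hv
          exact ⟨0, zero_mem _, by rw [hv, map_zero]⟩
      · exact ⟨0, zero_mem _, by rw [(mem_suppOn.1 hg).2 V hV, map_zero]⟩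
    choose x hx hxg using h
    exact ⟨offF x, offF_mem (Submodule.mem_pi.2 fun V _ => hx V),
      funext fun V => by rw [secF_offF, hxg]⟩

variable (K r) in
/-- Chains on the index sets with the last one. -/
noncomputable def onF : (Finset (Fin r) → MvPolynomial (Fin (r + 1)) K) →ₗ[K]
    (Finset (Fin (r + 1)) → MvPolynomial (Fin (r + 1)) K) where
  toFun x U := if Fin.last r ∈ U then x (preS U) else 0
  map_add' x y := funext fun U => by by_cases h : Fin.last r ∈ U <;> simp [h]
  map_smul' s x := funext fun U => by by_cases h : Fin.last r ∈ U <;> simp [h]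

lemma onF_injective : Function.Injective (onF K r) := fun x y h => funext fun V => by
  simpa [onF, preS_insert_last] using congrFun h (insert (Fin.last r) (V.map Fin.castSuccEmb))

lemma mem_map_onF {p : ℕ} {M : Submodule K (MvPolynomial (Fin (r + 1)) K)}
    {f : Finset (Fin (r + 1)) → MvPolynomial (Fin (r + 1)) K} :
    f ∈ (suppOn K p M).map (onF K r) ↔
      f ∈ suppOn K (p + 1) M ∧ ∀ U, Fin.last r ∉ U → f U = 0 := by
  constructor
  · rintro ⟨x, hx, rfl⟩
    refine ⟨mem_suppOn.2 ⟨fun U hU => ?_, fun U hU => ?_⟩, fun U hU => if_neg hU⟩ <;>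
    by_cases h : Fin.last r ∈ U
    · show (if Fin.last r ∈ U then x (preS U) else 0) ∈ M
      rw [if_pos h]
      exact (mem_suppOn.1 hx).1 _ (by have := card_preS_of_mem h; omega)
    · show (if Fin.last r ∈ U then x (preS U) else 0) ∈ M
      rw [if_neg h]; exact zero_mem _
    · show (if Fin.last r ∈ U then x (preS U) else 0) = 0
      rw [if_pos h]
      exact (mem_suppOn.1 hx).2 _ (by have := card_preS_of_mem h; omega)
    · exact if_neg h
  · rintro ⟨hf, h0⟩
    refine ⟨fun V => f (insert (Fin.last r) (V.map Fin.castSuccEmb)), mem_suppOn.2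
      ⟨fun V hV => ?_, fun V hV => ?_⟩, funext fun U => ?_⟩
    · exact (mem_suppOn.1 hf).1 _ (by
        rw [card_insert_of_notMem (last_notMem_map V), card_map, hV])
    · exact (mem_suppOn.1 hf).2 _ (by
        rw [card_insert_of_notMem (last_notMem_map V), card_map]; omega)
    · show (if Fin.last r ∈ U then f (insert (Fin.last r) ((preS U).map Fin.castSuccEmb)) else 0) = f U
      split_ifs with h
      · rw [insert_preS h]
      · exact (h0 U h).symm

/-- Cycles modulo `I`, lifted. -/
noncomputable def zcyc {n : ℕ} (I : Ideal (MvPolynomial (Fin n) K)) (p j : ℕ) :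
    Submodule K (Finset (Fin n) → MvPolynomial (Fin n) K) :=
  chS K n p j ⊓ (chI I (p - 1) j).comap (dS K n)

/-- Boundaries modulo `I`, lifted. -/
noncomputable def zbd {n : ℕ} (I : Ideal (MvPolynomial (Fin n) K)) (p j : ℕ) :
    Submodule K (Finset (Fin n) → MvPolynomial (Fin n) K) :=
  (chS K n (p + 1) j).map (dS K n) ⊔ chI I p j

lemma betti_add_zbd {n : ℕ} (I : Ideal (MvPolynomial (Fin n) K)) (p j : ℕ) :
    betti I p j + finrank K ↥(zbd I p j) = finrank K ↥(zcyc I p j) := by
  have hz : FiniteDimensional K ↥(zcyc I p j) := Submodule.finiteDimensional_of_le inf_le_left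
  have h1 := betti_rank I p j
  have h2 := finrank_inf_ker_add (dS K n) (zcyc I p j)
  have h3 := finrank_inf_ker_add (dS K n) (chS K n p j)
  have h4 := Submodule.finrank_sup_add_finrank_inf_eq ((chS K n p j).map (dS K n)) (chI I (p - 1) j)
  have h5 : zcyc I p j ⊓ LinearMap.ker (dS K n) = chS K n p j ⊓ LinearMap.ker (dS K n) :=
    le_antisymm (inf_le_inf_right _ inf_le_left) fun f hf =>
      ⟨⟨hf.1, by rw [SetLike.mem_coe, Submodule.mem_comap, LinearMap.mem_ker.1 hf.2]; exact zero_mem _⟩,
        hf.2⟩
  have h6 : (zcyc I p j).map (dS K n) = (chS K n p j).map (dS K n) ⊓ chI I (p - 1) j :=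
    le_antisymm (by rintro _ ⟨f, hf, rfl⟩; exact ⟨⟨f, hf.1, rfl⟩, hf.2⟩)
      (by rintro _ ⟨⟨f, hf, rfl⟩, hm⟩; exact ⟨f, ⟨hf, hm⟩, rfl⟩)
  rw [h5, h6] at h2
  have h7 := Submodule.finrank_mono (R := K)
    (le_sup_right : chI I p j ≤ (chS K n (p + 1) j).map (dS K n) ⊔ chI I p j)
  have h8 := Submodule.finrank_mono (R := K)
    (le_sup_right : chI I (p - 1) j ≤ (chS K n p j).map (dS K n) ⊔ chI I (p - 1) j)
  have h9 : rk I (p + 1) j = finrank K ↥((chS K n (p + 1) j).map (dS K n) ⊔ chI I p j) -
      finrank K ↥(chI I p j) := rfl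
  rw [h9, rk] at h1
  unfold zbd
  omega

variable {I : Ideal (MvPolynomial (Fin (r + 1)) K)} {p j : ℕ}

lemma secF_zbd (hI : Closed I) (p j : ℕ) : (zbd I p j).map secF = zbd (I.map killLast) p j := by
  have hc : secF.comp (dS K (r + 1)) = (dS K r).comp secF := LinearMap.ext secF_dS
  rw [zbd, zbd, Submodule.map_sup, secF_chI hI, ← Submodule.map_comp, hc, Submodule.map_comp,
    secF_chS]

lemma secF_zcyc_le (hI : Closed I) (p j : ℕ) :
    (zcyc I p j).map secF ≤ zcyc (I.map killLast) p j := by
  rintro _ ⟨f, hf, rfl⟩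
  refine ⟨(secF_chS p j).le ⟨f, hf.1, rfl⟩, ?_⟩
  show dS K r (secF f) ∈ chI (I.map killLast) (p - 1) j
  rw [← secF_dS]
  exact (secF_chI hI _ j).le ⟨_, hf.2, rfl⟩

/-- The cycles over the kernel of the section. -/
lemma zcyc_ker_le (hp : p + 1 ≤ j) :
    zcyc I (p + 1) j ⊓ LinearMap.ker secF ≤
      zbd I (p + 1) j ⊓ LinearMap.ker secF ⊔
        (suppOn K p (zCol I (j - (p + 1)))).map (onF K r) := by
  rintro f ⟨⟨hf, hfd⟩, hf0⟩
  set z : Fin (r + 1) := Fin.last r
  set g : Finset (Fin (r + 1)) → MvPolynomial (Fin (r + 1)) K :=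
    fun U => if z ∈ U then 0 else down (f U) with hg
  have hgm : eta K z g ∈ chS K (r + 1) (p + 1 + 1) j := by
    refine mem_suppOn.2 ⟨fun U hU => ?_, fun U hU => ?_⟩ <;> rw [eta_apply] <;> split_ifs with h
    · have hm : g (U.erase z) ∈ sDeg K (r + 1) (p + 1 + 1) j := by
        rw [hg]
        dsimp only
        rw [if_neg (notMem_erase z U)]
        exact down_mem_sDeg ((mem_suppOn.1 hf).1 _ (by rw [card_erase_of_mem h, hU]; rfl))
      rw [sgn]
      rcases neg_one_pow_eq_or (MvPolynomial (Fin (r + 1)) K) (U.filter (· < z)).card with h1 | h1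
      · simpa [h1] using hm
      · simpa [h1] using Submodule.neg_mem _ hm
    · exact zero_mem _
    · have : (U.erase z).card ≠ p + 1 := by
        rw [card_erase_of_mem h]
        have := card_pos.2 ⟨z, h⟩
        omega
      simp [hg, (mem_suppOn.1 hf).2 _ this]
    · rfl
  set b := dS K (r + 1) (eta K z g)
  have hb : ∀ U, z ∉ U → b U = f U := by
    intro U hU
    have h1 := congrFun (dS_eta z g) U
    rw [Pi.add_apply, eta_apply, if_neg hU, add_zero, vmul_apply] at h1
    show dS K (r + 1) (eta K z g) U = f U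
    rw [h1, hg]
    dsimp only
    rw [if_neg hU, z_mul_down, ← rename_killLast]
    have := congrFun (LinearMap.mem_ker.1 hf0) (preS U)
    rw [secF_apply, map_preS hU] at this
    rw [this, Pi.zero_apply, map_zero, sub_zero]
  have hbB : b ∈ zbd I (p + 1) j := Submodule.mem_sup_left ⟨_, hgm, rfl⟩
  have hbk : secF b = 0 := funext fun V => by
    rw [secF_apply, hb _ (last_notMem_map V)]
    exact congrFun (LinearMap.mem_ker.1 hf0) V
  have hbd : dS K (r + 1) b = 0 := kd_kd _ _
  refine Submodule.mem_sup.2 ⟨b, ⟨hbB, hbk⟩, f - b, mem_map_onF.2 ⟨?_, fun U hU => ?_⟩,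
    add_sub_cancel b f⟩
  · have hbC : b ∈ chS K (r + 1) (p + 1) j := map_chS_le (p + 1) j ⟨_, hgm, rfl⟩
    have hC := Submodule.sub_mem _ hf hbC
    refine mem_suppOn.2 ⟨fun U hU => ?_, (mem_suppOn.1 hC).2⟩
    have hv := (mem_suppOn.1 hC).1 U hU
    rw [sDeg, if_pos hp] at hv
    refine mem_zCol.2 ⟨hv, ?_⟩
    by_cases hz : z ∈ U
    · have h1 : dS K (r + 1) (f - b) (U.erase z) ∈ I := by
        rw [map_sub, hbd, sub_zero]
        exact value_mem_of_chI hfd _
      rw [dS_apply_sum, Finset.sum_eq_single z] at h1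
      · rw [if_neg (notMem_erase z U), insert_erase hz, mul_assoc] at h1
        have := I.mul_mem_left (sgn (MvPolynomial (Fin (r + 1)) K) z (U.erase z)) h1
        rwa [← mul_assoc, sgn_sq, one_mul] at this
      · intro i _ hi
        split_ifs
        · rfl
        · rw [Pi.sub_apply, hb _ (by simp [hi.symm]), sub_self, mul_zero]
      · simp
    · rw [Pi.sub_apply, hb U hz, sub_self, mul_zero]; exact zero_mem _
  · rw [Pi.sub_apply, hb U hU, sub_self]

lemma map_onF_le_ker (M : Submodule K (MvPolynomial (Fin (r + 1)) K)) (p : ℕ) :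
    (suppOn K p M).map (onF K r) ≤ LinearMap.ker secF := fun f hf => funext fun V => by
  rw [secF_apply, (mem_map_onF.1 hf).2 _ (last_notMem_map V), map_zero, Pi.zero_apply]

lemma map_onF_grade_le (hp : p + 1 ≤ j) :
    (suppOn K p (grade I (j - (p + 1)))).map (onF K r) ≤ zbd I (p + 1) j := fun f hf =>
  Submodule.mem_sup_right (show f ∈ suppOn K (p + 1) (iDeg I (p + 1) j) by
    rw [iDeg, if_pos hp]; exact (mem_map_onF.1 hf).1)

lemma finrank_map_onF (M : Submodule K (MvPolynomial (Fin (r + 1)) K)) [FiniteDimensional K ↥M]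
    (p : ℕ) : finrank K ↥((suppOn K p M).map (onF K r)) = r.choose p * finrank K ↥M := by
  rw [← (Submodule.equivMapOfInjective (onF K r) onF_injective _).finrank_eq, finrank_suppOn]

/-- The Betti numbers are bounded by those of the section and the colon by the last variable. -/
theorem betti_section_le (hI : Closed I) (hp : p + 1 ≤ j) :
    betti I (p + 1) j ≤ betti (I.map killLast) (p + 1) j +
      r.choose p * (hq I (j - (p + 1)) + hq (I.map killLast) (j - p) - hq I (j - p)) := by
  set e := j - (p + 1) with he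
  rw [show j - p = e + 1 by omega, ← colon_add hI e]
  have := finiteDimensional_grade I e
  have : FiniteDimensional K ↥(zcyc I (p + 1) j) := Submodule.finiteDimensional_of_le inf_le_left
  have : FiniteDimensional K ↥(zcyc (I.map killLast) (p + 1) j) :=
    Submodule.finiteDimensional_of_le inf_le_left
  have : FiniteDimensional K ↥(zbd I (p + 1) j) := Submodule.finiteDimensional_of_le
    (sup_le (map_chS_le (p + 1) j) (chI_le I _ j))
  set Bk := zbd I (p + 1) j ⊓ LinearMap.ker secF
  have : FiniteDimensional K ↥Bk := Submodule.finiteDimensional_of_le inf_le_left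
  set E := (suppOn K p (zCol I e)).map (onF K r) with hE
  have := finite_suppOn (n := r) p (zCol I e)
  have : FiniteDimensional K ↥E := Module.Finite.map _ _
  have a1 := finrank_inf_ker_add secF (zcyc I (p + 1) j)
  have a2 := finrank_inf_ker_add secF (zbd I (p + 1) j)
  have a3 := Submodule.finrank_mono (secF_zcyc_le hI (p + 1) j)
  have a4 : finrank K ↥(zcyc I (p + 1) j ⊓ LinearMap.ker secF) ≤ finrank K ↥(Bk ⊔ E) :=
    Submodule.finrank_mono (zcyc_ker_le hp)
  have a5 := Submodule.finrank_sup_add_finrank_inf_eq Bk E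
  have a6 : finrank K ↥((suppOn K p (grade I e)).map (onF K r)) ≤ finrank K ↥(Bk ⊓ E) :=
    Submodule.finrank_mono (le_inf (le_inf (map_onF_grade_le hp) (map_onF_le_ker _ p))
      (Submodule.map_mono (Submodule.pi_mono fun U _ => by
        split_ifs
        · exact fun x hx => mem_zCol.2 ⟨hx.2, I.mul_mem_left _ hx.1⟩
        · exact le_rfl)))
  rw [secF_zbd hI] at a2
  change finrank K ↥Bk + _ = _ at a2
  rw [finrank_map_onF] at a6
  rw [hE, finrank_map_onF, ← hE] at a5
  have b1 := betti_add_zbd I (p + 1) j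
  have b2 := betti_add_zbd (I.map killLast) (p + 1) j
  rw [Nat.mul_sub]
  omega

/-- The bound is attained for graded ideals that are stable. -/
theorem betti_section_ge (hI : Closed I) (hz : ZGraded I) (hp : p + 1 ≤ j)
    (hstab : ∀ i : Fin r, ∀ d ≤ j - (p + 1), ∀ q : MvPolynomial (Fin (r + 1)) K,
      q.IsHomogeneous d → X (Fin.last r) * q ∈ I → X i.castSucc * q ∈ I) :
    betti (I.map killLast) (p + 1) j +
        r.choose p * (hq I (j - (p + 1)) + hq (I.map killLast) (j - p) - hq I (j - p)) ≤
      betti I (p + 1) j := by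
  classical
  set e := j - (p + 1) with he
  rw [show j - p = e + 1 by omega, ← colon_add hI e]
  have := finiteDimensional_grade I e
  have : FiniteDimensional K ↥(zcyc I (p + 1) j) := Submodule.finiteDimensional_of_le inf_le_left
  have : FiniteDimensional K ↥(zbd I (p + 1) j) := Submodule.finiteDimensional_of_le
    (sup_le (map_chS_le (p + 1) j) (chI_le I _ j))
  set Bk := zbd I (p + 1) j ⊓ LinearMap.ker secF
  have : FiniteDimensional K ↥Bk := Submodule.finiteDimensional_of_le inf_le_left
  set E := (suppOn K p (zCol I e)).map (onF K r) with hE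
  have := finite_suppOn (n := r) p (zCol I e)
  have : FiniteDimensional K ↥E := Module.Finite.map _ _
  have hEC : ∀ f ∈ E, f ∈ chS K (r + 1) (p + 1) j := fun f hf => by
    obtain ⟨h1, -⟩ := mem_map_onF.1 hf
    refine mem_suppOn.2 ⟨fun U hU => ?_, (mem_suppOn.1 h1).2⟩
    rw [sDeg, if_pos hp]
    exact (mem_zCol.1 ((mem_suppOn.1 h1).1 U hU)).1
  -- stable elements of the colon give cycles
  have hEZ : E ≤ zcyc I (p + 1) j := fun f hf => by
    obtain ⟨h1, h0⟩ := mem_map_onF.1 hf
    have hval : ∀ U, f U ∈ zCol I e := fun U => by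
      by_cases hU : U.card = p + 1
      · exact (mem_suppOn.1 h1).1 U hU
      · rw [(mem_suppOn.1 h1).2 U hU]; exact zero_mem _
    refine ⟨hEC f hf, mem_chI_of (map_chS_le p j ⟨f, hEC f hf, rfl⟩) fun U => ?_⟩
    rw [dS_apply_sum]
    refine I.sum_mem fun i _ => ?_
    split_ifs
    · exact zero_mem _
    · rw [mul_assoc]
      refine I.mul_mem_left _ ?_
      obtain ⟨hd, hzI⟩ := mem_zCol.1 (hval (insert i U))
      induction i using Fin.lastCases with
      | last => exact hzI
      | cast i => exact hstab i e le_rfl _ hd hzI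
  -- such a cycle bounds only if it lies in `I`
  have hBE : Bk ⊓ E ≤ (suppOn K p (grade I e)).map (onF K r) := by
    rintro h ⟨⟨hB, -⟩, hE'⟩
    obtain ⟨h1, h0⟩ := mem_map_onF.1 hE'
    obtain ⟨_, ⟨f, hf, rfl⟩, i0, hi0, rfl⟩ := Submodule.mem_sup.1 hB
    set z : Fin (r + 1) := Fin.last r
    set F := dS K (r + 1) f with hF
    have hFoff : ∀ U, z ∉ U → F U ∈ I := fun U hU => by
      have h2 := h0 U hU
      rw [Pi.add_apply, ← eq_neg_iff_add_eq_zero] at h2
      rw [h2]
      exact I.neg_mem (value_mem_of_chI hi0 U)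
    set g : Finset (Fin (r + 1)) → MvPolynomial (Fin (r + 1)) K :=
      fun U => if z ∈ U then 0 else down (f U) with hg
    set w := dS K (r + 1) g + iot K z f with hw
    have hwv : ∀ U, w U = if z ∈ U then 0 else down (F U) := by
      intro U
      rw [hw, Pi.add_apply, dS_split, hF]
      by_cases hU : z ∈ U
      · rw [if_pos hU, if_pos hU, iot_apply, if_pos hU, add_zero, add_zero]
        refine sum_eq_zero fun i _ => ?_
        simp [hg, hU]
      · rw [if_neg hU, if_neg hU, dS_split, if_neg hU, map_add, down_z_mul, map_sum]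
        have hgz : iot K z g U = 0 := by simp [iot_apply, hg]
        rw [hgz, mul_zero, add_zero]
        congr 1
        refine sum_congr rfl fun i _ => ?_
        split_ifs with hi
        · rw [map_zero]
        · rw [mul_assoc, mul_assoc, map_sgn_mul, down_X_mul, hg]
          dsimp only
          rw [if_neg (by simp [hU, (Fin.castSucc_ne_last i).symm, z])]
    have hFC : F ∈ chS K (r + 1) (p + 1) j := map_chS_le (p + 1) j ⟨f, hf, rfl⟩
    have hwC : ∀ U, ∃ d ≤ e, (w U).IsHomogeneous d ∧ X z * w U ∈ I := by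
      intro U
      rw [hwv]
      by_cases hU : z ∈ U
      · rw [if_pos hU]
        exact ⟨e, le_rfl, isHomogeneous_zero _ _ _, by simp⟩
      rw [if_neg hU]
      refine ⟨e - 1, Nat.sub_le _ _, ?_, ?_⟩
      · by_cases hc : U.card = p + 1
        · have := (mem_suppOn.1 hFC).1 U hc
          rw [sDeg, if_pos hp] at this
          exact isHomogeneous_down this
        · rw [(mem_suppOn.1 hFC).2 U hc, map_zero]; exact isHomogeneous_zero _ _ _
      · rw [z_mul_down]
        exact I.sub_mem (hFoff U hU) (hz _ (hFoff U hU) 0)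
    have hdw : ∀ U, dS K (r + 1) (iot K z f) U ∈ I := by
      intro U
      have h2 : dS K (r + 1) w = dS K (r + 1) (iot K z f) := by
        rw [hw, map_add, show dS K (r + 1) (dS K (r + 1) g) = 0 from kd_kd _ g, zero_add]
      rw [← h2, dS_apply_sum]
      refine I.sum_mem fun i _ => ?_
      split_ifs
      · exact zero_mem _
      · rw [mul_assoc]
        refine I.mul_mem_left _ ?_
        obtain ⟨d, hd, hwd, hwz⟩ := hwC (insert i U)
        induction i using Fin.lastCases with
        | last => exact hwz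
        | cast i => exact hstab i d hd _ hwd hwz
    have hιF : iot K z F = -dS K (r + 1) (iot K z f) := by
      rw [hF, dS_eq, dS_eq, map_sum, ← Finset.sum_neg_distrib]
      refine Finset.sum_congr rfl fun i _ => ?_
      rw [← vmul_iot, iot_iot, map_neg]
    refine mem_map_onF.2 ⟨mem_suppOn.2 ⟨fun U hU => ⟨?_, ?_⟩, (mem_suppOn.1 h1).2⟩, h0⟩
    · refine I.add_mem ?_ (value_mem_of_chI hi0 U)
      by_cases hzU : z ∈ U
      · have h3 := congrFun hιF (U.erase z)
        rw [iot_apply, if_neg (notMem_erase z U), insert_erase hzU, Pi.neg_apply] at h3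
        have h4 : sgn (MvPolynomial (Fin (r + 1)) K) z (U.erase z) * F U ∈ I :=
          h3 ▸ I.neg_mem (hdw _)
        have := I.mul_mem_left (sgn (MvPolynomial (Fin (r + 1)) K) z (U.erase z)) h4
        rwa [← mul_assoc, sgn_sq, one_mul] at this
      · exact hFoff U hzU
    · exact (mem_zCol.1 ((mem_suppOn.1 h1).1 U hU)).1
  -- cycles of the section lift
  have hZ : zcyc (I.map killLast) (p + 1) j ≤ (zcyc I (p + 1) j).map secF := by
    rintro g ⟨hg, hgd⟩
    refine ⟨upF g, ⟨upF_mem hg, mem_chI_of (map_chS_le p j ⟨_, upF_mem hg, rfl⟩) fun U => ?_⟩,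
      secF_upF g⟩
    rw [dS_upF, upF, offF]
    split_ifs with h
    · exact zero_mem _
    · obtain ⟨x, hx, hxg⟩ := (Ideal.mem_map_iff_of_surjective (killLast (K := K) (r := r))
        (fun q => ⟨_, killLast_rename q⟩)).1 (value_mem_of_chI hgd (preS U))
      rw [← hxg, rename_killLast]
      exact hz x hx 0
  have a1 := finrank_inf_ker_add secF (zcyc I (p + 1) j)
  have a2 := finrank_inf_ker_add secF (zbd I (p + 1) j)
  have a3 := Submodule.finrank_mono hZ
  have a4 : finrank K ↥(Bk ⊔ E) ≤ finrank K ↥(zcyc I (p + 1) j ⊓ LinearMap.ker secF) := by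
    refine Submodule.finrank_mono (sup_le (le_inf ?_ inf_le_right) (le_inf hEZ (map_onF_le_ker _ p)))
    refine inf_le_left.trans (sup_le ?_ fun f hf => ?_)
    · rintro _ ⟨f, hf, rfl⟩
      exact ⟨map_chS_le (p + 1) j ⟨f, hf, rfl⟩,
        by rw [SetLike.mem_coe, Submodule.mem_comap,
            show dS K (r + 1) (dS K (r + 1) f) = 0 from kd_kd _ f]; exact zero_mem _⟩
    · exact ⟨chI_le I _ j hf, mem_chI_of (map_chS_le p j ⟨f, chI_le I _ j hf, rfl⟩) fun U => by
        rw [dS_apply_sum]
        refine I.sum_mem fun i _ => ?_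
        split_ifs
        · exact zero_mem _
        · exact I.mul_mem_left _ (value_mem_of_chI hf _)⟩
  have a5 := Submodule.finrank_sup_add_finrank_inf_eq Bk E
  have := finite_suppOn (n := r) p (grade I e)
  have : FiniteDimensional K ↥((suppOn K p (grade I e)).map (onF K r)) := Module.Finite.map _ _
  have a6 := Submodule.finrank_mono hBE
  rw [secF_zbd hI] at a2
  change finrank K ↥Bk + _ = _ at a2
  rw [finrank_map_onF] at a6
  rw [hE, finrank_map_onF, ← hE] at a5
  have b1 := betti_add_zbd I (p + 1) j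
  have b2 := betti_add_zbd (I.map killLast) (p + 1) j
  have b3 := Nat.mul_le_mul_left (r.choose p) (Submodule.finrank_mono (R := K)
    (show grade I e ≤ zCol I e from fun x hx => mem_zCol.2 ⟨hx.2, I.mul_mem_left _ hx.1⟩))
  rw [Nat.mul_sub]
  omega

end Vale.P200.Many
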