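import Vale.Agent.P200.Many.Twist

/-!
P200, any number of variables: stabilisation of the last variable in every characteristic.
-/

namespace Vale.P200.Many

open MvPolynomial Module Finset Vale.P200.Ext Vale.P200.Betti

universe u

variable {K : Type u} [Field K] {r : ℕ}

lemma zc_down (l : ℕ) (p : MvPolynomial (Fin (r + 1)) K) :
    zc l (down p) = down (zc (l + 1) p) := by
  induction p using MvPolynomial.induction_on' with
  | add p q hp hq => simp [map_add, hp, hq]
  | monomial n c =>
    rw [down_monomial, zc_monomial]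
    by_cases h : n (Fin.last r) = 0
    · simp [h]
    · rw [if_neg h, zc_monomial, apply_ite down, map_zero, down_monomial, if_neg h]
      simp only [Finsupp.coe_tsub, Pi.sub_apply, Finsupp.single_eq_same]
      by_cases h' : n (Fin.last r) = l + 1
      · simp [h']
      · rw [if_neg (by omega), if_neg h']

lemma sum_zc {p : MvPolynomial (Fin (r + 1)) K} {d : ℕ} (hp : p.IsHomogeneous d) :
    ∑ l ∈ range (d + 1), zc l p = p := by
  refine sub_eq_zero.1 (eq_zero_of_zc (d := d) (IsHomogeneous.sub
    (IsHomogeneous.sum _ _ _ fun l _ => zc_homogeneous l hp) hp) fun k hk => ?_)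
  rw [map_sub, map_sum, Finset.sum_eq_single k (fun l _ hl => by rw [zc_zc, if_neg hl.symm])
    (fun h => absurd (mem_range.2 hk) h), zc_zc, if_pos rfl, sub_self]

/-- The distraction along `X i`. -/
noncomputable def dist (i : Fin r) :
    MvPolynomial (Fin (r + 1)) K →ₗ[K] MvPolynomial (Fin (r + 1)) K :=
  LinearMap.id + (LinearMap.mulLeft K (X i.castSucc)).comp down

lemma dist_apply (i : Fin r) (p : MvPolynomial (Fin (r + 1)) K) :
    dist i p = p + X i.castSucc * down p := rfl

lemma dist_zero (i : Fin r) (p : MvPolynomial (Fin (r + 1)) K) :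
    dist i (zc 0 p) = zc 0 p := by
  induction p using MvPolynomial.induction_on' with
  | add p q hp hq => simp [map_add, hp, hq]
  | monomial n c =>
    rw [zc_monomial, dist_apply]
    split_ifs with h
    · rw [down_monomial, if_pos h, mul_zero, add_zero]
    · simp

lemma dist_homogeneous (i : Fin r) (d : ℕ) (p : MvPolynomial (Fin (r + 1)) K)
    (hp : p.IsHomogeneous d) : (dist i p).IsHomogeneous d :=
  hp.add (X_down_homogeneous i hp)

lemma dist_X_mul (i k : Fin r) (p : MvPolynomial (Fin (r + 1)) K) :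
    dist i (X k.castSucc * p) = X k.castSucc * dist i p := by
  rw [dist_apply, dist_apply, down_X_mul]; ring

lemma dist_z_mul (i : Fin r) (p : MvPolynomial (Fin (r + 1)) K) :
    dist i (X (Fin.last r) * p - X i.castSucc * zc 0 p) = X (Fin.last r) * dist i p := by
  have h := z_mul_down p
  have h0 : down (zc 0 p) = 0 := by
    have := dist_zero i p
    rw [dist_apply, add_eq_left, mul_eq_zero] at this
    exact this.resolve_left (X_ne_zero _)
  rw [dist_apply, dist_apply, map_sub, down_z_mul, down_X_mul, h0]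
  linear_combination -(X i.castSucc : MvPolynomial (Fin (r + 1)) K) * h

lemma zc_dist (i : Fin r) (l : ℕ) (p : MvPolynomial (Fin (r + 1)) K) :
    zc l (dist i p) = zc l p + X i.castSucc * down (zc (l + 1) p) := by
  rw [dist_apply, map_add, zc_X_mul, zc_down]

lemma dist_injective (i : Fin r) :
    Function.Injective (dist i : MvPolynomial (Fin (r + 1)) K →ₗ[K] _) := by
  rw [injective_iff_map_eq_zero]
  intro p hp
  have hd : ∀ d, homogeneousComponent d p = 0 := by
    intro d
    set q := homogeneousComponent d p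
    have hq : dist i q = 0 := by
      rw [← hcomp_comm (dist i) (dist_homogeneous i), hp, map_zero]
    refine eq_zero_of_zc (homogeneousComponent_isHomogeneous d p) fun k hk => ?_
    have key : ∀ m k, d + 1 ≤ k + m → zc k q = 0 := by
      intro m
      induction m with
      | zero =>
        intro k hk
        refine eq_zero_of_zc (zc_homogeneous k (homogeneousComponent_isHomogeneous d p))
          fun l hl => ?_
        rw [zc_zc, if_neg (by omega)]
      | succ m ih =>
        intro k hk
        have := congrArg (zc k) hq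
        rwa [map_zero, zc_dist, ih (k + 1) (by omega), map_zero, mul_zero, add_zero] at this
    exact key (d + 1) k (by omega)
  rw [← sum_homogeneousComponent p]
  exact Finset.sum_eq_zero fun d _ => hd d

variable {I : Ideal (MvPolynomial (Fin (r + 1)) K)}

/-- The distracted ideal. -/
noncomputable def distIdeal (i : Fin r) (hz : ZGraded I) : Ideal (MvPolynomial (Fin (r + 1)) K) where
  carrier := dist i '' I
  zero_mem' := ⟨0, I.zero_mem, map_zero _⟩
  add_mem' := by
    rintro _ _ ⟨p, hp, rfl⟩ ⟨q, hq, rfl⟩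
    exact ⟨p + q, I.add_mem hp hq, map_add _ _ _⟩
  smul_mem' := by
    intro a
    induction a using MvPolynomial.induction_on with
    | C s =>
      rintro _ ⟨p, hp, rfl⟩
      exact ⟨C s * p, I.mul_mem_left _ hp, by rw [smul_eq_mul, C_mul', C_mul', map_smul]⟩
    | add a b ha hb =>
      intro x hx
      obtain ⟨p, hp, hpa⟩ := ha hx
      obtain ⟨q, hq, hqb⟩ := hb hx
      exact ⟨p + q, I.add_mem hp hq, by rw [map_add, hpa, hqb, add_smul]⟩
    | mul_X a k ha =>
      rintro _ ⟨p, hp, rfl⟩
      rw [mul_smul, smul_eq_mul (a := X k)]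
      refine ha ?_
      induction k using Fin.lastCases with
      | last =>
        exact ⟨_, I.sub_mem (I.mul_mem_left _ hp) (I.mul_mem_left _ (hz p hp 0)), dist_z_mul i p⟩
      | cast k => exact ⟨_, I.mul_mem_left _ hp, dist_X_mul i k p⟩

lemma closed_dist (i : Fin r) (hI : Closed I) (hz : ZGraded I) : Closed (distIdeal i hz) := by
  rintro _ ⟨p, hp, rfl⟩ d
  exact ⟨_, hI p hp d, (hcomp_comm _ (dist_homogeneous i) d p).symm⟩

lemma grade_dist (i : Fin r) (hI : Closed I) (hz : ZGraded I) (d : ℕ) :
    grade (distIdeal i hz) d = (grade I d).map (dist i) := by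
  ext q
  constructor
  · rintro ⟨⟨p, hp, rfl⟩, hq⟩
    refine ⟨homogeneousComponent d p, ⟨hI p hp d, homogeneousComponent_isHomogeneous _ _⟩, ?_⟩
    rw [← hcomp_comm _ (dist_homogeneous i), homogeneousComponent_eq_self hq]
  · rintro ⟨p, ⟨hp, hpd⟩, rfl⟩
    exact ⟨⟨p, hp, rfl⟩, dist_homogeneous i d p hpd⟩

lemma betti_dist (i : Fin r) (hI : Closed I) (hz : ZGraded I) (p j : ℕ) :
    betti (distIdeal i hz) p j = betti I p j := by
  refine betti_twist I (distIdeal i hz) (Fin.last r) (dist i) (zc 0)
    (Pi.single i.castSucc 1) (Pi.single_eq_of_ne (Fin.castSucc_ne_last i).symm _)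
    (dist_injective i) (dist_homogeneous i) (fun d q hq => zc_homogeneous 0 hq)
    (fun q hq => hz q hq 0) (fun q hq => ⟨q, hq, rfl⟩) (fun d => ?_) (fun k hk q => ?_)
    (fun k hk q => ?_) (fun q => ?_) p j
  · rw [grade_dist i hI hz, ← (Submodule.equivMapOfInjective _ (dist_injective i) _).finrank_eq]
  · obtain ⟨k, rfl⟩ := Fin.exists_castSucc_eq.2 hk
    exact dist_X_mul i k q
  · obtain ⟨k, rfl⟩ := Fin.exists_castSucc_eq.2 hk
    exact zc_X_mul 0 k q
  · rw [Finset.sum_eq_single i.castSucc (fun k _ hk => by rw [Pi.single_eq_of_ne hk, zero_smul])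
      (by simp), Pi.single_eq_same, one_smul]
    exact dist_z_mul i q

/-- The weight that the stabilisation lowers. -/
noncomputable def height (I : Ideal (MvPolynomial (Fin (r + 1)) K)) (D : ℕ) : ℕ :=
  ∑ d ∈ range (D + 2), ∑ k ∈ range (D + 2), finrank K ↥(below zc (grade I d) k)

lemma finrank_below_in {J : Ideal (MvPolynomial (Fin (r + 1)) K)} (hJ : Closed J) (d k : ℕ) :
    finrank K ↥(below zc (grade (inIdeal J) d) k) = finrank K ↥(below zc (grade J d) k) := by
  have := finiteDimensional_grade (inIdeal J) d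
  have := finiteDimensional_grade J d
  have h1 := finrank_below zc (grade (inIdeal J) d) k
  have h2 := finrank_below zc (grade J d) k
  have h3 := finrank_grade_in hJ d
  have h4 : ∑ l ∈ range k, finrank K ↥((below zc (grade (inIdeal J) d) l).map (zc l)) =
      ∑ l ∈ range k, finrank K ↥((below zc (grade J d) l).map (zc l)) :=
    Finset.sum_congr rfl fun l _ => by rw [map_below_in hJ]
  omega

lemma below_dist_lt (i : Fin r) (hI : Closed I) (hz : ZGraded I) (d k : ℕ) :
    finrank K ↥(below zc (grade (distIdeal i hz) d) k) ≤ finrank K ↥(below zc (grade I d) k) ∧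
    ∀ l u, k = l + 1 → u.IsHomogeneous (d - 1) → 1 ≤ d → zc l u = u →
      X (Fin.last r) * u ∈ I → X i.castSucc * u ∉ I →
      finrank K ↥(below zc (grade (distIdeal i hz) d) k) < finrank K ↥(below zc (grade I d) k) := by
  classical
  have := finiteDimensional_grade I d
  set W := grade I d ⊓ (⨅ (l : ℕ) (_ : l < k), LinearMap.ker (zc l)).comap (dist i) with hW
  have : FiniteDimensional K ↥W := Submodule.finiteDimensional_of_le inf_le_left
  have : FiniteDimensional K ↥(below zc (grade I d) k) :=
    Submodule.finiteDimensional_of_le inf_le_left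
  have hmem : ∀ p, p ∈ W ↔ p ∈ grade I d ∧ ∀ l < k, zc l (dist i p) = 0 := fun p => by simp [hW]
  have hBD : finrank K ↥(below zc (grade (distIdeal i hz) d) k) = finrank K ↥W := by
    rw [show below zc (grade (distIdeal i hz) d) k = W.map (dist i) by
      ext q
      rw [mem_below, grade_dist i hI hz]
      constructor
      · rintro ⟨⟨p, hp, rfl⟩, h⟩; exact ⟨p, (hmem p).2 ⟨hp, h⟩, rfl⟩
      · rintro ⟨p, hp, rfl⟩; exact ⟨⟨p, ((hmem p).1 hp).1, rfl⟩, ((hmem p).1 hp).2⟩,
      (Submodule.equivMapOfInjective _ (dist_injective i) W).finrank_eq]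
  let T : MvPolynomial (Fin (r + 1)) K →ₗ[K] MvPolynomial (Fin (r + 1)) K :=
    LinearMap.id - ∑ l ∈ range k, zc l
  have hT : ∀ p l, zc l (T p) = if l < k then 0 else zc l p := fun p l => by
    simp only [T, LinearMap.sub_apply, LinearMap.id_apply, LinearMap.sum_apply, map_sub, map_sum,
      zc_zc, Finset.sum_ite_eq, mem_range]
    split_ifs <;> simp
  have hTle : W.map T ≤ below zc (grade I d) k := by
    rintro _ ⟨p, hp, rfl⟩
    obtain ⟨⟨hpI, hpd⟩, -⟩ := (hmem p).1 hp
    refine mem_below.2 ⟨?_, fun l hl => by rw [hT, if_pos hl]⟩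
    simp only [T, LinearMap.sub_apply, LinearMap.id_apply, LinearMap.sum_apply]
    exact Submodule.sub_mem _ ⟨hpI, hpd⟩
      (Submodule.sum_mem _ fun l _ => ⟨hz p hpI l, zc_homogeneous l hpd⟩)
  have hTinj : W ⊓ LinearMap.ker T = ⊥ := by
    rw [Submodule.eq_bot_iff]
    rintro p ⟨hp, hp0⟩
    obtain ⟨⟨hpI, hpd⟩, hlow⟩ := (hmem p).1 hp
    have hhi : ∀ l, k ≤ l → zc l p = 0 := fun l hl => by
      have := hT p l
      rwa [LinearMap.mem_ker.1 hp0, map_zero, if_neg (not_lt.2 hl), eq_comm] at this
    refine dist_injective i ((eq_zero_of_zc (dist_homogeneous i d p hpd) fun l _ => ?_).trans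
      (map_zero _).symm)
    rcases lt_or_ge l k with hl | hl
    · exact hlow l hl
    · rw [zc_dist, hhi l hl, hhi (l + 1) (by omega), map_zero, mul_zero, add_zero]
  have hrank := finrank_inf_ker_add T W
  rw [hTinj, finrank_bot, zero_add] at hrank
  refine ⟨by rw [hBD, ← hrank]; exact Submodule.finrank_mono hTle, ?_⟩
  intro l u hk hu hd hlu hzu hxu
  rw [hBD, ← hrank]
  refine Submodule.finrank_lt_finrank_of_lt (lt_of_le_of_ne hTle fun heq => hxu ?_)
  have hmem' : X (Fin.last r) * u ∈ below zc (grade I d) k := by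
    refine mem_below.2 ⟨⟨hzu, ?_⟩, fun m hm => ?_⟩
    · have := (isHomogeneous_X K (Fin.last r)).mul hu
      rwa [show 1 + (d - 1) = d by omega] at this
    · rw [zc_z_mul]
      split_ifs with hm0
      · rfl
      · rw [← hlu, zc_zc, if_neg (by omega), mul_zero]
  obtain ⟨p, hp, hpu⟩ := (Eq.symm heq) ▸ hmem'
  obtain ⟨⟨hpI, -⟩, hlow⟩ := (hmem p).1 hp
  have h1 : zc k p = X (Fin.last r) * u := by
    have := hT p k
    rw [if_neg (lt_irrefl k), hpu, zc_z_mul, if_neg (by omega), show k - 1 = l by omega, hlu] at this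
    exact this.symm
  have h2 := hlow l (by omega)
  rw [zc_dist, ← hk, h1, down_z_mul] at h2
  rw [← neg_eq_of_add_eq_zero_right h2]
  exact I.neg_mem (hz p hpI l)

/-- In every characteristic a homogeneous ideal becomes stable in the last variable up to any
degree without a fall of the Betti numbers. -/
theorem exists_stable_of (P : Ideal (MvPolynomial (Fin (r + 1)) K) → Prop)
    (hP : ∀ (i : Fin r) (I : Ideal (MvPolynomial (Fin (r + 1)) K)), Closed I → ∀ (hz : ZGraded I),
      P I → P (inIdeal (distIdeal i hz)))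
    (D : ℕ) : ∀ {I : Ideal (MvPolynomial (Fin (r + 1)) K)}, Closed I → ZGraded I → P I →
    ∃ J : Ideal (MvPolynomial (Fin (r + 1)) K), Closed J ∧ ZGraded J ∧ P J ∧
      (∀ d, finrank K ↥(grade J d) = finrank K ↥(grade I d)) ∧
      (∀ p j, betti I p j ≤ betti J p j) ∧ (∀ f ∈ I, zc 0 f ∈ J) ∧
      ∀ i : Fin r, ∀ e ≤ D, ∀ q, q.IsHomogeneous e → X (Fin.last r) * q ∈ J →
        X i.castSucc * q ∈ J := by
  intro I
  induction hn : height I D using Nat.strong_induction_on generalizing I with
  | _ n ih =>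
    intro hI hz hPI
    by_cases hst : ∀ i : Fin r, ∀ e ≤ D, ∀ q, q.IsHomogeneous e → X (Fin.last r) * q ∈ I →
        X i.castSucc * q ∈ I
    · exact ⟨I, hI, hz, hPI, fun _ => rfl, fun _ _ => le_rfl, fun f hf => hz f hf 0, hst⟩
    · push Not at hst
      obtain ⟨i, e, he, q, hq, hzq, hxq⟩ := hst
      obtain ⟨l, hl, hxl⟩ : ∃ l ∈ range (e + 1), X i.castSucc * zc l q ∉ I := by
        by_contra hc
        push Not at hc
        refine hxq ?_
        rw [← sum_zc hq, Finset.mul_sum]
        exact I.sum_mem hc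
      have hl' := mem_range.1 hl
      set I' := inIdeal (distIdeal i hz)
      have hd1 := closed_dist i hI hz
      have hlt : height I' D < n := by
        rw [← hn, height, height]
        refine Finset.sum_lt_sum (fun d _ => Finset.sum_le_sum fun k _ => ?_)
          ⟨e + 1, mem_range.2 (by omega), Finset.sum_lt_sum (fun k _ => ?_)
            ⟨l + 1, mem_range.2 (by omega), ?_⟩⟩
        all_goals rw [finrank_below_in hd1]
        · exact (below_dist_lt i hI hz d k).1
        · exact (below_dist_lt i hI hz _ k).1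
        · refine (below_dist_lt i hI hz _ _).2 l (zc l q) rfl ?_ (by omega) ?_ ?_ hxl
          · rw [Nat.add_sub_cancel]; exact zc_homogeneous l hq
          · rw [zc_zc, if_pos rfl]
          · have := hz _ hzq (l + 1)
            rwa [zc_z_mul, if_neg (Nat.succ_ne_zero l), Nat.add_sub_cancel] at this
      obtain ⟨J, hJ, hJz, hJP, hJd, hJb, hJ0, hJs⟩ :=
        ih _ hlt rfl (closed_in hd1) (zGraded_in _) (hP i I hI hz hPI)
      refine ⟨J, hJ, hJz, hJP, fun d => ?_, fun p j => ?_, fun f hf => ?_, hJs⟩
      · rw [hJd, finrank_grade_in hd1, grade_dist i hI hz,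
          ← (Submodule.equivMapOfInjective _ (dist_injective i) _).finrank_eq]
      · exact ((betti_dist i hI hz p j).symm.le.trans (betti_le_in hd1 p j)).trans (hJb p j)
      · have h0 : zc 0 f ∈ distIdeal i hz := ⟨zc 0 f, hz f hf 0, dist_zero i f⟩
        have h1 := hJ0 _ (zc_mem_in h0 (k := 0) fun l hl => absurd hl (Nat.not_lt_zero l))
        rwa [zc_zc, if_pos rfl, zc_zc, if_pos rfl] at h1

/-- The stabilisation, without an invariant. -/
theorem exists_stable (D : ℕ) {I : Ideal (MvPolynomial (Fin (r + 1)) K)} (hI : Closed I)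
    (hz : ZGraded I) :
    ∃ J : Ideal (MvPolynomial (Fin (r + 1)) K), Closed J ∧ ZGraded J ∧
      (∀ d, finrank K ↥(grade J d) = finrank K ↥(grade I d)) ∧
      (∀ p j, betti I p j ≤ betti J p j) ∧ (∀ f ∈ I, zc 0 f ∈ J) ∧
      ∀ i : Fin r, ∀ e ≤ D, ∀ q, q.IsHomogeneous e → X (Fin.last r) * q ∈ J →
        X i.castSucc * q ∈ J := by
  obtain ⟨J, h1, h2, -, h3⟩ :=
    exists_stable_of (fun _ => True) (fun _ _ _ _ _ => trivial) D hI hz trivial
  exact ⟨J, h1, h2, h3⟩

end Vale.P200.Many
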