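import Vale.Agent.P200.Many.Pair
import Vale.Agent.P200.Many.Section
import Vale.Agent.P200.Many.Stable

/-!
P200, any number of variables: the ranks on a pair of ideals through the section by the last
variable.
-/

namespace Vale.P200.Many

open MvPolynomial Module Finset Vale.P200.Ext Vale.P200.Betti

universe u

variable {K : Type u} [Field K] {r : ℕ}

lemma secF_map_dS {L : Ideal (MvPolynomial (Fin (r + 1)) K)} (hL : Closed L) (p j : ℕ) :
    ((chI L p j).map (dS K (r + 1))).map secF = (chI (L.map killLast) p j).map (dS K r) := by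
  have hc : secF.comp (dS K (r + 1)) = (dS K r).comp secF := LinearMap.ext secF_dS
  rw [← secF_chI hL, ← Submodule.map_comp, hc, Submodule.map_comp]

lemma onF_le_chI (L : Ideal (MvPolynomial (Fin (r + 1)) K)) {p j : ℕ} (hp : p + 1 ≤ j) :
    (suppOn K p (grade L (j - (p + 1)))).map (onF K r) ≤ chI L (p + 1) j := fun f hf =>
  show f ∈ suppOn K (p + 1) (iDeg L (p + 1) j) by rw [iDeg, if_pos hp]; exact (mem_map_onF.1 hf).1

lemma dS_off {f : Finset (Fin (r + 1)) → MvPolynomial (Fin (r + 1)) K}
    (hf : ∀ U, Fin.last r ∉ U → f U = 0) {U : Finset (Fin (r + 1))} (hU : Fin.last r ∉ U) :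
    dS K (r + 1) f U = X (Fin.last r) * (sgn (MvPolynomial (Fin (r + 1)) K) (Fin.last r) U *
      f (insert (Fin.last r) U)) := by
  rw [dS_split, if_neg hU, iot_apply, if_neg hU, Finset.sum_eq_zero, zero_add]
  intro i _
  split_ifs
  · rfl
  · rw [hf _ (by simp [hU, (Fin.castSucc_ne_last i).symm]), mul_zero]

/-- The rank on a pair is at least the rank on the section plus the part along the last index. -/
theorem rkP_section_ge {G L : Ideal (MvPolynomial (Fin (r + 1)) K)} (hG : Closed G) (hL : Closed L)
    (hle : G ≤ L) (hn : NZD G (X (Fin.last r))) {p j : ℕ} (hp : p + 1 ≤ j) :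
    rkP (G.map killLast) (L.map killLast) (p + 1) j +
        r.choose p * (finrank K ↥(grade L (j - (p + 1))) - finrank K ↥(grade G (j - (p + 1)))) ≤
      rkP G L (p + 1) j := by
  classical
  set d := j - (p + 1)
  have := finiteDimensional_grade L d
  have := finiteDimensional_grade G d
  set E := (suppOn K p (grade L d)).map (onF K r) with hE
  have hEL : E ≤ chI L (p + 1) j := onF_le_chI L hp
  have : FiniteDimensional K ↥E := Submodule.finiteDimensional_of_le hEL
  set H := chI G p j
  set D := (chI L (p + 1) j).map (dS K (r + 1))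
  have : FiniteDimensional K ↥D := Module.Finite.map _ _
  set W := D ⊔ H
  have h0 := rkP_add G L (p + 1) j
  have h0' := rkP_add (G.map killLast) (L.map killLast) (p + 1) j
  rw [show p + 1 - 1 = p from rfl] at h0 h0'
  change _ + finrank K ↥H = finrank K ↥W at h0
  have hW : W.map secF =
      (chI (L.map killLast) (p + 1) j).map (dS K r) ⊔ chI (G.map killLast) p j := by
    rw [Submodule.map_sup, secF_map_dS hL, secF_chI hG]
  have a1 := finrank_inf_ker_add secF W
  have a2 := finrank_inf_ker_add secF H
  rw [hW] at a1
  rw [secF_chI hG] at a2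
  set Hk := H ⊓ LinearMap.ker secF
  have hEk : E.map (dS K (r + 1)) ≤ LinearMap.ker secF := by
    rintro _ ⟨f, hf, rfl⟩
    rw [LinearMap.mem_ker, secF_dS,
      show secF f = 0 from map_onF_le_ker _ p hf, map_zero]
  have a3 : finrank K ↥(E.map (dS K (r + 1)) ⊔ Hk) ≤ finrank K ↥(W ⊓ LinearMap.ker secF) :=
    Submodule.finrank_mono (sup_le (le_inf ((Submodule.map_mono hEL).trans le_sup_left) hEk)
      (inf_le_inf_right _ le_sup_right))
  set Z := E ⊓ H.comap (dS K (r + 1))
  have hZ : Z ≤ (suppOn K p (grade G d)).map (onF K r) := by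
    rintro f ⟨hf, hfd⟩
    obtain ⟨hf1, hf0⟩ := mem_map_onF.1 hf
    refine mem_map_onF.2 ⟨mem_suppOn.2 ⟨fun U hU => ?_, (mem_suppOn.1 hf1).2⟩, hf0⟩
    have hv := (mem_suppOn.1 hf1).1 U hU
    refine ⟨?_, hv.2⟩
    by_cases hz : Fin.last r ∈ U
    · have h1 := hn _ (dS_off hf0 (notMem_erase (Fin.last r) U) ▸ value_mem_of_chI hfd _)
      rw [insert_erase hz] at h1
      have h2 := G.mul_mem_left (sgn (MvPolynomial (Fin (r + 1)) K) (Fin.last r) (U.erase (Fin.last r))) h1
      rwa [← mul_assoc, sgn_sq, one_mul] at h2
    · rw [hf0 U hz]; exact zero_mem _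
  have : FiniteDimensional K ↥Z := Submodule.finiteDimensional_of_le inf_le_left
  have a4 := finrank_inf_ker_add (dS K (r + 1)) Z
  have a5 := finrank_inf_ker_add (dS K (r + 1)) E
  have a6 : finrank K ↥(Z ⊓ LinearMap.ker (dS K (r + 1))) =
      finrank K ↥(E ⊓ LinearMap.ker (dS K (r + 1))) := by
    have e : Z ⊓ LinearMap.ker (dS K (r + 1)) = E ⊓ LinearMap.ker (dS K (r + 1)) :=
      le_antisymm (inf_le_inf_right _ inf_le_left) fun f hf =>
        ⟨⟨hf.1, by rw [SetLike.mem_coe, Submodule.mem_comap, LinearMap.mem_ker.1 hf.2]; exact zero_mem _⟩, hf.2⟩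
    rw [e]
  have : FiniteDimensional K ↥(Z.map (dS K (r + 1))) := Module.Finite.map _ _
  have a7 : finrank K ↥(E.map (dS K (r + 1)) ⊓ Hk) ≤ finrank K ↥(Z.map (dS K (r + 1))) :=
    Submodule.finrank_mono (by
      rintro _ ⟨⟨f, hf, rfl⟩, hH⟩
      exact ⟨f, ⟨hf, hH.1⟩, rfl⟩)
  have : FiniteDimensional K ↥(E.map (dS K (r + 1))) := Module.Finite.map _ _
  have a8 := Submodule.finrank_sup_add_finrank_inf_eq (E.map (dS K (r + 1))) Hk
  have := finite_suppOn (n := r) p (grade G d)
  have : FiniteDimensional K ↥((suppOn K p (grade G d)).map (onF K r)) := Module.Finite.map _ _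
  have a9 := Submodule.finrank_mono hZ
  rw [finrank_map_onF] at a9
  have a10 : finrank K ↥E = r.choose p * finrank K ↥(grade L d) := finrank_map_onF _ p
  have a11 := Nat.mul_le_mul_left (r.choose p) (Submodule.finrank_mono (R := K)
    (show grade G d ≤ grade L d from inf_le_inf_right _ fun x hx => hle hx))
  rw [Nat.mul_sub]
  omega

lemma upF_injective :
    Function.Injective (upF : (Finset (Fin r) → MvPolynomial (Fin r) K) → _) :=
  Function.LeftInverse.injective secF_upF

variable (K r) in
/-- The lift of chains, as a linear map. -/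
noncomputable def upL : (Finset (Fin r) → MvPolynomial (Fin r) K) →ₗ[K]
    (Finset (Fin (r + 1)) → MvPolynomial (Fin (r + 1)) K) where
  toFun := upF
  map_add' x y := funext fun U => by
    by_cases h : Fin.last r ∈ U <;> simp [upF, offF, h]
  map_smul' s x := funext fun U => by
    by_cases h : Fin.last r ∈ U <;> simp [upF, offF, h]

lemma upF_chI_le {G : Ideal (MvPolynomial (Fin (r + 1)) K)} (hz : ZGraded G) (p j : ℕ) :
    (chI (G.map killLast) p j).map (upL K r) ≤ chI G p j := by
  rintro _ ⟨g, hg, rfl⟩
  refine mem_chI_of (upF_mem (chI_le _ p j hg)) fun U => ?_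
  show upF g U ∈ G
  unfold upF offF
  split_ifs
  · exact zero_mem _
  · obtain ⟨x, hx, hxg⟩ := (Ideal.mem_map_iff_of_surjective (killLast (K := K) (r := r))
      (fun q => ⟨_, killLast_rename q⟩)).1 (value_mem_of_chI hg (preS U))
    show rename Fin.castSucc (g (preS U)) ∈ G
    rw [← hxg, rename_killLast]
    exact hz x hx 0

/-- For a stable pair the rank is at most the rank on the section plus the part along the last
index. -/
theorem rkP_section_le {G L : Ideal (MvPolynomial (Fin (r + 1)) K)} (hG : Closed G) (hL : Closed L)
    (hle : G ≤ L) (hzG : ZGraded G) (hzL : ZGraded L) {p j : ℕ} (hp : p + 1 ≤ j)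
    (hstab : ∀ i : Fin r, ∀ q : MvPolynomial (Fin (r + 1)) K,
      q.IsHomogeneous (j - (p + 1) - 1) → X (Fin.last r) * q ∈ L → X i.castSucc * q ∈ L) :
    rkP G L (p + 1) j ≤ rkP (G.map killLast) (L.map killLast) (p + 1) j +
      r.choose p * (finrank K ↥(grade L (j - (p + 1))) - finrank K ↥(grade G (j - (p + 1)))) := by
  classical
  set d := j - (p + 1)
  have := finiteDimensional_grade L d
  have := finiteDimensional_grade G d
  set z : Fin (r + 1) := Fin.last r
  set E := (suppOn K p (grade L d)).map (onF K r) with hE
  have hEL : E ≤ chI L (p + 1) j := onF_le_chI L hp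
  have : FiniteDimensional K ↥E := Submodule.finiteDimensional_of_le hEL
  set H := chI G p j
  set Lb := (chI (L.map killLast) (p + 1) j).map (dS K r)
  set Gb := chI (G.map killLast) p j
  set X' := Lb.map (upL K r)
  have hW : (chI L (p + 1) j).map (dS K (r + 1)) ⊔ H ≤ E.map (dS K (r + 1)) ⊔ H ⊔ X' := by
    refine sup_le ?_ (le_sup_right.trans le_sup_left)
    rintro _ ⟨f, hf, rfl⟩
    have hfd : ∀ U, f U ∈ L := value_mem_of_chI hf
    set s := secF f
    have hs : s ∈ chI (L.map killLast) (p + 1) j := (secF_chI hL _ _).le ⟨f, hf, rfl⟩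
    set f' := f - upL K r s
    have hf' : f' ∈ chI L (p + 1) j := Submodule.sub_mem _ hf (upF_chI_le hzL _ _ ⟨s, hs, rfl⟩)
    have hoff : ∀ U, z ∉ U → f' U = X z * down (f U) := fun U hU => by
      rw [z_mul_down, ← rename_killLast]
      show f U - upF s U = _
      simp only [upF, offF, if_neg hU]
      rw [if_neg (show Fin.last r ∉ U from hU), show s (preS U) = killLast (f U) from by
        show secF f (preS U) = _
        rw [secF_apply, map_preS hU]]
    set g : Finset (Fin (r + 1)) → MvPolynomial (Fin (r + 1)) K :=
      fun U => if z ∈ U then 0 else down (f U) with hg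
    set b := dS K (r + 1) (eta K z g)
    have hbd : dS K (r + 1) b = 0 := kd_kd _ _
    have hb : ∀ U, b U = (if z ∈ U then 0 else X z * g U) - eta K z (dS K (r + 1) g) U := fun U => by
      have h1 := congrFun (dS_eta z g) U
      rw [Pi.add_apply, vmul_apply] at h1
      show dS K (r + 1) (eta K z g) U = _
      have h2 : (if z ∈ U then 0 else X z * g U) = X z * g U := by
        by_cases hU : z ∈ U <;> simp [hg, hU]
      rw [h2]
      linear_combination h1
    refine Submodule.mem_sup.2 ⟨dS K (r + 1) (f' - b), Submodule.mem_sup_left ⟨_, ?_, rfl⟩,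
      dS K (r + 1) (upL K r s), ⟨dS K r s, ⟨s, hs, rfl⟩, (dS_upF s).symm⟩, ?_⟩
    · refine mem_map_onF.2 ⟨mem_suppOn.2 ⟨fun U hU => ?_, fun U hU => ?_⟩, fun U hU => ?_⟩
      · have hv := (mem_suppOn.1 hf').1 U hU
        rw [iDeg, if_pos hp] at hv
        by_cases hUz : z ∈ U
        · refine Submodule.sub_mem _ hv ?_
          rw [hb, if_pos hUz, zero_sub]
          refine Submodule.neg_mem _ ?_
          rw [eta_apply, if_pos hUz, sgn]
          have key : dS K (r + 1) g (U.erase z) ∈ grade L d := by
            rw [dS_apply_sum]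
            refine Submodule.sum_mem _ fun i _ => ?_
            split_ifs with hi
            · exact zero_mem _
            induction i using Fin.lastCases with
            | last => simp [hg, z]
            | cast i =>
              have hzi : z ∉ insert i.castSucc (U.erase z) := by
                simp [z, (Fin.castSucc_ne_last i).symm]
              have hcard : (insert i.castSucc (U.erase z)).card = p + 1 := by
                rw [card_insert_of_notMem hi, card_erase_of_mem hUz, hU]
                rfl
              have hq := (mem_suppOn.1 hf).1 _ hcard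
              rw [iDeg, if_pos hp] at hq
              have hqd := isHomogeneous_down hq.2
              have hzq : X z * down (f (insert i.castSucc (U.erase z))) ∈ L := by
                rw [z_mul_down]; exact L.sub_mem hq.1 (hzL _ hq.1 0)
              have hxq := hstab i _ hqd hzq
              rw [hg]
              dsimp only
              rw [if_neg hzi, mul_assoc, sgn]
              have hh : X i.castSucc * down (f (insert i.castSucc (U.erase z))) ∈ grade L d := by
                refine ⟨hxq, ?_⟩
                rcases Nat.eq_zero_or_pos d with hd | hd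
                · have : down (f (insert i.castSucc (U.erase z))) = 0 := by
                    refine eq_zero_of_zc (d := 0) ((show j - (p + 1) - 1 = 0 by omega) ▸ hqd) fun k hk => ?_
                    obtain rfl : k = 0 := by omega
                    rw [zc_down]
                    have h1 : zc 1 (f (insert i.castSucc (U.erase z))) = 0 :=
                      eq_zero_of_zc (zc_homogeneous 1 hq.2) fun k hk => by
                        rw [zc_zc, if_neg]
                        rw [show j - (p + 1) = 0 from hd] at hk
                        omega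
                    rw [h1, map_zero]
                  rw [this, mul_zero]
                  exact zero_mem _
                · have := (isHomogeneous_X K i.castSucc).mul hqd
                  rwa [show 1 + (d - 1) = d by omega] at this
              rcases neg_one_pow_eq_or (MvPolynomial (Fin (r + 1)) K)
                ((U.erase z).filter (· < i.castSucc)).card with h1 | h1
              · simpa [h1] using hh
              · simpa [h1] using Submodule.neg_mem _ hh
          rcases neg_one_pow_eq_or (MvPolynomial (Fin (r + 1)) K) (U.filter (· < z)).card with h1 | h1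
          · simpa [h1] using key
          · simpa [h1] using Submodule.neg_mem _ key
        · rw [Pi.sub_apply, hb, if_neg hUz, hoff U hUz, eta_apply, if_neg hUz, sub_zero, hg]
          simp [hUz]
      · rw [Pi.sub_apply, (mem_suppOn.1 hf').2 U hU, hb, eta_apply]
        by_cases hUz : z ∈ U
        · rw [if_pos hUz, if_pos hUz]
          have : (U.erase z).card ≠ p := by
            rw [card_erase_of_mem hUz]
            have := card_pos.2 ⟨z, hUz⟩
            omega
          have h0 : dS K (r + 1) g (U.erase z) = 0 := by
            rw [dS_apply_sum]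
            refine Finset.sum_eq_zero fun i _ => ?_
            split_ifs with hi
            · rfl
            · rw [hg]
              dsimp only
              split_ifs
              · rw [mul_zero]
              · rw [(mem_suppOn.1 hf).2 _ (by rw [card_insert_of_notMem hi]; omega), map_zero, mul_zero]
          rw [h0]; simp
        · rw [if_neg hUz, if_neg hUz, hg]
          simp [hUz, (mem_suppOn.1 hf).2 U hU]
      · rw [Pi.sub_apply, hb, if_neg hU, hoff U hU, eta_apply, if_neg hU, sub_zero, hg]
        dsimp only
        rw [if_neg (show z ∉ U from hU), sub_self]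
    · rw [map_sub, hbd, sub_zero, map_sub, sub_add_cancel]
  have : FiniteDimensional K ↥Lb := Module.Finite.map _ _
  have : FiniteDimensional K ↥X' := Module.Finite.map _ _
  have : FiniteDimensional K ↥(E.map (dS K (r + 1))) := Module.Finite.map _ _
  have h0 := rkP_add G L (p + 1) j
  have h0' := rkP_add (G.map killLast) (L.map killLast) (p + 1) j
  rw [show p + 1 - 1 = p from rfl] at h0 h0'
  change _ + finrank K ↥H = finrank K ↥((chI L (p + 1) j).map (dS K (r + 1)) ⊔ H) at h0
  change _ + finrank K ↥Gb = finrank K ↥(Lb ⊔ Gb) at h0'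
  have : FiniteDimensional K ↥((chI L (p + 1) j).map (dS K (r + 1))) := Module.Finite.map _ _
  have a1 := Submodule.finrank_mono hW
  have hinj : Function.Injective (upL K r) := upF_injective
  have a2 : finrank K ↥Lb = finrank K ↥X' :=
    (Submodule.equivMapOfInjective (upL K r) hinj Lb).finrank_eq
  have a3 := (Submodule.equivMapOfInjective (upL K r) hinj (Lb ⊓ Gb)).finrank_eq
  have a4 : finrank K ↥((Lb ⊓ Gb).map (upL K r)) ≤
      finrank K ↥((E.map (dS K (r + 1)) ⊔ H) ⊓ X') :=
    Submodule.finrank_mono (le_inf ((Submodule.map_mono inf_le_right).trans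
      ((upF_chI_le hzG p j).trans le_sup_right)) (Submodule.map_mono inf_le_left))
  have a5 := Submodule.finrank_sup_add_finrank_inf_eq (E.map (dS K (r + 1)) ⊔ H) X'
  have a6 := Submodule.finrank_sup_add_finrank_inf_eq Lb Gb
  have a7 := Submodule.finrank_sup_add_finrank_inf_eq (E.map (dS K (r + 1))) H
  have := finite_suppOn (n := r) p (grade G d)
  set EG := (suppOn K p (grade G d)).map (onF K r)
  have : FiniteDimensional K ↥EG := Module.Finite.map _ _
  have hEG : EG ≤ E := Submodule.map_mono (Submodule.pi_mono fun U _ => by
    split_ifs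
    · exact inf_le_inf_right _ fun x hx => hle hx
    · exact le_rfl)
  have a8 := finrank_inf_ker_add (dS K (r + 1)) EG
  have a9 := finrank_inf_ker_add (dS K (r + 1)) E
  have : FiniteDimensional K ↥(EG.map (dS K (r + 1))) := Module.Finite.map _ _
  have a10 := Submodule.finrank_mono (R := K) (inf_le_inf_right (LinearMap.ker (dS K (r + 1))) hEG)
  have a11 : finrank K ↥(EG.map (dS K (r + 1))) ≤ finrank K ↥(E.map (dS K (r + 1)) ⊓ H) :=
    Submodule.finrank_mono (le_inf (Submodule.map_mono hEG) (by
      rintro _ ⟨f, hf, rfl⟩
      refine mem_chI_of ?_ fun U => ?_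
      · exact map_chS_le p j ⟨f, chI_le G _ j (onF_le_chI G hp hf), rfl⟩
      · rw [dS_apply_sum]
        refine G.sum_mem fun i _ => ?_
        split_ifs
        · exact zero_mem _
        · exact G.mul_mem_left _ (value_mem_of_chI (onF_le_chI G hp hf) _)))
  have a12 : finrank K ↥E = r.choose p * finrank K ↥(grade L d) := finrank_map_onF _ p
  have a13 : finrank K ↥EG = r.choose p * finrank K ↥(grade G d) := finrank_map_onF _ p
  rw [Nat.mul_sub]
  omega

end Vale.P200.Many
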