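import Vale.Agent.P200.Many.Descent
import Vale.Agent.P200.Many.Dual
import Vale.Agent.P200.Many.Flip

/-!
P200, any number of variables: in the section, a pair has larger rank sums than its
lex-plus-powers counterpart.
-/

namespace Vale.P200.Many

open MvPolynomial Module Finset Vale.P200.Ext Vale.P200.Betti

universe u

variable {K : Type u} [Field K] {m : ℕ}

/-- A complete intersection: socle degree and vanishing above it. -/
lemma ci_soc [Infinite K] {a : Fin m → ℕ} (ha : ∀ i, 1 ≤ a i)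
    {g : Fin m → MvPolynomial (Fin m) K} (hg : ∀ i, (g i).IsHomogeneous (a i))
    (hreg : RegMod ⊥ (List.ofFn g)) :
    Soc1 (Ideal.ofList (List.ofFn g)) (∑ i, (a i - 1)) ∧
      ∀ (d : ℕ) (p : MvPolynomial (Fin m) K), ∑ i, (a i - 1) < d → p.IsHomogeneous d →
        p ∈ Ideal.ofList (List.ofFn g) := by
  refine ⟨soc1_ofList noSocleHyp ha hg hreg, fun d p hd hp => ?_⟩
  set Q := Ideal.ofList (List.ofFn g)
  have h0 : (lev a d).card = 0 := by
    rw [card_eq_zero, Finset.eq_empty_iff_forall_notMem]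
    intro x hx
    obtain ⟨h1, h2⟩ := mem_lev.1 hx
    have : ∑ i, x i ≤ ∑ i, (a i - 1) := sum_le_sum fun i _ => Nat.le_sub_one_of_lt (h1 i)
    omega
  have hq0 := hq_ofList hg hreg d
  rw [h0, hq] at hq0
  change finrank K ↥(homogeneousSubmodule (Fin m) K d) - finrank K ↥(grade Q d) = 0 at hq0
  have := finite_hom (K := K) (n := m) d
  have heq : grade Q d = homogeneousSubmodule (Fin m) K d :=
    Submodule.eq_of_le_of_finrank_le inf_le_right (by
      have := finrank_grade_le_hom (K := K) Q d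
      omega)
  have : p ∈ grade Q d := heq.symm ▸ hp
  exact this.1

/-- Linking twice gives the ideal back, degree by degree. -/
lemma grade_double_link {Q A : Ideal (MvPolynomial (Fin m) K)} (hA : Closed A) (hle : Q ≤ A)
    {σ : ℕ} (hs : Soc1 Q σ)
    (hz : ∀ (d : ℕ) (p : MvPolynomial (Fin m) K), σ < d → p.IsHomogeneous d → p ∈ Q) (e : ℕ) :
    grade (Q.colon ((Q.colon (A : Set (MvPolynomial (Fin m) K)) :
      Ideal (MvPolynomial (Fin m) K)) : Set (MvPolynomial (Fin m) K))) e = grade A e := by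
  refine le_antisymm ?_ fun x hx => ⟨?_, hx.2⟩
  · rintro x ⟨hx, hxe⟩
    refine ⟨?_, hxe⟩
    rcases lt_or_ge σ e with he | he
    · exact hle (hz e x he hxe)
    obtain ⟨lam, hlamQ, hlam⟩ := exists_socle_functional hs hz
    refine mem_of_linked hA hle hs hz hlam he hxe fun y hy => hlamQ _ ?_
    exact Submodule.mem_colon.1 hx y hy.1
  · show x ∈ Q.colon _
    rw [Submodule.mem_colon]
    intro y hy
    rw [smul_eq_mul, mul_comm]
    exact Submodule.mem_colon.1 hy x hx.1

/-- The ranks of a linked pair, in every homological degree up to one past the variables. -/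
lemma rkP_linked {Q E : Ideal (MvPolynomial (Fin m) K)} (hQ : Closed Q) (hE : Closed E)
    (hle : Q ≤ E) {σ : ℕ} (hs : Soc1 Q σ)
    (hz : ∀ (d : ℕ) (p : MvPolynomial (Fin m) K), σ < d → p.IsHomogeneous d → p ∈ Q)
    {i j : ℕ} (hi : i ≤ m + 1) (hj : j ≤ σ + m) :
    rkP Q (Q.colon (E : Set (MvPolynomial (Fin m) K))) i j = rk E (m + 1 - i) (σ + m - j) := by
  rcases Nat.eq_zero_or_pos i with rfl | h0
  · rw [rkP_zero, rk_eq_rkP, rkP_eq_zero (Or.inl (by omega))]
  rcases Nat.lt_or_ge m i with h1 | h1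
  · rw [rkP_eq_zero (Or.inl h1), rk_eq_rkP, show m + 1 - i = 0 by omega, rkP_zero]
  rw [rk_dual hQ hE hle hs hz (p := m + 1 - i) (j := σ + m - j) (by omega) (by omega) (by omega),
    show m + 1 - (m + 1 - i) = i by omega, show σ + m - (σ + m - j) = j by omega]

/-- For a pair `(g) ⊆ A` with `g` a full regular sequence, the sum of two consecutive ranks is at
least that of every pair `P ⊆ AJ` inside the lex-plus-powers ideal of `A`. -/
theorem rkP_sum_le [Infinite K] {a : Fin m → ℕ} (ha : ∀ i, 2 ≤ a i) (hmono : Monotone a)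
    (IH : LppAt K m a) {g : Fin m → MvPolynomial (Fin m) K}
    (hg : ∀ i, (g i).IsHomogeneous (a i)) (hreg : RegMod ⊥ (List.ofFn g))
    {A AJ : Ideal (MvPolynomial (Fin m) K)} (hA : Closed A) (hgA : ∀ i, g i ∈ A) {i j : ℕ}
    (hnest : ∀ L : Ideal (MvPolynomial (Fin m) K),
      (∀ e, grade L e = lppSpaceN (powersIdeal K le_rfl a) A e) →
      ∀ e ≤ j, grade AJ e ≤ grade L e) :
    rkP (powersIdeal K le_rfl a) AJ i j + rkP (powersIdeal K le_rfl a) AJ (i + 1) j ≤
      rkP (Ideal.ofList (List.ofFn g)) A i j + rkP (Ideal.ofList (List.ofFn g)) A (i + 1) j := by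
  classical
  have ha1 : ∀ k, 1 ≤ a k := fun k => le_trans (by omega) (ha k)
  set P := powersIdeal K le_rfl a with hPdef
  set Q := Ideal.ofList (List.ofFn g) with hQdef
  set σ := ∑ k, (a k - 1) with hσdef
  obtain ⟨hsQ, hzQ⟩ := ci_soc ha1 hg hreg
  obtain ⟨hregP, hPeq⟩ := powers_regMod (K := K) a ha1
  have hXhom : ∀ k, ((X k : MvPolynomial (Fin m) K) ^ a k).IsHomogeneous (a k) := fun k => by
    simpa using (isHomogeneous_X K k).pow (a k)
  obtain ⟨hsP, hzP⟩ := ci_soc ha1 hXhom hregP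
  rw [← hPeq] at hsP hzP
  rcases Nat.lt_or_ge m i with him | him
  · rw [rkP_eq_zero (Or.inl him), rkP_eq_zero (Or.inl (by omega : m < i + 1))]
    exact Nat.zero_le _
  rcases Nat.lt_or_ge (σ + m) j with hj | hj
  · have h0 : ∀ l, rkP P AJ l j = 0 := fun l => by
      rcases Nat.lt_or_ge m l with hl | hl
      · exact rkP_eq_zero (Or.inl hl)
      · exact rkP_of_full fun _ => le_antisymm inf_le_right fun x hx =>
          ⟨hzP _ x (by omega) hx, hx⟩
    rw [h0, h0]
    exact Nat.zero_le _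
  have hQc : Closed Q := closed_ofList fun x hx => by
    obtain ⟨k, rfl⟩ := List.mem_ofFn.1 hx
    exact ⟨_, hg k⟩
  have hPc : Closed P := by
    rw [hPdef, hPeq]
    refine closed_ofList fun x hx => ?_
    obtain ⟨k, rfl⟩ := List.mem_ofFn.1 hx
    exact ⟨_, hXhom k⟩
  have hQA : Q ≤ A := Ideal.span_le.2 fun x hx => by
    obtain ⟨k, rfl⟩ := List.mem_ofFn.1 hx
    exact hgA k
  set E := Q.colon (A : Set (MvPolynomial (Fin m) K)) with hEdef
  have hEc : Closed E := closed_colon hQc hA
  have hQE : Q ≤ E := le_colon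
  have hgE : ∀ k, g k ∈ E := fun k => hQE (Ideal.subset_span (by simp))
  obtain ⟨L0, hL0, hbetti⟩ := IH le_rfl ha hmono g hg hreg E hEc hgE
  -- a closed ideal with the same graded pieces
  set L1 := Ideal.span (⋃ d, (grade L0 d : Set (MvPolynomial (Fin m) K))) with hL1def
  have hL1c : Closed L1 := by
    intro p hp e
    obtain ⟨N, w, x, hsum⟩ := Submodule.mem_span_set'.1 hp
    rw [← hsum, map_sum]
    refine sum_mem fun k _ => ?_
    obtain ⟨d, hd⟩ := Set.mem_iUnion.1 (x k).2
    rw [smul_eq_mul, hcomp_mul hd.2]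
    split_ifs
    · exact L1.mul_mem_left _ (Ideal.subset_span (x k).2)
    · exact zero_mem _
  have hL1g : ∀ d, grade L1 d = grade L0 d := fun d => by
    refine le_antisymm (inf_le_inf_right _ fun x hx => ?_) fun x hx =>
      ⟨Ideal.subset_span (Set.mem_iUnion.2 ⟨d, hx⟩), hx.2⟩
    exact (Ideal.span_le.2 (Set.iUnion_subset fun e y hy => hy.1) : L1 ≤ L0) hx
  have hPL : P ≤ L1 := Ideal.span_le.2 fun x hx => by
    obtain ⟨k, rfl⟩ := hx
    have hm : monomial (Finsupp.single (Fin.castLE le_rfl k) (a k)) (1 : K) ∈ grade L0 (a k) := by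
      rw [(hL0 (a k)).1, lppSpaceN]
      refine Submodule.subset_span ⟨_, ⟨Finsupp.degree_single _ _, Or.inl ?_⟩, rfl⟩
      rw [← X_pow_eq_monomial]
      exact Ideal.subset_span ⟨k, rfl⟩
    rw [← hL1g, ← X_pow_eq_monomial] at hm
    exact hm.1
  have hlink : ∀ e, grade (Q.colon (E : Set (MvPolynomial (Fin m) K))) e = grade A e :=
    grade_double_link hA hQA hsQ hzQ
  set L := P.colon (L1 : Set (MvPolynomial (Fin m) K)) with hLdef
  have hL : ∀ e, grade L e = lppSpaceN P A e := fun e => by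
    rw [(lpp_colon ha1 hg hreg hEc hgE hL1c (fun d => by rw [hL1g]; exact hL0 d) e).1]
    rw [lppSpaceN, lppSpaceN]
    rw [← hQdef, ← hPdef, hlink e]
  -- both sums as ranks of the linked ideals
  have hq1 : ∀ q, rkP Q A q j = rkP Q (Q.colon (E : Set (MvPolynomial (Fin m) K))) q j := fun q =>
    rkP_congr (fun _ => (hlink _).symm) fun _ _ => rfl
  have hmonoL : ∀ q, rkP P AJ q j ≤ rkP P L q j := fun q =>
    rkP_mono fun _ => hnest L hL _ (Nat.sub_le _ _)
  have e1 := rkP_linked hQc hEc hQE hsQ hzQ (i := i) (by omega) hj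
  have e2 := rkP_linked hQc hEc hQE hsQ hzQ (i := i + 1) (by omega) hj
  have e3 := rkP_linked hPc hL1c hPL hsP hzP (i := i) (by omega) hj
  have e4 := rkP_linked hPc hL1c hPL hsP hzP (i := i + 1) (by omega) hj
  rw [show m + 1 - (i + 1) = m - i by omega] at e2 e4
  rw [show m + 1 - i = m - i + 1 by omega] at e1 e3
  -- the Betti numbers of the linked ideals
  set j' := σ + m - j
  have hchI : ∀ (I I' : Ideal (MvPolynomial (Fin m) K)) (q : ℕ),
      (∀ d, finrank K ↥(grade I d) = finrank K ↥(grade I' d)) →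
      finrank K ↥(chI I q j') = finrank K ↥(chI I' q j') := by
    intro I I' q h
    rw [chI, chI, finrank_suppOn, finrank_suppOn]
    congr 1
    by_cases hq' : q ≤ j'
    · rw [iDeg, iDeg, if_pos hq', if_pos hq']; exact h _
    · rw [iDeg, iDeg, if_neg hq', if_neg hq']
  have b1 := betti_rank E (m - i) j'
  have b2 := betti_rank L1 (m - i) j'
  have b3 : betti E (m - i) j' ≤ betti L1 (m - i) j' :=
    (hbetti _ _).trans (betti_congr_low (fun d _ => hL1g d) _).ge
  have b4 := hchI L1 E (m - i) fun d => by rw [hL1g]; exact (hL0 d).2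
  have m1 := hmonoL i
  have m2 := hmonoL (i + 1)
  rw [hq1, hq1]
  rw [e1, e2]
  rw [e3] at m1
  rw [e4] at m2
  omega

end Vale.P200.Many
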