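import Vale.Agent.P200.Betti.Final

/-!
P200, any number of variables: lex-plus-powers sets in one more variable. If the slices of a space
along the last variable are stable, the lex-plus-powers set of the same size has at most as many
monomials free of the last variable. Also, slices glue to a monomial ideal.
-/

namespace Vale.P200.Many

open MvPolynomial Module Finset Vale.P200.Ext Vale.P200.Betti

universe u

variable {K : Type u} [Field K] {r c : ℕ}

/-- The exponents of the variables before the last one. -/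
noncomputable def ini (m : Fin (r + 1) →₀ ℕ) : Fin r →₀ ℕ :=
  Finsupp.equivFunOnFinite.symm fun k => m k.castSucc

/-- Adjoin an exponent of the last variable. -/
noncomputable def addLast (x : Fin r →₀ ℕ) (t : ℕ) : Fin (r + 1) →₀ ℕ :=
  Finsupp.equivFunOnFinite.symm (Fin.snoc (x : Fin r → ℕ) t)

lemma ini_apply (m : Fin (r + 1) →₀ ℕ) (k : Fin r) : ini m k = m k.castSucc := rfl

lemma ini_addLast (x : Fin r →₀ ℕ) (t : ℕ) : ini (addLast x t) = x := by
  ext k; simp [ini, addLast]

lemma addLast_last (x : Fin r →₀ ℕ) (t : ℕ) : addLast x t (Fin.last r) = t := by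
  simp [addLast]

lemma addLast_ini (m : Fin (r + 1) →₀ ℕ) : addLast (ini m) (m (Fin.last r)) = m := by
  ext k
  induction k using Fin.lastCases <;> simp [ini, addLast]

lemma degree_ini (m : Fin (r + 1) →₀ ℕ) : m.degree = (ini m).degree + m (Fin.last r) := by
  rw [Finsupp.degree_eq_sum, Finsupp.degree_eq_sum, Fin.sum_univ_castSucc]
  simp [ini]

lemma outN_ini (h : c ≤ r) (a : Fin c → ℕ) (m : Fin (r + 1) →₀ ℕ) :
    OutN (h.trans r.le_succ) a m ↔ OutN h a (ini m) := Iff.rfl

/-- Counting along the last variable. -/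
lemma ncard_slices (L : ℕ → Set (Fin r →₀ ℕ)) (d : ℕ) :
    {m : Fin (r + 1) →₀ ℕ | m.degree = d ∧ ini m ∈ L (m (Fin.last r))}.ncard =
      ∑ t ∈ Finset.range (d + 1), {x : Fin r →₀ ℕ | x.degree = d - t ∧ x ∈ L t}.ncard := by
  classical
  set Y : ℕ → Set (Fin r →₀ ℕ) := fun t => {x | x.degree = d - t ∧ x ∈ L t} with hY
  have hYfin : ∀ t, (Y t).Finite := fun t => (finite_degree_eq _).subset fun x hx => hx.1
  have himg : {m : Fin (r + 1) →₀ ℕ | m.degree = d ∧ ini m ∈ L (m (Fin.last r))} =
      ↑(((Finset.range (d + 1)).sigma fun t => (hYfin t).toFinset).image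
        fun p => addLast p.2 p.1) := by
    ext m
    simp only [Finset.coe_image, Finset.coe_sigma, Set.mem_image, Set.mem_sigma_iff,
      Set.Finite.coe_toFinset, Finset.mem_coe, Finset.mem_range, Set.mem_ofPred_eq, hY]
    constructor
    · rintro ⟨hd, hm⟩
      have := degree_ini m
      exact ⟨⟨m (Fin.last r), ini m⟩, ⟨show m (Fin.last r) < d + 1 by omega,
        show (ini m).degree = d - m (Fin.last r) by omega, hm⟩, addLast_ini m⟩
    · rintro ⟨⟨t, x⟩, ⟨h1, h2, h3⟩, rfl⟩
      simp only at h1 h2 h3 ⊢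
      rw [degree_ini, ini_addLast, addLast_last]
      exact ⟨by omega, h3⟩
  rw [himg, Set.ncard_coe_finset, Finset.card_image_of_injOn, Finset.card_sigma]
  · exact Finset.sum_congr rfl fun t _ => (Set.ncard_eq_toFinset_card _ (hYfin t)).symm
  · rintro ⟨t, x⟩ _ ⟨u, y⟩ _ hxy
    simp only at hxy
    have ht : t = u := by rw [← addLast_last x t, hxy, addLast_last]
    have hx : x = y := by rw [← ini_addLast x t, hxy, ini_addLast]
    subst ht hx
    rfl

lemma lpSet_mono {n : ℕ} (h : c ≤ n) (a : Fin c → ℕ) (d : ℕ) {p q : ℕ} (hpq : p ≤ q) :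
    lpSet h a d p ⊆ lpSet h a d q := fun _ hm =>
  ⟨hm.1, hm.2.imp_right fun hlt => lt_of_lt_of_le hlt (Nat.sub_le_sub_right hpq _)⟩

/-- The ideal of lex-plus-powers sets. -/
lemma exists_lpSet_ideal {n : ℕ} (h : c ≤ n) {a : Fin c → ℕ} (hmono : Monotone a)
    {I : Ideal (MvPolynomial (Fin n) K)} (hmon : HasMon h a I) :
    ∃ J : Ideal (MvPolynomial (Fin n) K), ∀ d,
      (∀ m : Fin n →₀ ℕ, m.degree = d →
        (monomial m (1 : K) ∈ J ↔ m ∈ lpSet h a d (finrank K ↥(grade I d)))) ∧
      (lpSet h a d (finrank K ↥(grade I d))).ncard = finrank K ↥(grade I d) := by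
  obtain ⟨J, hJ⟩ := exists_lpp_of_hasMon h hmono hmon
  refine ⟨J, fun d => ?_⟩
  have he := (hJ d).1
  rw [lppSpaceN_eq_restrict] at he
  refine ⟨fun m hm => ⟨fun hmJ => ?_, fun hmS => ?_⟩, ?_⟩
  · have : monomial m (1 : K) ∈ restrictSupport K (lpSet h a d (finrank K ↥(grade I d))) :=
      he ▸ (⟨hmJ, isHomogeneous_monomial _ hm⟩ : monomial m (1 : K) ∈ grade J d)
    simpa [monomial_mem_restrictSupport] using this
  · have : monomial m (1 : K) ∈ grade J d :=
      he.symm ▸ (by rw [monomial_mem_restrictSupport]; exact Or.inl hmS)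
    exact this.1
  · rw [← finrank_restrictSupport_gen (K := K), ← he]
    exact (hJ d).2

lemma lpSet_upper {n : ℕ} (h : c ≤ n) {a : Fin c → ℕ} (hmono : Monotone a)
    {I : Ideal (MvPolynomial (Fin n) K)} (hmon : HasMon h a I) :
    IsUpperSet {x : Fin n →₀ ℕ | x ∈ lpSet h a x.degree (finrank K ↥(grade I x.degree))} := by
  obtain ⟨J, hJ⟩ := exists_lpSet_ideal h hmono hmon
  intro x y hxy hx
  obtain ⟨γ, rfl⟩ := exists_add_of_le hxy
  refine ((hJ _).1 (x + γ) rfl).1 ?_
  rw [← one_mul (1 : K), ← monomial_mul]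
  exact J.mul_mem_right _ (((hJ _).1 x rfl).2 hx)

/-- Slices glue to a monomial ideal. -/
theorem hasMon_succ (h : c ≤ r) {a : Fin c → ℕ} (hmono : Monotone a)
    {g : Fin c → MvPolynomial (Fin r) K}
    (hmon : ∀ B, Closed B → (∀ i, g i ∈ B) → HasMon h a B)
    (A : ℕ → Ideal (MvPolynomial (Fin r) K)) (hA : ∀ t, Closed (A t))
    (hgA : ∀ t i, g i ∈ A t) (hAmono : ∀ t, A t ≤ A (t + 1))
    (I : Ideal (MvPolynomial (Fin (r + 1)) K))
    (hdim : ∀ d, finrank K ↥(grade I d) =
      ∑ t ∈ Finset.range (d + 1), finrank K ↥(grade (A t) (d - t))) :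
    HasMon (h.trans r.le_succ) a I := by
  let L : ℕ → Set (Fin r →₀ ℕ) := fun t =>
    {x | x ∈ lpSet h a x.degree (finrank K ↥(grade (A t) x.degree))}
  have hup : ∀ t, IsUpperSet (L t) := fun t =>
    lpSet_upper h hmono (hmon (A t) (hA t) (hgA t))
  have hL : ∀ s t, s ≤ t → L s ⊆ L t := by
    intro s t hst
    induction t, hst using Nat.le_induction with
    | base => exact subset_rfl
    | succ t hst ih =>
      refine ih.trans fun x hx => lpSet_mono h a _ ?_ hx
      have := finiteDimensional_grade (A (t + 1)) x.degree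
      exact Submodule.finrank_mono (inf_le_inf_right _ fun y hy => hAmono t hy)
  refine ⟨{m | ini m ∈ L (m (Fin.last r))}, fun m m' hle hm => ?_, fun i => ?_, fun d => ?_⟩
  · exact hup _ (fun k => hle k.castSucc) (hL _ _ (hle (Fin.last r)) hm)
  · refine ⟨rfl, Or.inl fun ho => ?_⟩
    have := ho i
    rw [ini_apply, show (Fin.castLE h i).castSucc = Fin.castLE (h.trans r.le_succ) i from rfl,
      Finsupp.single_eq_same] at this
    exact lt_irrefl _ this
  · simp only [Set.mem_ofPred_eq]
    rw [ncard_slices L d, hdim]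
    refine Finset.sum_congr rfl fun t _ => ?_
    obtain ⟨J, hJ⟩ := exists_lpSet_ideal h hmono (hmon (A t) (hA t) (hgA t))
    refine Eq.trans ?_ (hJ (d - t)).2
    congr 1
    ext x
    exact ⟨fun ⟨hx, hm⟩ => hx ▸ hm, fun hx => ⟨hx.1, show x ∈ lpSet h a x.degree _ from
      hx.1.symm ▸ hx⟩⟩

/-- The ideal generated by forms is closed under taking homogeneous components. -/
lemma closed_span_forms {σ : Type*} {s : Set (MvPolynomial σ K)}
    (hs : ∀ x ∈ s, ∃ d, x.IsHomogeneous d) : Closed (Ideal.span s) := by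
  intro p hp j
  obtain ⟨N, w, g, hsum⟩ := Submodule.mem_span_set'.1 hp
  rw [← hsum, map_sum]
  refine sum_mem fun k _ => ?_
  obtain ⟨e, he⟩ := hs _ (g k).2
  rw [smul_eq_mul, hcomp_mul he]
  split_ifs
  · exact Ideal.mul_mem_left _ _ (Ideal.subset_span (g k).2)
  · exact zero_mem _

/-- One stable step: multiplication by a variable carries the lex-plus-powers set of one slice
into that of the previous one. -/
lemma lpSet_step (h : c ≤ r) {a : Fin c → ℕ} (hmono : Monotone a)
    {g : Fin c → MvPolynomial (Fin r) K} (hg : ∀ i, (g i).IsHomogeneous (a i))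
    (hmon : ∀ B, Closed B → (∀ i, g i ∈ B) → HasMon h a B)
    {A A' : Ideal (MvPolynomial (Fin r) K)} (hgA : ∀ i, g i ∈ A) (hgA' : ∀ i, g i ∈ A') {e : ℕ}
    (hstab : ∀ i, ∀ u ∈ grade A' e, X i * u ∈ A) {x : Fin r →₀ ℕ}
    (hx : x ∈ lpSet h a e (finrank K ↥(grade A' e))) (k : Fin r) :
    x + Finsupp.single k 1 ∈ lpSet h a (e + 1) (finrank K ↥(grade A (e + 1))) := by
  set B := Ideal.span (Set.range g ∪ (grade A' e : Set (MvPolynomial (Fin r) K))) with hB
  have hBc : Closed B := closed_span_forms fun y hy => hy.elim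
    (fun ⟨i, hi⟩ => ⟨a i, hi ▸ hg i⟩) fun hy => ⟨e, hy.2⟩
  have hgB : ∀ i, g i ∈ B := fun i => Ideal.subset_span (Or.inl ⟨i, rfl⟩)
  have he : grade B e = grade A' e := by
    refine le_antisymm (inf_le_inf_right _ fun y hy => ?_) fun y hy =>
      ⟨Ideal.subset_span (Or.inr hy), hy.2⟩
    exact (Ideal.span_le.2 (by rintro z (⟨i, rfl⟩ | hz); exacts [hgA' i, hz.1]) : B ≤ A') hy
  have he1 : grade B (e + 1) ≤ grade A (e + 1) := by
    rintro p ⟨hp, hpd⟩
    refine ⟨?_, hpd⟩
    obtain ⟨N, w, y, hsum⟩ := Submodule.mem_span_set'.1 hp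
    rw [← homogeneousComponent_eq_self hpd, ← hsum, map_sum]
    refine sum_mem fun l _ => ?_
    rw [smul_eq_mul]
    rcases (y l).2 with ⟨i, hi⟩ | hy
    · rw [← hi, hcomp_mul (hg i)]
      split_ifs
      · exact A.mul_mem_left _ (hgA i)
      · exact zero_mem _
    · rw [hcomp_mul hy.2, if_pos (Nat.le_succ e), Nat.add_sub_cancel_left]
      have h0 : constantCoeff (homogeneousComponent 1 (w l)) = 0 := by
        rw [constantCoeff_eq]
        exact (homogeneousComponent_isHomogeneous 1 _).coeff_eq_zero (by rw [map_zero]; omega)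
      have := mem_ideal_of_X (P := A.colon {(y l : MvPolynomial (Fin r) K)})
        (fun i => Submodule.mem_colon_singleton.2 (hstab i _ hy)) h0
      exact Submodule.mem_colon_singleton.1 this
  obtain ⟨J, hJ⟩ := exists_lpSet_ideal h hmono (hmon B hBc hgB)
  have hxJ : monomial x (1 : K) ∈ J := ((hJ e).1 x hx.1).2 (he.symm ▸ hx)
  have hdeg : (x + Finsupp.single k 1).degree = e + 1 := by
    rw [map_add, Finsupp.degree_single, hx.1]
  have := finiteDimensional_grade A (e + 1)
  refine lpSet_mono h a _ (Submodule.finrank_mono he1) (((hJ _).1 _ hdeg).1 ?_)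
  rw [← one_mul (1 : K), ← monomial_mul]
  exact J.mul_mem_right _ hxJ

/-- Above a member in lex order, outside the powers, is a member. -/
lemma mem_lpSet_of_lt {n : ℕ} (h : c ≤ n) {a : Fin c → ℕ} {d q : ℕ} {x s : Fin n →₀ ℕ}
    (hx : x ∈ lpSet h a d q) (hxo : OutN h a x) (hs : s.degree = d) (hlt : toLex x < toLex s) :
    s ∈ lpSet h a d q := by
  refine ⟨hs, Or.inr (lt_of_le_of_lt ?_ (hx.2.resolve_left (not_not.2 hxo)))⟩
  exact Set.ncard_le_ncard (fun m hm => ⟨hm.1, hlt.trans hm.2.1, hm.2.2⟩)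
    ((finite_degree_eq d).subset fun m hm => hm.1)

/-- A member of a slice whose first difference with `s` is below `s` pushes `s` into the first
slice. -/
lemma mem_first_slice (h : c ≤ r) {a : Fin c → ℕ} {d : ℕ} (T : ℕ → ℕ)
    (hstep : ∀ t < d, ∀ x ∈ lpSet h a (d - (t + 1)) (T (t + 1)), ∀ k,
      x + Finsupp.single k 1 ∈ lpSet h a (d - t) (T t))
    {s : Fin r →₀ ℕ} (hs : s.degree = d) (hso : OutN h a s) :
    ∀ t ≤ d, ∀ y ∈ lpSet h a (d - t) (T t), OutN h a y → ∀ i, (∀ j < i, y j = s j) → y i < s i →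
      s ∈ lpSet h a d (T 0) := by
  intro t
  induction t with
  | zero =>
    intro _ y hy hyo i hpre hi
    rw [Nat.sub_zero] at hy
    exact mem_lpSet_of_lt h hy hyo hs ⟨i, hpre, hi⟩
  | succ t ih =>
    intro ht y hy hyo i hpre hi
    have hout : ∀ k, (∀ l, Fin.castLE h l = k → y k + 1 < a l) →
        OutN h a (y + Finsupp.single k 1) := by
      intro k hk l
      by_cases hlk : Fin.castLE h l = k
      · have := hk l hlk
        simp [hlk]
        omega
      · simpa [hlk] using hyo l
    by_cases hroom : ∃ k, i < k ∧ ∀ l, Fin.castLE h l = k → y k + 1 < a l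
    · obtain ⟨k, hik, hk⟩ := hroom
      refine ih (by omega) _ (hstep t (by omega) y hy k) (hout k hk) i (fun j hj => ?_) ?_
      · simp [(hj.trans hik).ne, hpre j hj]
      · simpa [hik.ne] using hi
    · simp only [not_exists, not_and, not_forall, not_lt] at hroom
      have hk : ∀ l, Fin.castLE h l = i → y i + 1 < a l ∨ y i + 1 = s i := by
        intro l hl
        have := hso l
        rw [hl] at this
        omega
      have hy' := hstep t (by omega) y hy i
      rcases eq_or_lt_of_le (Nat.succ_le_of_lt hi) with heq | hlt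
      · -- the new member dominates `s`
        have hle : s ≤ y + Finsupp.single i 1 := by
          intro j
          rcases lt_trichotomy j i with hj | hj | hj
          · simp [hj.ne, hpre j hj]
          · subst hj; simpa using heq.ge
          · obtain ⟨l, hl, hle⟩ := hroom j hj
            have := hso l
            rw [hl] at this
            simp [hj.ne']
            omega
        obtain ⟨γ, hγ⟩ := exists_add_of_le hle
        have hdeg : (y + Finsupp.single i 1).degree = d - t := hy'.1
        rw [hγ, map_add, hs] at hdeg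
        have ht0 : t = 0 := by omega
        have hγ0 : γ = 0 := by
          rw [← Finsupp.degree_eq_zero_iff]; omega
        subst ht0 hγ0
        rw [hγ, add_zero, Nat.sub_zero] at hy'
        exact hy'
      · refine ih (by omega) _ hy' (hout i fun l hl => ?_) i (fun j hj => ?_) ?_
        · rcases hk l hl with h1 | h1
          · exact h1
          · omega
        · simp [hj.ne, hpre j hj]
        · simpa using hlt

/-- For stable slices, the lex-plus-powers set of the same size has at most as many monomials free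
of the last variable. -/
theorem lpp_section_le (h : c ≤ r) {a : Fin c → ℕ} (hmono : Monotone a)
    {g : Fin c → MvPolynomial (Fin r) K} (hg : ∀ i, (g i).IsHomogeneous (a i))
    (hmon : ∀ B, Closed B → (∀ i, g i ∈ B) → HasMon h a B)
    (A : ℕ → Ideal (MvPolynomial (Fin r) K)) (hA : ∀ t, Closed (A t))
    (hgA : ∀ t i, g i ∈ A t) {d : ℕ}
    (hstab : ∀ t < d, ∀ i, ∀ u ∈ grade (A (t + 1)) (d - (t + 1)), X i * u ∈ A t) :
    {m : Fin (r + 1) →₀ ℕ | m ∈ lpSet (h.trans r.le_succ) a d
      (∑ t ∈ Finset.range (d + 1), finrank K ↥(grade (A t) (d - t))) ∧ m (Fin.last r) = 0}.ncard ≤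
      finrank K ↥(grade (A 0) d) := by
  classical
  let T : ℕ → ℕ := fun t => finrank K ↥(grade (A t) (d - t))
  let L : ℕ → Set (Fin r →₀ ℕ) := fun t => lpSet h a (d - t) (T t)
  have hL : ∀ t, (L t).ncard = T t := fun t => by
    obtain ⟨J, hJ⟩ := exists_lpSet_ideal h hmono (hmon (A t) (hA t) (hgA t))
    exact (hJ (d - t)).2
  have hstep : ∀ t < d, ∀ x ∈ L (t + 1), ∀ k, x + Finsupp.single k 1 ∈ L t := by
    intro t ht x hx k
    have := lpSet_step h hmono hg hmon (hgA t) (hgA (t + 1)) (hstab t ht) hx k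
    rwa [show d - (t + 1) + 1 = d - t by omega] at this
  set Pd := {m : Fin (r + 1) →₀ ℕ | m.degree = d ∧ ¬ OutN (h.trans r.le_succ) a m} with hPd
  set U := {m : Fin (r + 1) →₀ ℕ | m.degree = d ∧ ini m ∈ L (m (Fin.last r))} with hU
  have hfin : ∀ S : Set (Fin (r + 1) →₀ ℕ), (∀ m ∈ S, m.degree = d) → S.Finite := fun S hS =>
    (finite_degree_eq d).subset hS
  have hUcard : U.ncard = ∑ t ∈ Finset.range (d + 1), T t := by
    rw [hU, ncard_slices L d]
    refine Finset.sum_congr rfl fun t _ => ?_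
    rw [← hL t]
    congr 1
    ext x
    exact ⟨fun hx => hx.2, fun hx => ⟨hx.1, hx⟩⟩
  have hPU : Pd ⊆ U := by
    rintro m ⟨hd, hm⟩
    have := degree_ini m
    exact ⟨hd, by omega, Or.inl ((outN_ini h a m).not.1 hm)⟩
  -- every monomial above the first slice has too many predecessors
  have key : ∀ m : Fin (r + 1) →₀ ℕ, m.degree = d → m (Fin.last r) = 0 →
      OutN (h.trans r.le_succ) a m → ini m ∉ L 0 →
      U \ Pd ⊆ {m' | m'.degree = d ∧ toLex m < toLex m' ∧ OutN (h.trans r.le_succ) a m'} := by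
    intro m hmd hm0 hmo hmL m' ⟨⟨hd', hm'⟩, hnP⟩
    have hmo' : OutN (h.trans r.le_succ) a m' := by
      by_contra hc
      exact hnP ⟨hd', hc⟩
    refine ⟨hd', ?_, hmo'⟩
    have hdm := degree_ini m
    have hdm' := degree_ini m'
    rcases lt_trichotomy (toLex (ini m)) (toLex (ini m')) with hlt | heq | hgt
    · obtain ⟨i, hpre, hi⟩ := hlt
      refine ⟨i.castSucc, fun j hj => ?_, hi⟩
      induction j using Fin.lastCases with
      | last => exact absurd hj (not_lt.2 (Fin.castSucc_lt_last i).le)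
      | cast j => exact hpre j (Fin.castSucc_lt_castSucc_iff.1 hj)
    · have heq' : ini m = ini m' := toLex.injective heq
      rw [← heq'] at hdm' hm'
      rw [show m' (Fin.last r) = 0 by omega] at hm'
      exact absurd hm' hmL
    · obtain ⟨i, hpre, hi⟩ := hgt
      refine absurd (mem_first_slice h T hstep (s := ini m) (by omega) ((outN_ini h a m).1 hmo)
        (m' (Fin.last r)) (by omega) (ini m') hm' ((outN_ini h a m').1 hmo') i hpre hi) ?_
      simpa [L] using hmL
  calc {m : Fin (r + 1) →₀ ℕ | m ∈ lpSet (h.trans r.le_succ) a d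
        (∑ t ∈ Finset.range (d + 1), T t) ∧ m (Fin.last r) = 0}.ncard
      ≤ {m : Fin (r + 1) →₀ ℕ | m (Fin.last r) = 0 ∧ ini m ∈ L 0}.ncard := by
        refine Set.ncard_le_ncard ?_ (hfin _ fun m hm => ?_)
        · rintro m ⟨⟨hd, hm⟩, hm0⟩
          refine ⟨hm0, ?_⟩
          have hdi := degree_ini m
          by_cases ho : OutN (h.trans r.le_succ) a m
          · by_contra hmL
            have h1 := Set.ncard_le_ncard (key m hd hm0 ho hmL) (hfin _ fun m' hm' => hm'.1)
            rw [Set.ncard_sdiff hPU (hfin _ fun m' hm' => hm'.1), hUcard] at h1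
            have h2 := hm.resolve_left (not_not.2 ho)
            exact absurd h2 (not_lt.2 h1)
          · exact ⟨by omega, Or.inl ((outN_ini h a m).not.1 ho)⟩
        · have hdi := degree_ini m
          have := hm.2.1
          rw [hm.1] at hdi
          omega
    _ ≤ (L 0).ncard := by
        refine Set.ncard_le_ncard_of_injOn ini (fun m hm => hm.2) ?_
          ((finite_degree_eq (d - 0)).subset fun x hx => hx.1)
        intro m hm m' hm' he
        rw [← addLast_ini m, ← addLast_ini m', hm.1, hm'.1, he]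
    _ = finrank K ↥(grade (A 0) d) := by rw [hL 0]; simp only [T, Nat.sub_zero]

end Vale.P200.Many
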