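import Vale.Agent.P200.Many.Lex
import Vale.Agent.P200.Many.Section

/-!
P200, any number of variables: lex-plus-powers ideals are stable in the last variable, and their
sections by that variable are nested in lex-plus-powers spaces.
-/

namespace Vale.P200.Many

open MvPolynomial Module Finset Vale.P200.Ext Vale.P200.Betti

universe u

variable {K : Type u} [Field K] {r c : ℕ}

lemma mem_restrictSupportIdeal' {n : ℕ} {s : Set (Fin n →₀ ℕ)} (hs : IsUpperSet s)
    {p : MvPolynomial (Fin n) K} :
    p ∈ restrictSupportIdeal (R := K) s hs ↔ (p.support : Set (Fin n →₀ ℕ)) ⊆ s := Iff.rfl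

lemma mapDomain_ini {m : Fin (r + 1) →₀ ℕ} (hm : m (Fin.last r) = 0) :
    Finsupp.mapDomain Fin.castSucc (ini m) = m := by
  ext k
  induction k using Fin.lastCases with
  | last =>
    rw [Finsupp.mapDomain_of_notMem_range _ _ (by simp), hm]
  | cast k => rw [Finsupp.mapDomain_apply (Fin.castSucc_injective r), ini_apply]

lemma killLast_monomial (m : Fin (r + 1) →₀ ℕ) :
    killLast (monomial m (1 : K)) = if m (Fin.last r) = 0 then monomial (ini m) 1 else 0 := by
  apply rename_injective Fin.castSucc (Fin.castSucc_injective r)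
  rw [rename_killLast, zc_monomial]
  split_ifs with h
  · rw [rename_monomial, mapDomain_ini h]
  · rw [map_zero]

/-- The lex-plus-powers ideal in one more variable: graded, stable, with nested sections. -/
theorem exists_lpp_stable (h : c ≤ r) {a : Fin c → ℕ} (hmono : Monotone a)
    {I : Ideal (MvPolynomial (Fin (r + 1)) K)} (hmon : HasMon (h.trans r.le_succ) a I) :
    ∃ J : Ideal (MvPolynomial (Fin (r + 1)) K), Closed J ∧ ZGraded J ∧
      (∀ d, grade J d = lppSpaceN (powersIdeal K (h.trans r.le_succ) a) I d ∧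
        finrank K ↥(grade J d) = finrank K ↥(grade I d)) ∧
      (∀ i : Fin r, ∀ d, ∀ q : MvPolynomial (Fin (r + 1)) K, q.IsHomogeneous d →
        X (Fin.last r) * q ∈ J → X i.castSucc * q ∈ J) ∧
      (∀ d, finrank K ↥(grade (J.map killLast) d) =
        {m : Fin (r + 1) →₀ ℕ | m ∈ lpSet (h.trans r.le_succ) a d (finrank K ↥(grade I d)) ∧
          m (Fin.last r) = 0}.ncard) ∧
      (∀ (B L : Ideal (MvPolynomial (Fin r) K)) (d : ℕ),
        (∀ e, grade L e = lppSpaceN (powersIdeal K h a) B e) →
        finrank K ↥(grade (J.map killLast) d) ≤ finrank K ↥(grade B d) →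
        grade (J.map killLast) d ≤ grade L d) := by
  classical
  set h' := h.trans r.le_succ
  let q : ℕ → ℕ := fun d => finrank K ↥(grade I d)
  let S : Set (Fin (r + 1) →₀ ℕ) := {m | m ∈ lpSet h' a m.degree (q m.degree)}
  have hup : IsUpperSet S := lpSet_upper h' hmono hmon
  set J := restrictSupportIdeal (R := K) S hup with hJdef
  have hgrade : ∀ d, grade J d = restrictSupport K (lpSet h' a d (q d)) := by
    intro d
    rw [hJdef, grade_restrictSupportIdeal]
    congr 1
    ext m
    exact ⟨fun ⟨hd, hm⟩ => hd ▸ hm, fun hm => ⟨hm.1, show m ∈ lpSet h' a m.degree _ from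
      hm.1.symm ▸ hm⟩⟩
  have hclosed : Closed J := by
    intro p hp d
    rw [mem_restrictSupportIdeal' hup]
    intro m hm
    rw [Finset.mem_coe, MvPolynomial.mem_support_iff, coeff_homogeneousComponent] at hm
    refine (mem_restrictSupportIdeal' hup).1 hp ?_
    rw [Finset.mem_coe, MvPolynomial.mem_support_iff]
    split_ifs at hm
    · exact hm
    · exact absurd rfl hm
  have hgraded : ZGraded J := by
    intro p hp k
    rw [mem_restrictSupportIdeal' hup]
    intro m hm
    rw [Finset.mem_coe, MvPolynomial.mem_support_iff, coeff_zc] at hm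
    refine (mem_restrictSupportIdeal' hup).1 hp ?_
    rw [Finset.mem_coe, MvPolynomial.mem_support_iff]
    split_ifs at hm
    · exact hm
    · exact absurd rfl hm
  -- the section
  let T : ℕ → Set (Fin r →₀ ℕ) := fun d => {x | addLast x 0 ∈ lpSet h' a d (q d)}
  have hsec : ∀ d, grade (J.map killLast) d = restrictSupport K (T d) := by
    intro d
    rw [grade_map_killLast hclosed, hgrade, restrictSupport_eq_span, restrictSupport_eq_span,
      Submodule.map_span]
    apply le_antisymm <;> rw [Submodule.span_le]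
    · rintro _ ⟨_, ⟨m, hm, rfl⟩, rfl⟩
      show killLast (monomial m (1 : K)) ∈ _
      rw [killLast_monomial]
      split_ifs with h0
      · refine Submodule.subset_span ⟨ini m, ?_, rfl⟩
        show addLast (ini m) 0 ∈ lpSet h' a d (q d)
        rw [← h0, addLast_ini]; exact hm
      · exact zero_mem _
    · rintro _ ⟨x, hx, rfl⟩
      refine Submodule.subset_span ⟨monomial (addLast x 0) 1, ⟨_, hx, rfl⟩, ?_⟩
      show killLast (monomial (addLast x 0) (1 : K)) = monomial x 1
      rw [killLast_monomial, if_pos (addLast_last x 0), ini_addLast]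
  have hT : ∀ d, (T d).ncard =
      {m : Fin (r + 1) →₀ ℕ | m ∈ lpSet h' a d (q d) ∧ m (Fin.last r) = 0}.ncard := by
    intro d
    rw [show {m : Fin (r + 1) →₀ ℕ | m ∈ lpSet h' a d (q d) ∧ m (Fin.last r) = 0} =
        (fun x => addLast x 0) '' T d by
      ext m
      simp only [Set.mem_image, Set.mem_ofPred_eq, T]
      exact ⟨fun ⟨hm, h0⟩ => ⟨ini m, by rw [← h0, addLast_ini]; exact hm,
        by rw [← h0, addLast_ini]⟩, fun ⟨x, hx, he⟩ => he ▸ ⟨hx, addLast_last x 0⟩⟩]
    exact (Set.ncard_image_of_injective _ fun x y hxy => by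
      rw [← ini_addLast x 0, ← ini_addLast y 0]; exact congrArg ini hxy).symm
  refine ⟨J, hclosed, hgraded, fun d => ⟨?_, ?_⟩, ?_, fun d => ?_, ?_⟩
  · rw [hgrade, lppSpaceN_eq_restrict]
  · rw [hgrade, finrank_restrictSupport_gen]
    obtain ⟨J', hJ'⟩ := exists_lpSet_ideal h' hmono hmon
    exact (hJ' d).2
  · -- stability
    intro i d p hp hzp
    rw [mem_restrictSupportIdeal' hup]
    intro m hm
    rw [Finset.mem_coe, support_X_mul, Finset.mem_map] at hm
    obtain ⟨m', hm', rfl⟩ := hm
    have hz : Finsupp.single (Fin.last r) 1 + m' ∈ S := by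
      refine (mem_restrictSupportIdeal' hup).1 hzp ?_
      rw [Finset.mem_coe, support_X_mul, Finset.mem_map]
      exact ⟨m', hm', rfl⟩
    show Finsupp.single i.castSucc 1 + m' ∈ S
    have hdeg : (Finsupp.single i.castSucc 1 + m' : Fin (r + 1) →₀ ℕ).degree =
        (Finsupp.single (Fin.last r) 1 + m' : Fin (r + 1) →₀ ℕ).degree := by simp
    show _ ∈ lpSet h' a _ (q _)
    by_cases hzo : OutN h' a (Finsupp.single (Fin.last r) 1 + m')
    · rw [hdeg]
      refine mem_lpSet_of_lt h' hz hzo hdeg ⟨i.castSucc, fun j hj => ?_, ?_⟩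
      · simp [hj.ne, (hj.trans_le (Fin.le_last _)).ne]
      · simp [Fin.castSucc_ne_last]
    · refine ⟨rfl, Or.inl fun ho => hzo fun l => ?_⟩
      have := ho l
      have hl : Fin.castLE h' l ≠ Fin.last r :=
        (show Fin.castLE h' l = (Fin.castLE h l).castSucc from rfl) ▸ Fin.castSucc_ne_last _
      simp [hl] at this ⊢
      omega
  · rw [hsec, finrank_restrictSupport_gen, hT]
  · -- nesting
    intro B L d hL hle
    rw [hsec, finrank_restrictSupport_gen] at hle
    rw [hsec, hL d, lppSpaceN_eq_restrict, restrictSupport_eq_span, restrictSupport_eq_span]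
    refine Submodule.span_mono (Set.image_mono fun x hx => ?_)
    have hxd : x.degree = d := by
      have h1 : (addLast x 0).degree = d := hx.1
      rw [degree_ini, ini_addLast, addLast_last, add_zero] at h1
      exact h1
    refine ⟨hxd, ?_⟩
    by_cases ho : OutN h a x
    swap
    · exact Or.inl ho
    right
    set A := {x' : Fin r →₀ ℕ | x'.degree = d ∧ toLex x < toLex x' ∧ OutN h a x'}
    set P := {x' : Fin r →₀ ℕ | x'.degree = d ∧ ¬ OutN h a x'}
    have hfin : ∀ s : Set (Fin r →₀ ℕ), (∀ x' ∈ s, x'.degree = d) → s.Finite := fun s hs =>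
      (finite_degree_eq d).subset hs
    have hTd : ∀ x' ∈ T d, x'.degree = d := fun x' hx' => by
      have h1 : (addLast x' 0).degree = d := hx'.1
      rw [degree_ini, ini_addLast, addLast_last, add_zero] at h1
      exact h1
    have hdeg0 : ∀ x' : Fin r →₀ ℕ, x'.degree = d → (addLast x' 0).degree = d := fun x' hx' => by
      rw [degree_ini, ini_addLast, addLast_last, add_zero, hx']
    have hsub : insert x (A ∪ P) ⊆ T d := by
      rintro x' (rfl | ⟨h1, h2, h3⟩ | ⟨h1, h2⟩)
      · exact hx
      · refine mem_lpSet_of_lt h' hx ((outN_ini h a _).2 ?_) (hdeg0 x' h1) ?_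
        · rw [ini_addLast]; exact ho
        · obtain ⟨i, hpre, hi⟩ := h2
          refine ⟨i.castSucc, fun j hj => ?_, ?_⟩
          · induction j using Fin.lastCases with
            | last => exact absurd hj (not_lt.2 (Fin.castSucc_lt_last i).le)
            | cast j =>
              have := hpre j (Fin.castSucc_lt_castSucc_iff.1 hj)
              simpa [addLast] using this
          · simpa [addLast] using hi
      · refine ⟨hdeg0 x' h1, Or.inl fun hh => h2 ?_⟩
        have := (outN_ini h a _).1 hh
        rwa [ini_addLast] at this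
    have hxn : x ∉ A ∪ P := by
      rintro (⟨-, h2, -⟩ | ⟨-, h2⟩)
      · exact lt_irrefl _ h2
      · exact h2 ho
    have hAP : Disjoint A P := Set.disjoint_left.2 fun x' h1 h2 => h2.2 h1.2.2
    have hAf : A.Finite := hfin _ fun _ hx' => hx'.1
    have hPf : P.Finite := hfin _ fun _ hx' => hx'.1
    have h1 := Set.ncard_le_ncard hsub (hfin _ hTd)
    rw [Set.ncard_insert_of_notMem hxn (hAf.union hPf), Set.ncard_union_eq hAP hAf hPf] at h1
    show A.ncard < finrank K ↥(grade B d) - P.ncard
    omega

end Vale.P200.Many
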