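import Vale.Agent.P200.Many.Section

/-!
P200, any number of variables: slices of a graded ideal along the last variable.
-/

namespace Vale.P200.Many

open MvPolynomial Module Finset Vale.P200.Ext Vale.P200.Betti

universe u

variable {K : Type u} [Field K] {r : ℕ}

lemma killLast_surjective :
    Function.Surjective (killLast : MvPolynomial (Fin (r + 1)) K → MvPolynomial (Fin r) K) :=
  fun u => ⟨_, killLast_rename u⟩

/-- The kernel of `z ↦ 0`. -/
lemma mem_span_of_kill {p : MvPolynomial (Fin (r + 1)) K} (hp : killLast p = 0) :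
    p ∈ Ideal.span {(X (Fin.last r) : MvPolynomial (Fin (r + 1)) K)} := by
  refine Ideal.mem_span_singleton'.2 ⟨down p, ?_⟩
  rw [mul_comm, z_mul_down, ← rename_killLast, hp, map_zero, sub_zero]

/-- A layer is a power of the last variable times a polynomial in the others. -/
lemma zc_eq (t : ℕ) : ∀ p : MvPolynomial (Fin (r + 1)) K,
    zc t p = X (Fin.last r) ^ t * (rename Fin.castSucc : MvPolynomial (Fin r) K →ₐ[K] MvPolynomial (Fin (r + 1)) K) (killLast ((down : _ →ₗ[K] MvPolynomial (Fin (r + 1)) K)^[t] p)) := by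
  induction t with
  | zero => intro p; rw [pow_zero, one_mul, Function.iterate_zero, id, rename_killLast]
  | succ t ih =>
    intro p
    have h := congrArg (zc (t + 1)) (z_mul_down p)
    rw [zc_z_mul, if_neg (Nat.succ_ne_zero t), map_sub, zc_zc, if_neg (Nat.succ_ne_zero t),
      sub_zero, Nat.add_sub_cancel, ih (down p)] at h
    rw [← h, Function.iterate_succ_apply, pow_succ]
    ring

lemma closed_map_killLast {I : Ideal (MvPolynomial (Fin (r + 1)) K)} (hI : Closed I) :
    Closed (I.map killLast) := by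
  intro q hq d
  obtain ⟨p, hp, rfl⟩ := (Ideal.mem_map_iff_of_surjective (killLast (K := K) (r := r))
    killLast_surjective).1 hq
  have e := hcomp_comm (killLast (K := K) (r := r)).toLinearMap
    (fun _ q h => isHomogeneous_killLast (q := q) h) d p
  simp only [AlgHom.toLinearMap_apply] at e
  rw [e]
  exact Ideal.mem_map_of_mem _ (hI p hp d)

/-- The slice at `z ^ t`. -/
noncomputable def sliceAt (I : Ideal (MvPolynomial (Fin (r + 1)) K)) (t : ℕ) :
    Ideal (MvPolynomial (Fin r) K) :=
  (I.colon {X (Fin.last r) ^ t}).comap (rename Fin.castSucc : MvPolynomial (Fin r) K →ₐ[K] MvPolynomial (Fin (r + 1)) K)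

lemma mem_sliceAt {I : Ideal (MvPolynomial (Fin (r + 1)) K)} {t : ℕ}
    {u : MvPolynomial (Fin r) K} : u ∈ sliceAt I t ↔ (rename Fin.castSucc : MvPolynomial (Fin r) K →ₐ[K] MvPolynomial (Fin (r + 1)) K) u * X (Fin.last r) ^ t ∈ I := by
  rw [sliceAt, Ideal.mem_comap, Submodule.mem_colon_singleton, smul_eq_mul]

variable {I : Ideal (MvPolynomial (Fin (r + 1)) K)}

lemma hcomp_lift (u : MvPolynomial (Fin r) K) (t d : ℕ) :
    homogeneousComponent (d + t) ((rename Fin.castSucc : MvPolynomial (Fin r) K →ₐ[K] MvPolynomial (Fin (r + 1)) K) u * X (Fin.last r) ^ t) =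
      (rename Fin.castSucc : MvPolynomial (Fin r) K →ₐ[K] MvPolynomial (Fin (r + 1)) K) (homogeneousComponent d u) * X (Fin.last r) ^ t := by
  have e := hcomp_comm ((rename Fin.castSucc : MvPolynomial (Fin r) K →ₐ[K] MvPolynomial (Fin (r + 1)) K)).toLinearMap (fun _ q h => IsHomogeneous.rename_isHomogeneous h) d u
  simp only [AlgHom.toLinearMap_apply] at e
  rw [hcomp_mul (by simpa using (isHomogeneous_X K (Fin.last r)).pow t), if_pos (by omega),
    Nat.add_sub_cancel, e]

lemma closed_sliceAt (hI : Closed I) (t : ℕ) : Closed (sliceAt I t) := by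
  intro u hu d
  rw [mem_sliceAt] at hu ⊢
  have h := hI _ hu (d + t)
  rwa [hcomp_lift] at h

lemma zc_lift (u : MvPolynomial (Fin r) K) : ∀ t l,
    zc l ((rename Fin.castSucc : MvPolynomial (Fin r) K →ₐ[K] MvPolynomial (Fin (r + 1)) K) u * X (Fin.last r) ^ t) = if l = t then (rename Fin.castSucc : MvPolynomial (Fin r) K →ₐ[K] MvPolynomial (Fin (r + 1)) K) u * X (Fin.last r) ^ t else 0 := by
  intro t
  induction t with
  | zero =>
    intro l
    have h : zc 0 ((rename Fin.castSucc : MvPolynomial (Fin r) K →ₐ[K] MvPolynomial (Fin (r + 1)) K) u) = (rename Fin.castSucc : MvPolynomial (Fin r) K →ₐ[K] MvPolynomial (Fin (r + 1)) K) u := by rw [← rename_killLast, killLast_rename]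
    rw [pow_zero, mul_one, ← h, zc_zc]
  | succ t ih =>
    intro l
    rw [show (rename Fin.castSucc : MvPolynomial (Fin r) K →ₐ[K] MvPolynomial (Fin (r + 1)) K) u * X (Fin.last r) ^ (t + 1) = X (Fin.last r) * ((rename Fin.castSucc : MvPolynomial (Fin r) K →ₐ[K] MvPolynomial (Fin (r + 1)) K) u * X (Fin.last r) ^ t) by ring,
      zc_z_mul]
    rcases l with _ | l
    · simp
    · rw [if_neg (Nat.succ_ne_zero l), Nat.add_sub_cancel, ih]
      by_cases hl : l = t <;> simp [hl]

lemma sliceAt_mono (t : ℕ) : sliceAt I t ≤ sliceAt I (t + 1) := fun u hu => by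
  rw [mem_sliceAt] at hu ⊢
  rw [pow_succ, ← mul_assoc]
  exact I.mul_mem_right _ hu

lemma sliceAt_zero (hz : ZGraded I) : sliceAt I 0 = I.map killLast := by
  ext u
  rw [mem_sliceAt, pow_zero, mul_one, Ideal.mem_map_iff_of_surjective _ killLast_surjective]
  constructor
  · exact fun h => ⟨_, h, killLast_rename u⟩
  · rintro ⟨p, hp, rfl⟩
    rw [rename_killLast]
    exact hz p hp 0

lemma finrank_grade_slices (hz : ZGraded I) (d : ℕ) :
    finrank K ↥(grade I d) =
      ∑ t ∈ Finset.range (d + 1), finrank K ↥(grade (sliceAt I t) (d - t)) := by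
  rw [finrank_grade_layers]
  refine Finset.sum_congr rfl fun t ht => ?_
  have ht' : t ≤ d := Nat.lt_succ_iff.1 (mem_range.1 ht)
  let L : MvPolynomial (Fin r) K →ₗ[K] MvPolynomial (Fin (r + 1)) K :=
    (LinearMap.mulRight K (X (Fin.last r) ^ t)).comp ((rename Fin.castSucc : MvPolynomial (Fin r) K →ₐ[K] MvPolynomial (Fin (r + 1)) K)).toLinearMap
  have hLu : ∀ u, L u = (rename Fin.castSucc : MvPolynomial (Fin r) K →ₐ[K] MvPolynomial (Fin (r + 1)) K) u * X (Fin.last r) ^ t := fun u => rfl
  have hL : Function.Injective L := fun u v h => by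
    rw [hLu, hLu] at h
    exact rename_injective _ (Fin.castSucc_injective r)
      (mul_right_cancel₀ (pow_ne_zero _ (X_ne_zero _)) h)
  rw [(Submodule.equivMapOfInjective L hL (grade (sliceAt I t) (d - t))).finrank_eq]
  refine congrArg (fun M : Submodule K (MvPolynomial (Fin (r + 1)) K) => finrank K ↥M) ?_
  apply le_antisymm
  · rintro _ ⟨x, hx, rfl⟩
    obtain ⟨⟨hxI, hxd⟩, -⟩ := mem_below.1 hx
    set w := killLast ((down : _ →ₗ[K] MvPolynomial (Fin (r + 1)) K)^[t] x) with hw
    have e : (rename Fin.castSucc : MvPolynomial (Fin r) K →ₐ[K] MvPolynomial (Fin (r + 1)) K) w * X (Fin.last r) ^ t = zc t x := by rw [zc_eq t x, mul_comm]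
    have e' : (rename Fin.castSucc : MvPolynomial (Fin r) K →ₐ[K] MvPolynomial (Fin (r + 1)) K) (homogeneousComponent (d - t) w) * X (Fin.last r) ^ t = zc t x := by
      rw [← hcomp_lift, e, Nat.sub_add_cancel ht', homogeneousComponent_eq_self (zc_homogeneous t hxd)]
    refine ⟨_, ⟨mem_sliceAt.2 ?_, homogeneousComponent_isHomogeneous (d - t) w⟩, ?_⟩
    · rw [e']; exact hz x hxI t
    · rw [hLu, e']
  · rintro _ ⟨u, ⟨hu, hud⟩, rfl⟩
    refine ⟨L u, mem_below.2 ⟨⟨mem_sliceAt.1 hu, ?_⟩, fun l hl => ?_⟩, ?_⟩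
    · have := (IsHomogeneous.rename_isHomogeneous (f := Fin.castSucc) hud).mul
        ((isHomogeneous_X K (Fin.last r)).pow t)
      rwa [one_mul, Nat.sub_add_cancel ht'] at this
    · rw [hLu, zc_lift, if_neg hl.ne]
    · rw [hLu, zc_lift, if_pos rfl]

end Vale.P200.Many
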