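import Vale.Agent.P200.Many.Coord
import Vale.Agent.P200.Many.Descent
import Vale.Agent.P200.Many.Lex
import Vale.Agent.P200.Many.Lpp
import Vale.Agent.P200.Many.Slices
import Vale.Agent.P200.Many.Stable

/-!
P200, any number of variables: from `r` to `r + 1` variables.
-/

namespace Vale.P200.Many

open MvPolynomial Module Finset Vale.P200.Ext Vale.P200.Betti

universe u

variable {K : Type u} [Field K] {r c : ℕ}

/-- Setting a regular linear form to zero keeps the forms regular. -/
lemma regMod_section {f : Fin c → MvPolynomial (Fin (r + 1)) K}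
    (hpos : ∀ g ∈ List.ofFn f, PosForm g) (hreg : RegMod ⊥ (List.ofFn f))
    {l : MvPolynomial (Fin (r + 1)) K} (hl : PosForm l) (hnzd : NZD (Ideal.ofList (List.ofFn f)) l)
    (A : MvPolynomial (Fin (r + 1)) K ≃ₐ[K] MvPolynomial (Fin (r + 1)) K)
    (hAl : A l = X (Fin.last r)) :
    RegMod ⊥ (List.ofFn fun i => killLast (A (f i))) := by
  have h1 : RegMod ⊥ (List.ofFn f ++ [l]) :=
    regMod_append.2 ⟨hreg, by rw [bot_sup_eq]; exact ⟨hnzd, trivial⟩⟩
  have h2 : RegMod ⊥ (l :: List.ofFn f) := by
    refine regMod_perm (List.perm_append_singleton l _) ⊥ closed_bot (fun g hg => ?_) h1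
    rcases List.mem_append.1 hg with hg | hg
    · exact hpos g hg
    · rwa [List.mem_singleton.1 hg]
  have h3 := h2.2
  rw [bot_sup_eq] at h3
  let F : MvPolynomial (Fin (r + 1)) K →ₐ[K] MvPolynomial (Fin r) K := killLast.comp A.toAlgHom
  have hF : ∀ p, F p = killLast (A p) := fun p => rfl
  have h4 := RegMod.map F (killLast_surjective.comp A.surjective) _ _ (fun p hp => by
    rw [hF] at hp
    obtain ⟨u, hu⟩ := Ideal.mem_span_singleton'.1 (mem_span_of_kill hp)
    refine Ideal.mem_span_singleton'.2 ⟨A.symm u, A.injective ?_⟩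
    rw [map_mul, A.apply_symm_apply, hAl, hu]) h3
  have hmap : (Ideal.span {l} : Ideal (MvPolynomial (Fin (r + 1)) K)).map F = ⊥ := by
    rw [Ideal.map_span, Set.image_singleton, hF, hAl, killLast_X_last]
    simp
  rw [hmap, List.map_ofFn] at h4
  exact h4

/-- A graded ideal grows at least by its section. -/
lemma hq_succ_le {I : Ideal (MvPolynomial (Fin (r + 1)) K)} (hz : ZGraded I) (e : ℕ) :
    hq I (e + 1) ≤ hq I e + hq (I.map killLast) (e + 1) := by
  have hT : ∀ d, finrank K ↥(homogeneousSubmodule (Fin (r + 1)) K d) =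
      ∑ t ∈ Finset.range (d + 1), finrank K ↥(homogeneousSubmodule (Fin r) K (d - t)) := by
    intro d
    have h := finrank_grade_slices (I := (⊤ : Ideal (MvPolynomial (Fin (r + 1)) K)))
      (fun p _ k => Submodule.mem_top) d
    have e1 : grade (⊤ : Ideal (MvPolynomial (Fin (r + 1)) K)) d =
        homogeneousSubmodule (Fin (r + 1)) K d := by
      ext p; simp [Ext.grade]
    rw [e1] at h
    rw [h]
    refine Finset.sum_congr rfl fun t _ => ?_
    refine congrArg (fun M : Submodule K (MvPolynomial (Fin r) K) => finrank K ↥M) ?_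
    ext p; simp [Ext.grade, mem_sliceAt]
  have h1 := finrank_grade_slices hz (e + 1)
  have h2 := finrank_grade_slices hz e
  have h3 := hT (e + 1)
  have h4 := hT e
  rw [Finset.sum_range_succ'] at h1 h3
  have e2 : ∀ k, finrank K ↥(homogeneousSubmodule (Fin r) K (e + 1 - (k + 1))) =
      finrank K ↥(homogeneousSubmodule (Fin r) K (e - k)) := fun k => by
    rw [Nat.add_sub_add_right]
  have e3 : ∀ k, finrank K ↥(grade (sliceAt I (k + 1)) (e + 1 - (k + 1))) =
      finrank K ↥(grade (sliceAt I (k + 1)) (e - k)) := fun k => by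
    rw [Nat.add_sub_add_right]
  have e4 : finrank K ↥(grade (sliceAt I 0) (e + 1)) =
      finrank K ↥(grade (I.map killLast) (e + 1)) := by rw [sliceAt_zero hz]
  simp only [e2, e3, e4, Nat.sub_zero] at h1 h3
  have h5 : ∑ t ∈ Finset.range (e + 1), finrank K ↥(grade (sliceAt I t) (e - t)) ≤
      ∑ t ∈ Finset.range (e + 1), finrank K ↥(grade (sliceAt I (t + 1)) (e - t)) :=
    Finset.sum_le_sum fun t _ => by
      have := finiteDimensional_grade (sliceAt I (t + 1)) (e - t)
      exact Submodule.finrank_mono (inf_le_inf_right _ fun u hu => sliceAt_mono t hu)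
  have h6 := finrank_grade_le_homogeneous I e
  have h7 := finrank_grade_le_homogeneous (I.map killLast) (e + 1)
  simp only [hq]
  omega

/-- The lex-plus-powers inequality passes from `r` to `r + 1` variables. -/
theorem lppAt_succ [Infinite K] (hc : c ≤ r) {a : Fin c → ℕ} (IH : LppAt K r a) :
    LppAt K (r + 1) a := by
  intro h' ha hmono f hf hreg I hI hfI
  have hpos : ∀ g ∈ List.ofFn f, PosForm g := by
    intro g hg
    obtain ⟨i, rfl⟩ := List.mem_ofFn.1 hg
    exact ⟨a i, le_trans (by omega) (ha i), hf i⟩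
  obtain ⟨cc, hcc, hnzd⟩ := exists_last_form (by simp; omega) hpos hreg
  obtain ⟨A, hA, hAl, hAb⟩ := exists_coord cc hcc
  have hl : PosForm (X (Fin.last r) - ∑ k, cc k • X k : MvPolynomial (Fin (r + 1)) K) :=
    ⟨1, le_rfl, (isHomogeneous_X K _).sub (IsHomogeneous.sum _ _ _ fun k _ =>
      (homogeneousSubmodule (Fin (r + 1)) K 1).smul_mem _ (isHomogeneous_X K k))⟩
  set g : Fin c → MvPolynomial (Fin r) K := fun i => killLast (A (f i)) with hg
  have hghom : ∀ i, (g i).IsHomogeneous (a i) := fun i => isHomogeneous_killLast ((hA _ _).2 (hf i))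
  have hgreg : RegMod ⊥ (List.ofFn g) := regMod_section hpos hreg hl hnzd A hAl
  have hmon : ∀ B, Closed B → (∀ i, g i ∈ B) → HasMon hc a B := fun B hB hgB => by
    obtain ⟨L, hL, -⟩ := IH hc ha hmono g hghom hgreg B hB hgB
    exact hasMon_of_family hc a (fun _ => L) fun _ d _ => hL d
  have hI1 : Closed (I.map A) := Closed.map_equiv A hA hI
  set I2 := inIdeal (I.map A)
  have hI2 : Closed I2 := closed_in hI1
  have hz2 : ZGraded I2 := zGraded_in _
  have hd2 : ∀ d, finrank K ↥(grade I2 d) = finrank K ↥(grade I d) := fun d =>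
    (finrank_grade_in hI1 d).trans (finrank_grade_equiv A hA I d)
  have hf2 : ∀ i, zc 0 (A (f i)) ∈ I2 := fun i =>
    zc_mem_in (Ideal.mem_map_of_mem _ (hfI i)) fun l hl => absurd hl (Nat.not_lt_zero l)
  have hgs : ∀ (I' : Ideal (MvPolynomial (Fin (r + 1)) K)), (∀ i, zc 0 (A (f i)) ∈ I') →
      ∀ t i, g i ∈ sliceAt I' t := fun I' h t i => by
    rw [mem_sliceAt, hg]
    dsimp only
    rw [rename_killLast]
    exact I'.mul_mem_right _ (h i)
  have hmonI : HasMon (hc.trans r.le_succ) a I :=
    hasMon_succ hc hmono hmon (sliceAt I2) (closed_sliceAt hI2) (hgs I2 hf2) sliceAt_mono I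
      fun d => (hd2 d).symm.trans (finrank_grade_slices hz2 d)
  obtain ⟨J, hJc, hJz, hJ, hJst, hJsec, hJnest⟩ := exists_lpp_stable hc hmono hmonI
  refine ⟨J, hJ, fun p j => ?_⟩
  rcases p with _ | p
  · exact (betti_zero_congr fun d _ => by simp only [hq, (hJ d).2]).ge
  rcases Nat.lt_or_ge j (p + 1) with hj | hj
  · rw [betti_eq_zero I (Or.inr hj)]; exact Nat.zero_le _
  obtain ⟨I3, hI3, hz3, hd3, hb3, h03, hs3⟩ := exists_stable j hI2 hz2
  have hf3 : ∀ i, zc 0 (A (f i)) ∈ I3 := fun i => by
    have := h03 _ (hf2 i)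
    rwa [zc_zc, if_pos rfl] at this
  have hdim : ∀ d, finrank K ↥(grade I3 d) = finrank K ↥(grade I d) := fun d =>
    (hd3 d).trans (hd2 d)
  set B := I3.map killLast
  have hgB : ∀ i, g i ∈ B := fun i => by
    have := hgs I3 hf3 0 i
    rwa [sliceAt_zero hz3] at this
  obtain ⟨L, hL, hLb⟩ := IH hc ha hmono g hghom hgreg B (closed_map_killLast hI3) hgB
  have hsec : ∀ d ≤ j, finrank K ↥(grade (J.map killLast) d) ≤ finrank K ↥(grade B d) := by
    intro d hd
    rw [hJsec, ← hdim d, finrank_grade_slices hz3 d, show B = sliceAt I3 0 from (sliceAt_zero hz3).symm]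
    refine lpp_section_le hc hmono hghom hmon (sliceAt I3) (closed_sliceAt hI3) (hgs I3 hf3)
      fun t ht i u hu => ?_
    have hq1 : rename Fin.castSucc u * X (Fin.last r) ^ (t + 1) ∈ I3 := mem_sliceAt.1 hu.1
    have hud : (rename Fin.castSucc u * X (Fin.last r) ^ t :
        MvPolynomial (Fin (r + 1)) K).IsHomogeneous (d - 1) := by
      have := (IsHomogeneous.rename_isHomogeneous (f := Fin.castSucc) hu.2).mul
        ((isHomogeneous_X K (Fin.last r)).pow t)
      rwa [one_mul, show d - (t + 1) + t = d - 1 by omega] at this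
    have := hs3 i (d - 1) (by omega) _ hud (by
      rw [mul_left_comm, ← pow_succ']; exact hq1)
    rw [mem_sliceAt, map_mul, rename_X, mul_assoc]
    exact this
  have hnest : ∀ d ≤ j, grade (J.map killLast) d ≤ grade L d := fun d hd =>
    hJnest B L d (fun e => (hL e).1) (hsec d hd)
  have h1 : betti I (p + 1) j ≤ betti I3 (p + 1) j :=
    ((hAb I (p + 1) j).symm.le.trans (betti_le_in hI1 _ _)).trans (hb3 _ _)
  have h2 : betti I3 (p + 1) j ≤ betti B (p + 1) j +
      r.choose p * (hq I3 (j - (p + 1)) + hq B (j - p) - hq I3 (j - p)) := betti_section_le hI3 hj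
  have h3 := hLb (p + 1) j
  have h4 := betti_le_of_le hj hnest
  have h5 := betti_section_ge hJc hJz hj fun i d _ q hq hzq => hJst i d q hq hzq
  have h6 : hq I3 (j - p) ≤ hq I3 (j - (p + 1)) + hq B (j - p) := by
    have := hq_succ_le hz3 (j - (p + 1))
    rwa [show j - (p + 1) + 1 = j - p by omega] at this
  have h7 := (hL (j - p)).2
  have h8 := hsec (j - p) (Nat.sub_le _ _)
  have h9 := finrank_grade_le_homogeneous (B : Ideal (MvPolynomial (Fin r) K)) (j - p)
  have e1 : ∀ d, hq J d = hq I3 d := fun d => by simp only [hq, hdim, (hJ d).2]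
  rw [e1, e1] at h5
  have key : finrank K ↥(grade L (j - p)) - finrank K ↥(grade (J.map killLast) (j - p)) +
      (hq I3 (j - (p + 1)) + hq B (j - p) - hq I3 (j - p)) ≤
      hq I3 (j - (p + 1)) + hq (J.map killLast) (j - p) - hq I3 (j - p) := by
    simp only [hq] at h6 ⊢
    omega
  have key' := Nat.mul_le_mul_left (r.choose p) key
  rw [Nat.mul_add] at key'
  omega

/-- The step, for all degrees at once. -/
theorem lppBettiN_succ [Infinite K] (hc : c ≤ r) (IH : LppBettiN K r c) :
    LppBettiN K (r + 1) c :=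
  lppBettiN_of_at fun a => lppAt_succ hc (IH.at a)

/-- Three forms or fewer, in every number of variables, over every field. -/
theorem lppBettiN_all {n c : ℕ} (hn : 3 ≤ n) (hc : c ≤ 3) (K : Type u) [Field K] :
    LppBettiN K n c := by
  refine lppBettiN_of_infinite (fun L _ _ => ?_) K
  induction n, hn using Nat.le_induction with
  | base => exact lppBetti_all c
  | succ n hn ih => exact lppBettiN_succ (by omega) ih

end Vale.P200.Many
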