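import Vale.Agent.P200.Many.Low
import Vale.Agent.P200.Many.PairSection
import Vale.Agent.P200.Many.SectionSum
import Vale.Agent.P200.Many.Step

/-!
P200: one more form, of degree at least the socle degree of the others, in one more variable.
-/

namespace Vale.P200.Many

open MvPolynomial Module Finset Vale.P200.Ext Vale.P200.Betti

universe u

variable {K : Type u} [Field K] {r : ℕ}

lemma ofList_ofFn {σ : Type*} {m : ℕ} (f : Fin m → MvPolynomial σ K) :
    Ideal.ofList (List.ofFn f) = Ideal.span (Set.range f) := by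
  rw [Ideal.ofList]
  congr 1
  ext x
  simp [List.mem_ofFn]

lemma ofList_ofFn_succ {σ : Type*} {m : ℕ} (f : Fin (m + 1) → MvPolynomial σ K) :
    Ideal.ofList (List.ofFn f) =
      Ideal.ofList (List.ofFn fun i : Fin m => f i.castSucc) ⊔ Ideal.span {f (Fin.last m)} := by
  rw [List.ofFn_succ', List.concat_eq_append, Ideal.ofList_append, Ideal.ofList_singleton]

lemma regMod_init {σ : Type*} {m : ℕ} {f : Fin (m + 1) → MvPolynomial σ K}
    (hreg : RegMod ⊥ (List.ofFn f)) :
    RegMod ⊥ (List.ofFn fun i : Fin m => f i.castSucc) ∧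
      NZD (Ideal.ofList (List.ofFn fun i : Fin m => f i.castSucc)) (f (Fin.last m)) := by
  rw [List.ofFn_succ', List.concat_eq_append, regMod_append] at hreg
  refine ⟨hreg.1, ?_⟩
  have := hreg.2.1
  rwa [bot_sup_eq] at this

lemma lppSpaceN_congr {n c : ℕ} (h : c ≤ n) (a : Fin c → ℕ)
    {I I' : Ideal (MvPolynomial (Fin n) K)} {d : ℕ}
    (hd : finrank K ↥(grade I d) = finrank K ↥(grade I' d)) :
    lppSpaceN (powersIdeal K h a) I d = lppSpaceN (powersIdeal K h a) I' d := by
  rw [lppSpaceN_eq_restrict, lppSpaceN_eq_restrict, hd]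

/-- Adding a form changes nothing below its degree. -/
lemma grade_sup_form {σ : Type*} {G : Ideal (MvPolynomial σ K)} (hG : Closed G)
    {f : MvPolynomial σ K} {e d : ℕ} (hf : f.IsHomogeneous e) (hd : d < e) :
    grade (G ⊔ Ideal.span {f}) d = grade G d := by
  refine le_antisymm ?_ (inf_le_inf_right _ fun x hx => Submodule.mem_sup_left hx)
  rintro x ⟨hx, hxd⟩
  refine ⟨?_, hxd⟩
  obtain ⟨g, hg, w, hw⟩ := mem_sup_span.1 hx
  rw [← homogeneousComponent_eq_self hxd, ← hw, map_add, hcomp_mul hf, if_neg (not_le.2 hd),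
    add_zero]
  exact hG g hg d

/-- Forms of degree at least two generate nothing linear. -/
lemma grade_one_eq_bot {σ : Type*} {m : ℕ} {f : Fin m → MvPolynomial σ K} {a : Fin m → ℕ}
    (hf : ∀ i, (f i).IsHomogeneous (a i)) (ha : ∀ i, 2 ≤ a i) :
    grade (Ideal.ofList (List.ofFn f)) 1 = ⊥ := by
  rw [Submodule.eq_bot_iff]
  rintro x ⟨hx, hxd⟩
  rw [ofList_ofFn] at hx
  obtain ⟨w, hw⟩ := Ideal.mem_span_range_iff_exists_fun.1 hx
  rw [← homogeneousComponent_eq_self hxd, ← hw, map_sum]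
  refine Finset.sum_eq_zero fun i _ => ?_
  rw [hcomp_mul (hf i), if_neg (by have := ha i; omega)]

/-- Below the degree of the last form, the rank sums of a linked pair exceed those of the
lex-plus-powers pair. -/
theorem pair_bounds [Infinite K] {a : Fin r → ℕ} (ha : ∀ i, 2 ≤ a i) (hmono : Monotone a)
    (IH : LppAt K r a) {f : Fin r → MvPolynomial (Fin (r + 1)) K}
    (hf : ∀ i, (f i).IsHomogeneous (a i)) (hreg : RegMod ⊥ (List.ofFn f))
    (hn : NZD (Ideal.ofList (List.ofFn f)) (X (Fin.last r)))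
    {L : Ideal (MvPolynomial (Fin (r + 1)) K)} (hL : Closed L) (hfL : ∀ i, f i ∈ L) :
    ∃ LJ : Ideal (MvPolynomial (Fin (r + 1)) K),
      (∀ d, grade LJ d = lppSpaceN (powersIdeal K r.le_succ a) L d ∧
        finrank K ↥(grade LJ d) = finrank K ↥(grade L d)) ∧
      ∀ i j,
        rkP (powersIdeal K r.le_succ a) LJ i j + rkP (powersIdeal K r.le_succ a) LJ (i + 1) j ≤
          rkP (Ideal.ofList (List.ofFn f)) L i j + rkP (Ideal.ofList (List.ofFn f)) L (i + 1) j := by
  have hpos : ∀ g ∈ List.ofFn f, PosForm g := by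
    intro g hg
    obtain ⟨i, rfl⟩ := List.mem_ofFn.1 hg
    exact ⟨a i, le_trans (by omega) (ha i), hf i⟩
  set g : Fin r → MvPolynomial (Fin r) K := fun i => killLast (f i) with hg
  have hghom : ∀ i, (g i).IsHomogeneous (a i) := fun i => isHomogeneous_killLast (hf i)
  have hgreg : RegMod ⊥ (List.ofFn g) :=
    regMod_section hpos hreg ⟨1, le_rfl, isHomogeneous_X K _⟩ hn AlgEquiv.refl rfl
  have hmon : ∀ B, Closed B → (∀ i, g i ∈ B) → HasMon le_rfl a B := fun B hB hgB => by
    obtain ⟨L0, hL0, -⟩ := IH le_rfl ha hmono g hghom hgreg B hB hgB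
    exact hasMon_of_family le_rfl a (fun _ => L0) fun _ d _ => hL0 d
  obtain ⟨L0, hL0, -⟩ := lppAt_succ le_rfl IH r.le_succ ha hmono f hf hreg L hL hfL
  obtain ⟨LJ, hJc, hJz, hJ, hJst, hJsec, hJnest⟩ :=
    exists_lpp_stable le_rfl hmono (hasMon_of_family r.le_succ a (fun _ => L0) fun _ d _ => hL0 d)
  refine ⟨LJ, hJ, fun i j => ?_⟩
  set G := Ideal.ofList (List.ofFn f)
  set P := powersIdeal K r.le_succ a
  have hGc : Closed G := closed_ofList fun x hx => by
    obtain ⟨k, rfl⟩ := List.mem_ofFn.1 hx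
    exact ⟨_, hf k⟩
  have hGL : G ≤ L := by
    refine Ideal.span_le.2 fun x hx => ?_
    obtain ⟨k, rfl⟩ := List.mem_ofFn.1 hx
    exact hfL k
  obtain ⟨L3, hL3, hz3, hE3, hEc, hd3, hdE, hrk, hst⟩ := exists_stable_pair hGc hL hGL hn j
  set E := extend (G.map killLast)
  have hEsec : E.map killLast = Ideal.ofList (List.ofFn g) := by
    rw [killLast_extend, show G = Ideal.span (Set.range f) from ofList_ofFn f, ofList_ofFn,
      Ideal.map_span, ← Set.range_comp]
    rfl
  have hPext : P = extend (powersIdeal K le_rfl a) := powers_extend a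
  have hPsec : P.map killLast = powersIdeal K le_rfl a := by rw [hPext, killLast_extend]
  have hPc : Closed P := closed_span_forms fun x hx => by
    obtain ⟨k, rfl⟩ := hx
    exact ⟨_, (isHomogeneous_X K _).pow _⟩
  have hPz : ZGraded P := hPext ▸ zGraded_extend _
  have hPJ : P ≤ LJ := powers_le_of_lpp fun d => (hJ d).1
  obtain ⟨hPreg, hPeq⟩ := powers_regMod (K := K) a fun k => le_trans (by omega) (ha k)
  have hdim : ∀ d, finrank K ↥(grade (powersIdeal K le_rfl a) d) =
      finrank K ↥(grade (Ideal.ofList (List.ofFn g)) d) := fun d => by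
    have h1 := hq_ofList hghom hgreg d
    have h2 := hq_ofList (fun k => by simpa using (isHomogeneous_X K k).pow (a k)) hPreg d
    rw [← hPeq] at h2
    have h3 := finrank_grade_le_homogeneous (powersIdeal K le_rfl a) d
    have h4 := finrank_grade_le_homogeneous (Ideal.ofList (List.ofFn g)) d
    simp only [hq] at h1 h2
    omega
  have hdimP : ∀ d, finrank K ↥(grade P d) = finrank K ↥(grade E d) := fun d => by
    rw [hPext, finrank_grade_extend, finrank_grade_extend]
    exact Finset.sum_congr rfl fun t _ => by rw [← killLast_extend (G.map killLast), hEsec, hdim]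
  have hd : ∀ d, finrank K ↥(grade LJ d) = finrank K ↥(grade L3 d) := fun d => by
    rw [(hJ d).2, hd3]
  -- the sections
  set AJ := LJ.map killLast
  set B := L3.map killLast
  have hgB : ∀ k, g k ∈ B := fun k => by
    have h1 : g k ∈ E.map killLast := by rw [hEsec]; exact Ideal.subset_span (by simp)
    exact Ideal.map_mono hE3 h1
  have hgs : ∀ t k, g k ∈ sliceAt L3 t := fun t k => by
    rw [mem_sliceAt]
    refine L3.mul_mem_right _ (hE3 ?_)
    refine Ideal.mem_map_of_mem _ ?_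
    rw [← killLast_extend (G.map killLast), hEsec]
    exact Ideal.subset_span (by simp)
  have hsec : ∀ e ≤ j, finrank K ↥(grade AJ e) ≤ finrank K ↥(grade B e) := by
    intro e he
    rw [hJsec, ← hd3 e, finrank_grade_slices hz3 e, show B = sliceAt L3 0 from (sliceAt_zero hz3).symm]
    refine lpp_section_le le_rfl hmono hghom hmon (sliceAt L3) (closed_sliceAt hL3) hgs
      fun t ht k u hu => ?_
    have hq1 : rename Fin.castSucc u * X (Fin.last r) ^ (t + 1) ∈ L3 := mem_sliceAt.1 hu.1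
    have hud : (rename Fin.castSucc u * X (Fin.last r) ^ t :
        MvPolynomial (Fin (r + 1)) K).IsHomogeneous (e - 1) := by
      have := (IsHomogeneous.rename_isHomogeneous (f := Fin.castSucc) hu.2).mul
        ((isHomogeneous_X K (Fin.last r)).pow t)
      rwa [one_mul, show e - (t + 1) + t = e - 1 by omega] at this
    have := hst k (e - 1) (by omega) _ hud (by rw [mul_left_comm, ← pow_succ']; exact hq1)
    rw [mem_sliceAt, map_mul, rename_X, mul_assoc]
    exact this
  have hsum := rkP_sum_le ha hmono IH hghom hgreg (A := B) (closed_map_killLast hL3) hgB (AJ := AJ) (i := i)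
    (j := j) fun L' hL' e he => hJnest B L' e hL' (hsec e he)
  have hsum1 := rkP_sum_le ha hmono IH hghom hgreg (A := B) (closed_map_killLast hL3) hgB (AJ := AJ) (i := 1)
    (j := j) fun L' hL' e he => hJnest B L' e hL' (hsec e he)
  -- the bounds for one rank
  let C : ℕ → ℕ := fun t => if 1 ≤ t ∧ t ≤ j then
    r.choose (t - 1) * (finrank K ↥(grade L3 (j - t)) - finrank K ↥(grade E (j - t))) else 0
  have hlow : ∀ t, rkP (Ideal.ofList (List.ofFn g)) B t j + C t ≤ rkP G L t j := by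
    intro t
    refine le_trans ?_ (hrk t j)
    by_cases ht : 1 ≤ t ∧ t ≤ j
    · obtain ⟨p, rfl⟩ : ∃ p, t = p + 1 := ⟨t - 1, by omega⟩
      have := rkP_section_ge hEc hL3 hE3 (nzd_extend _) (show p + 1 ≤ j from ht.2)
      rw [hEsec] at this
      simp only [C, if_pos ht, Nat.add_sub_cancel]
      exact this
    · simp only [C, if_neg ht, add_zero]
      rcases Nat.eq_zero_or_pos t with rfl | h0
      · rw [rkP_zero]; exact Nat.zero_le _
      · rw [rkP_eq_zero (Or.inr (by omega))]; exact Nat.zero_le _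
  have hup : ∀ t, rkP P LJ t j ≤ rkP (powersIdeal K le_rfl a) AJ t j + C t := by
    intro t
    by_cases ht : 1 ≤ t ∧ t ≤ j
    · obtain ⟨p, rfl⟩ : ∃ p, t = p + 1 := ⟨t - 1, by omega⟩
      have := rkP_section_le hPc hJc hPJ hPz hJz (show p + 1 ≤ j from ht.2)
        fun k q hq hzq => hJst k _ q hq hzq
      rw [hPsec, hd, hdimP] at this
      simp only [C, if_pos ht, Nat.add_sub_cancel]
      exact this
    · rcases Nat.eq_zero_or_pos t with rfl | h0
      · rw [rkP_zero]; exact Nat.zero_le _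
      · rw [rkP_eq_zero (Or.inr (by omega))]; exact Nat.zero_le _
  have u1 := hup i
  have u2 := hup (i + 1)
  have l1 := hlow i
  have l2 := hlow (i + 1)
  omega

/-- A pair with source inside the target has rank zero. -/
lemma rkP_self {n : ℕ} {G L : Ideal (MvPolynomial (Fin n) K)} {p j : ℕ}
    (h : p ≤ j → grade L (j - p) ≤ grade G (j - p)) : rkP G L p j = 0 := by
  rw [rkP, sup_eq_right.2, Nat.sub_self]
  rintro _ ⟨f, hf, rfl⟩
  refine mem_chI_of (map_chI_le' L p j ⟨f, hf, rfl⟩) fun U => ?_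
  rw [dS_apply_sum]
  refine G.sum_mem fun i _ => ?_
  split_ifs
  · exact zero_mem _
  · exact G.mul_mem_left _ (value_mem_of_chI (chI_mono h hf) _)

/-- Every single rank of a linked pair exceeds that of the lex-plus-powers pair. -/
theorem pair_rank [Infinite K] {a : Fin r → ℕ} (ha : ∀ i, 2 ≤ a i) (hmono : Monotone a)
    (IH : LppAt K r a) {f : Fin r → MvPolynomial (Fin (r + 1)) K}
    (hf : ∀ i, (f i).IsHomogeneous (a i)) (hreg : RegMod ⊥ (List.ofFn f))
    (hn : NZD (Ideal.ofList (List.ofFn f)) (X (Fin.last r)))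
    {L PJ : Ideal (MvPolynomial (Fin (r + 1)) K)} (hfL : ∀ i, f i ∈ L) {t j : ℕ}
    (hPJ : grade PJ (j - t) = lppSpaceN (powersIdeal K r.le_succ a) L (j - t)) :
    rkP (powersIdeal K r.le_succ a) PJ t j ≤ rkP (Ideal.ofList (List.ofFn f)) L t j := by
  rcases Nat.lt_or_ge j t with hjt | hjt
  · rw [rkP_eq_zero (Or.inr hjt)]; exact Nat.zero_le _
  set G := Ideal.ofList (List.ofFn f)
  set L' := Ideal.span (Set.range f ∪ (grade L (j - t) : Set (MvPolynomial (Fin (r + 1)) K)))
  have hL'c : Closed L' := closed_span_forms fun y hy => hy.elim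
    (fun ⟨k, hk⟩ => ⟨a k, hk ▸ hf k⟩) fun hy => ⟨_, hy.2⟩
  have hfL' : ∀ k, f k ∈ L' := fun k => Ideal.subset_span (Or.inl ⟨k, rfl⟩)
  have hgd : grade L' (j - t) = grade L (j - t) := by
    refine le_antisymm (inf_le_inf_right _ fun x hx => ?_) fun x hx =>
      ⟨Ideal.subset_span (Or.inr hx), hx.2⟩
    exact (Ideal.span_le.2 (by rintro y (⟨k, rfl⟩ | hy); exacts [hfL k, hy.1]) : L' ≤ L) hx
  obtain ⟨LJ, hLJ, hsum⟩ := pair_bounds ha hmono IH hf hreg hn hL'c hfL'
  have h1 : _ ≤ rkP G L' t j + rkP G L' (t + 1) j := hsum t j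
  have h2 : rkP G L' (t + 1) j = 0 := rkP_self fun ht => by
    rintro x ⟨hx, hxd⟩
    refine ⟨?_, hxd⟩
    have hx' : x ∈ Ideal.span (Set.range f) ⊔
        Ideal.span (grade L (j - t) : Set (MvPolynomial (Fin (r + 1)) K)) := by
      rw [← Ideal.span_union]; exact hx
    obtain ⟨y, hy, z, hz, hyz⟩ := Submodule.mem_sup.1 hx'
    obtain ⟨N, w, v, hv⟩ := Submodule.mem_span_set'.1 hz
    have hz0 : homogeneousComponent (j - (t + 1)) z = 0 := by
      rw [← hv, map_sum]
      refine Finset.sum_eq_zero fun l _ => ?_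
      rw [smul_eq_mul, hcomp_mul (v l).2.2, if_neg (by omega)]
    rw [← homogeneousComponent_eq_self hxd, ← hyz, map_add, hz0, add_zero]
    rw [← ofList_ofFn] at hy
    exact closed_ofList (fun u hu => by
      obtain ⟨k, rfl⟩ := List.mem_ofFn.1 hu
      exact ⟨_, hf k⟩) y hy _
  have h3 : rkP (powersIdeal K r.le_succ a) LJ t j = rkP (powersIdeal K r.le_succ a) PJ t j :=
    rkP_congr (fun _ => by rw [(hLJ _).1, hPJ]; exact lppSpaceN_congr _ _ (by rw [hgd]))
      fun _ _ => rfl
  have h4 : rkP G L' t j = rkP G L t j := rkP_congr (fun _ => hgd) fun _ _ => rfl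
  omega

/-- The first rank on the linked pair, at the degree of the last form. -/
lemma rkP_one_linked {a : Fin (r + 1) → ℕ} (hmono : Monotone a)
    {f : Fin (r + 1) → MvPolynomial (Fin (r + 1)) K} (hf : ∀ i, (f i).IsHomogeneous (a i))
    (hreg : RegMod ⊥ (List.ofFn f)) (ha : ∀ i, 1 ≤ a i)
    (hmon : ∀ B, Closed B → (∀ i, f i ∈ B) → HasMon le_rfl a B)
    {L PJ : Ideal (MvPolynomial (Fin (r + 1)) K)} (hQL : Ideal.ofList (List.ofFn f) ≤ L) {d : ℕ}
    (hPJ : grade PJ d = lppSpaceN (powersIdeal K le_rfl a) L d) :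
    rkP (powersIdeal K le_rfl a) PJ 1 (d + 1) ≤ rkP (Ideal.ofList (List.ofFn f)) L 1 (d + 1) := by
  set Q := Ideal.ofList (List.ofFn f)
  have hQc : Closed Q := closed_ofList fun x hx => by
    obtain ⟨k, rfl⟩ := List.mem_ofFn.1 hx
    exact ⟨_, hf k⟩
  set L' := Q ⊔ Ideal.span (grade L d : Set (MvPolynomial (Fin (r + 1)) K))
  have hL'c : Closed L' := by
    rw [show L' = Ideal.span (Set.range f ∪ (grade L d : Set (MvPolynomial (Fin (r + 1)) K))) by
      rw [Ideal.span_union, ← ofList_ofFn]]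
    exact closed_span_forms fun y hy => hy.elim (fun ⟨k, hk⟩ => ⟨a k, hk ▸ hf k⟩)
      fun hy => ⟨d, hy.2⟩
  have hfL' : ∀ k, f k ∈ L' := fun k =>
    Submodule.mem_sup_left (Ideal.subset_span (List.mem_ofFn.2 ⟨k, rfl⟩))
  have hgd : grade L' d = grade L d := by
    refine le_antisymm (inf_le_inf_right _ fun x hx => ?_) fun x hx =>
      ⟨Submodule.mem_sup_right (Ideal.subset_span hx), hx.2⟩
    exact (sup_le hQL (Ideal.span_le.2 fun y hy => hy.1) : L' ≤ L) hx
  obtain ⟨J', hJ'c, hJ'⟩ := exists_lpp_closed hmono (hmon L' hL'c hfL')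
  have hle : grade PJ d ≤ grade J' d := by
    rw [hPJ, (hJ' d).1, lppSpaceN_congr le_rfl a (by rw [hgd])]
  have h1 := rkP_one_le (powers_le_of_lpp fun e => (hJ' e).1) hle
  have h2 := rkP_one_ge (L := L) hQc d
  obtain ⟨hPreg, hPeq⟩ := powers_regMod (K := K) a ha
  have h3 : hq Q (d + 1) = _ := hq_ofList hf hreg (d + 1)
  have h4 := hq_ofList (fun k => by simpa using (isHomogeneous_X K k).pow (a k)) hPreg (d + 1)
  rw [← hPeq] at h4
  have h5 := finrank_grade_le_homogeneous (powersIdeal K le_rfl a) (d + 1)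
  have h6 := finrank_grade_le_homogeneous Q (d + 1)
  have h7 := (hJ' (d + 1)).2
  simp only [hq] at h3 h4
  change finrank K ↥(grade L' (d + 1)) ≤ _ at h2
  omega

/-- Below the degree of the last form a rank is controlled by the other forms. -/
theorem rk_low [Infinite K] {a : Fin (r + 1) → ℕ} (ha : ∀ i, 2 ≤ a i) (hmono : Monotone a)
    (IH : LppAt K r (Fin.init a)) {f : Fin (r + 1) → MvPolynomial (Fin (r + 1)) K}
    (hf : ∀ i, (f i).IsHomogeneous (a i)) (hreg : RegMod ⊥ (List.ofFn f))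
    {I J : Ideal (MvPolynomial (Fin (r + 1)) K)} (hI : Closed I) (hfI : ∀ i, f i ∈ I) {q j : ℕ}
    (hqj : q + 1 ≤ j) (hlow : j - q < a (Fin.last r))
    (hJ : grade J (j - q) = lppSpaceN (powersIdeal K le_rfl a) I (j - q)) :
    rk J (q + 1) j ≤ rk I (q + 1) j := by
  set T := j - q
  set W : Set (MvPolynomial (Fin (r + 1)) K) :=
    (homogeneousSubmodule (Fin (r + 1)) K (T + 1) : Set (MvPolynomial (Fin (r + 1)) K))
  set I' := I ⊔ Ideal.span W with hI'
  have hspan : ∀ (d : ℕ) x, x ∈ Ideal.span W → d ≤ T → homogeneousComponent d x = 0 := by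
    intro d x hx hd
    obtain ⟨N, w, v, hv⟩ := Submodule.mem_span_set'.1 hx
    rw [← hv, map_sum]
    refine Finset.sum_eq_zero fun l _ => ?_
    rw [smul_eq_mul, hcomp_mul (v l).2, if_neg (by omega)]
  have hI'c : Closed I' := by
    intro x hx d
    obtain ⟨y, hy, z, hz, rfl⟩ := Submodule.mem_sup.1 hx
    rw [map_add]
    exact Submodule.add_mem_sup (hI y hy d) (closed_span_forms (fun u hu => ⟨_, hu⟩) z hz d)
  have hlowI : grade I' T = grade I T := by
    refine le_antisymm ?_ (inf_le_inf_right _ fun x hx => Submodule.mem_sup_left hx)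
    rintro x ⟨hx, hxd⟩
    refine ⟨?_, hxd⟩
    obtain ⟨y, hy, z, hz, rfl⟩ := Submodule.mem_sup.1 hx
    rw [← homogeneousComponent_eq_self hxd, map_add, hspan T z hz le_rfl, add_zero]
    exact hI y hy T
  have hfull : grade I' (T + 1) = homogeneousSubmodule (Fin (r + 1)) K (T + 1) :=
    le_antisymm inf_le_right fun x hx => ⟨Submodule.mem_sup_right (Ideal.subset_span hx), hx⟩
  obtain ⟨J', hJ', hb⟩ := lppAt_succ le_rfl IH r.le_succ (fun i => ha _)
    (hmono.comp Fin.strictMono_castSucc.monotone) (fun i => f i.castSucc) (fun i => hf i.castSucc)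
    (regMod_init hreg).1 I' hI'c fun i => Submodule.mem_sup_left (hfI _)
  have hfullJ : grade J' (T + 1) = homogeneousSubmodule (Fin (r + 1)) K (T + 1) := by
    have := finite_hom (K := K) (n := r + 1) (T + 1)
    refine Submodule.eq_of_le_of_finrank_eq inf_le_right ?_
    rw [(hJ' _).2, hfull]
  have hzero : ∀ M : Ideal (MvPolynomial (Fin (r + 1)) K),
      grade M (T + 1) = homogeneousSubmodule (Fin (r + 1)) K (T + 1) → rk M q j = 0 := fun M hM => by
    rw [rk_eq_rkP]
    exact rkP_of_full fun _ => hM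
  have hTI : rk I' (q + 1) j = rk I (q + 1) j := by
    rw [rk_eq_rkP, rk_eq_rkP]
    exact rkP_congr (fun _ => rfl) fun _ _ => by
      rw [show j - (q + 1) + 1 = T by omega]; exact hlowI
  have hTJ : rk J' (q + 1) j = rk J (q + 1) j := by
    rw [rk_eq_rkP, rk_eq_rkP]
    refine rkP_congr (fun _ => rfl) fun _ _ => ?_
    rw [show j - (q + 1) + 1 = T by omega, hJ, (hJ' T).1, lppSpaceN_low hlow]
    exact lppSpaceN_congr _ _ (by rw [hlowI])
  have b1 := betti_rank I' q j
  have b2 := betti_rank J' q j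
  have b3 : finrank K ↥(chI I' q j) = finrank K ↥(chI J' q j) := by
    rw [finrank_chI I' (by omega), finrank_chI J' (by omega), (hJ' _).2]
  have b4 := hb q j
  have z1 := hzero I' hfull
  have z2 := hzero J' hfullJ
  omega

/-- From that degree on a rank is controlled through linkage. -/
theorem rk_high [Infinite K] {a : Fin (r + 1) → ℕ} (ha : ∀ i, 2 ≤ a i) (hmono : Monotone a)
    (IH : LppAt K r (Fin.init a)) (hbig : ∑ i, (Fin.init a i - 1) ≤ a (Fin.last r))
    {f : Fin (r + 1) → MvPolynomial (Fin (r + 1)) K} (hf : ∀ i, (f i).IsHomogeneous (a i))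
    (hreg : RegMod ⊥ (List.ofFn f))
    (hn : NZD (Ideal.ofList (List.ofFn fun i : Fin r => f i.castSucc)) (X (Fin.last r)))
    (hmon : ∀ B, Closed B → (∀ i, f i ∈ B) → HasMon le_rfl a B)
    {I J : Ideal (MvPolynomial (Fin (r + 1)) K)} (hI : Closed I) (hfI : ∀ i, f i ∈ I)
    (hJc : Closed J)
    (hJ : ∀ d, grade J d = lppSpaceN (powersIdeal K le_rfl a) I d ∧
      finrank K ↥(grade J d) = finrank K ↥(grade I d)) {q j : ℕ} (hq1 : 1 ≤ q) (hqn : q ≤ r + 1)
    (hqj : q ≤ j) (hhigh : a (Fin.last r) ≤ j - q + 1) :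
    rk J q j ≤ rk I q j := by
  set aL := a (Fin.last r)
  set a' := Fin.init a with ha'
  have ha1 : ∀ i, 1 ≤ a i := fun i => le_trans (by omega) (ha i)
  have hmono' : Monotone a' := hmono.comp Fin.strictMono_castSucc.monotone
  set f' : Fin r → MvPolynomial (Fin (r + 1)) K := fun i => f i.castSucc
  obtain ⟨hreg', hnzl⟩ := regMod_init hreg
  have hf' : ∀ i, (f' i).IsHomogeneous (a' i) := fun i => hf i.castSucc
  set s := ∑ i, (a' i - 1)
  set σ := ∑ i, (a i - 1) with hσdef
  have hσ : σ = s + (aL - 1) := Fin.sum_univ_castSucc _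
  set Q := Ideal.ofList (List.ofFn f)
  set P := powersIdeal K le_rfl a
  obtain ⟨hPreg, hPeq⟩ := powers_regMod (K := K) a ha1
  have hPhom : ∀ k, ((X k : MvPolynomial (Fin (r + 1)) K) ^ a k).IsHomogeneous (a k) := fun k => by
    simpa using (isHomogeneous_X K k).pow (a k)
  have hQc : Closed Q := closed_ofList fun x hx => by
    obtain ⟨k, rfl⟩ := List.mem_ofFn.1 hx
    exact ⟨_, hf k⟩
  have hPc : Closed P := by
    rw [show P = _ from hPeq]
    exact closed_ofList fun x hx => by
      obtain ⟨k, rfl⟩ := List.mem_ofFn.1 hx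
      exact ⟨_, hPhom k⟩
  have hQI : Q ≤ I := Ideal.span_le.2 fun x hx => by
    obtain ⟨k, rfl⟩ := List.mem_ofFn.1 hx
    exact hfI k
  have hPJ : P ≤ J := powers_le_of_lpp fun d => (hJ d).1
  obtain ⟨hsoc, hz⟩ := ci_soc ha1 hf hreg
  obtain ⟨hsocP, hzP⟩ := ci_soc ha1 hPhom hPreg
  rw [← hPeq] at hsocP hzP
  rcases Nat.lt_or_ge (σ + (r + 1)) j with hjbig | hjσ
  · rw [rk_eq_rkP J, rkP_of_full fun _ => le_antisymm inf_le_right fun x hx =>
      ⟨hPJ (hzP _ _ (by omega) hx), hx⟩]
    exact Nat.zero_le _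
  rw [rk_dual hQc hI hQI hsoc hz hq1 hqn hjσ, rk_dual hPc hJc hPJ hsocP hzP hq1 hqn hjσ]
  set t := r + 1 + 1 - q with ht
  set j' := σ + (r + 1) - j with hj'
  set L := Q.colon (I : Set (MvPolynomial (Fin (r + 1)) K))
  set PJ := P.colon (J : Set (MvPolynomial (Fin (r + 1)) K))
  have hQL : Q ≤ L := le_colon
  have hPJs : ∀ d, grade PJ d = lppSpaceN P L d ∧
      finrank K ↥(grade PJ d) = finrank K ↥(grade L d) :=
    lpp_colon ha1 hf hreg hI hfI hJc hJ
  rcases Nat.lt_or_ge j' t with hjt | hjt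
  · rw [rkP_eq_zero (Or.inr hjt)]; exact Nat.zero_le _
  set G := Ideal.ofList (List.ofFn f')
  set P' := powersIdeal K r.le_succ a'
  have hGc : Closed G := closed_ofList fun x hx => by
    obtain ⟨k, rfl⟩ := List.mem_ofFn.1 hx
    exact ⟨_, hf' k⟩
  have hP'eq : P' = Ideal.ofList (List.ofFn fun k : Fin r =>
      (X k.castSucc : MvPolynomial (Fin (r + 1)) K) ^ a k.castSucc) := by
    rw [ofList_ofFn]
    rfl
  have hP'c : Closed P' := hP'eq ▸ closed_ofList fun x hx => by
    obtain ⟨k, rfl⟩ := List.mem_ofFn.1 hx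
    exact ⟨_, hPhom _⟩
  have hQsplit : Q = G ⊔ Ideal.span {f (Fin.last r)} := ofList_ofFn_succ f
  have hd : j' - t + 1 ≤ aL := by omega
  have hlpp : grade PJ (j' - t) = lppSpaceN P' L (j' - t) := by
    rw [(hPJs _).1, lppSpaceN_low (show j' - t < aL by omega)]
  have hpair : rkP P' PJ t j' ≤ rkP G L t j' := pair_rank (fun k => ha _) hmono' IH hf' hreg' hn
    (fun k => hQL (Ideal.subset_span (List.mem_ofFn.2 ⟨k.castSucc, rfl⟩))) hlpp
  rcases Nat.lt_or_ge (j' - t + 1) aL with hlt | hge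
  · have e1 : rkP P PJ t j' = rkP P' PJ t j' :=
      rkP_congr (fun _ => rfl) fun _ _ => grade_powers_low hlt
    have e2 : rkP Q L t j' = rkP G L t j' := rkP_congr (fun _ => rfl) fun _ _ => by
      rw [hQsplit]
      exact grade_sup_form hGc (hf _) hlt
    omega
  rcases Nat.lt_or_ge t 2 with ht2 | ht2
  · obtain ⟨d, hd'⟩ : ∃ d, j' = d + 1 := ⟨j' - 1, by omega⟩
    rw [show t = 1 by omega, hd']
    exact rkP_one_linked hmono hf hreg ha1 hmon hQL (hPJs d).1
  · have he : j' - t + 1 = aL := le_antisymm hd hge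
    have e1 : rkP P PJ t j' = rkP P' PJ t j' := by
      rw [show P = P' ⊔ Ideal.span {(X (Fin.last r) : MvPolynomial (Fin (r + 1)) K) ^ aL} by
        rw [show P = _ from hPeq, ofList_ofFn_succ, hP'eq]]
      refine rkP_add_form hP'c ?_ ?_ ht2 (by rw [he]; exact hPhom _)
      · rw [hP'eq]; exact (regMod_init hPreg).2
      · rw [hP'eq]; exact grade_one_eq_bot (fun k => hPhom k.castSucc) fun k => ha _
    have e2 : rkP Q L t j' = rkP G L t j' := by
      rw [hQsplit, rkP_add_form hGc hnzl (grade_one_eq_bot hf' fun k => ha _) ht2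
        (by rw [he]; exact hf _)]
    omega

/-- The conjecture for one more form of large degree, in good coordinates. -/
theorem lpp_core [Infinite K] {a : Fin (r + 1) → ℕ} (ha : ∀ i, 2 ≤ a i) (hmono : Monotone a)
    (IH : LppAt K r (Fin.init a)) (hbig : ∑ i, (Fin.init a i - 1) ≤ a (Fin.last r))
    {f : Fin (r + 1) → MvPolynomial (Fin (r + 1)) K} (hf : ∀ i, (f i).IsHomogeneous (a i))
    (hreg : RegMod ⊥ (List.ofFn f))
    (hn : NZD (Ideal.ofList (List.ofFn fun i : Fin r => f i.castSucc)) (X (Fin.last r)))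
    (hmon : ∀ B, Closed B → (∀ i, f i ∈ B) → HasMon le_rfl a B)
    {I J : Ideal (MvPolynomial (Fin (r + 1)) K)} (hI : Closed I) (hfI : ∀ i, f i ∈ I)
    (hJc : Closed J)
    (hJ : ∀ d, grade J d = lppSpaceN (powersIdeal K le_rfl a) I d ∧
      finrank K ↥(grade J d) = finrank K ↥(grade I d)) (p j : ℕ) :
    betti I p j ≤ betti J p j := by
  have key : ∀ q, rk J q j ≤ rk I q j := by
    intro q
    by_cases hq : 1 ≤ q ∧ q ≤ r + 1 ∧ q ≤ j
    · obtain ⟨hq1, hqn, hqj⟩ := hq
      rcases Nat.lt_or_ge (j - q + 1) (a (Fin.last r)) with hlt | hge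
      · obtain ⟨q, rfl⟩ : ∃ q', q = q' + 1 := ⟨q - 1, by omega⟩
        exact rk_low ha hmono IH hf hreg hI hfI hqj (by omega) (hJ _).1
      · exact rk_high ha hmono IH hbig hf hreg hn hmon hI hfI hJc hJ hq1 hqn hqj hge
    · rw [rk_eq_rkP]
      rcases Nat.eq_zero_or_pos q with rfl | h0
      · rw [rkP_zero]; exact Nat.zero_le _
      · rw [rkP_eq_zero (by omega)]; exact Nat.zero_le _
  by_cases hout : r + 1 < p ∨ j < p
  · rw [betti_eq_zero I hout]; exact Nat.zero_le _
  have b1 := betti_rank I p j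
  have b2 := betti_rank J p j
  have b3 : finrank K ↥(chI I p j) = finrank K ↥(chI J p j) := by
    rw [finrank_chI I (by omega), finrank_chI J (by omega), (hJ _).2]
  have := key p
  have := key (p + 1)
  omega

/-- The conjecture passes to one more form of degree at least the socle degree of the others. -/
theorem lppAt_snoc [Infinite K] {a : Fin (r + 1) → ℕ} (IH : LppAt K r (Fin.init a))
    (hbig : ∑ i, (Fin.init a i - 1) ≤ a (Fin.last r))
    (hmon : ∀ f : Fin (r + 1) → MvPolynomial (Fin (r + 1)) K, (∀ i, (f i).IsHomogeneous (a i)) →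
      RegMod ⊥ (List.ofFn f) → ∀ B, Closed B → (∀ i, f i ∈ B) → HasMon le_rfl a B) :
    LppAt K (r + 1) a := by
  intro h ha hmono f hf hreg I hI hfI
  obtain ⟨hreg', -⟩ := regMod_init hreg
  obtain ⟨cc, hcc, hnzd⟩ := exists_last_form (r := r)
    (l := List.ofFn fun i : Fin r => f i.castSucc) (by simp)
    (fun g hg => by
      obtain ⟨i, rfl⟩ := List.mem_ofFn.1 hg
      exact ⟨_, le_trans (by omega) (ha i.castSucc), hf i.castSucc⟩) hreg'
  obtain ⟨A, hA, hAl, hAb⟩ := exists_coord cc hcc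
  obtain ⟨J, hJc, hJ⟩ := exists_lpp_closed hmono (hmon f hf hreg I hI hfI)
  refine ⟨J, hJ, fun p j => ?_⟩
  rw [← hAb I]
  refine lpp_core ha hmono IH hbig (f := fun i => A (f i)) (fun i => (hA _ _).2 (hf i)) ?_ ?_
    (fun B hB hfB => hmon _ (fun i => (hA _ _).2 (hf i)) ?_ B hB hfB) (Closed.map_equiv A hA hI)
    (fun i => Ideal.mem_map_of_mem _ (hfI i)) hJc (fun d => ?_) p j
  rotate_left 1
  · intro p hp
    obtain ⟨p, rfl⟩ := A.surjective p
    have e : Ideal.ofList (List.ofFn fun i : Fin r => A (f i.castSucc)) =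
        (Ideal.ofList (List.ofFn fun i : Fin r => f i.castSucc)).map A := by
      rw [ofList_ofFn, ofList_ofFn, Ideal.map_span, ← Set.range_comp]
      rfl
    rw [e] at hp ⊢
    rw [← hAl, ← map_mul, Ext.mem_map_equiv] at hp
    exact Ext.mem_map_equiv A |>.2 (hnzd p hp)
  rotate_left 1
  · rw [lppSpaceN_congr le_rfl a (finrank_grade_equiv A hA I d), finrank_grade_equiv A hA I d]
    exact hJ d
  all_goals
    have h1 := RegMod.map A.toAlgHom A.surjective (List.ofFn f) ⊥
      (fun p hp => by rw [Submodule.mem_bot]; exact A.injective (hp.trans (map_zero A).symm)) hreg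
    rw [Ideal.map_bot, List.map_ofFn] at h1
    exact h1

end Vale.P200.Many
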