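import Vale.Agent.P200.Many.Step
import Vale.Agent.P200.Ext.Regular

/-!
P200, any number of variables: the lex-plus-powers statement with regular sequences in Mathlib's
sense: the conversion of the two notions.
-/

namespace Vale.P200.Many

open MvPolynomial Module Vale.P200.Ext Vale.P200.Betti

universe u

lemma nzd_of_regMod {σ : Type*} {K : Type u} [Field K] :
    ∀ (l : List (MvPolynomial σ K)) (Q : Ideal (MvPolynomial σ K)), RegMod Q l →
      ∀ i (h : i < l.length), NZD (Q ⊔ Ideal.ofList (l.take i)) l[i]
  | [], _, _, i, hi => absurd hi (Nat.not_lt_zero i)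
  | g :: t, Q, h, 0, _ => by
    simpa using h.1
  | g :: t, Q, h, i + 1, hi => by
    have h1 := nzd_of_regMod t _ h.2 i (Nat.lt_of_succ_lt_succ hi)
    rw [List.take_succ_cons, Ideal.ofList_cons, ← sup_assoc]
    exact h1

/-- Forms of positive degree that are regular in the unfolded sense are regular in Mathlib's. -/
lemma isRegular_of_regMod {σ : Type*} {K : Type u} [Field K] {l : List (MvPolynomial σ K)}
    (hpos : ∀ g ∈ l, PosForm g) (h : RegMod ⊥ l) :
    RingTheory.Sequence.IsRegular (MvPolynomial σ K) l := by
  refine (RingTheory.Sequence.isRegular_iff _ _).2 ⟨(RingTheory.Sequence.isWeaklyRegular_iff _ _).2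
    fun i hi => ?_, ?_⟩
  · rw [isSMulRegular_quotient_iff_mem_of_smul_mem]
    simp only [smul_eq_mul, Ideal.mul_top]
    have := nzd_of_regMod l ⊥ h i hi
    rwa [bot_sup_eq] at this
  · intro htop
    rw [smul_eq_mul, Ideal.mul_top] at htop
    have hle : Ideal.ofList l ≤ RingHom.ker (constantCoeff (R := K) (σ := σ)) := by
      refine Ideal.span_le.2 fun g hg => ?_
      obtain ⟨d, hd, hgd⟩ := hpos g hg
      rw [SetLike.mem_coe, RingHom.mem_ker, constantCoeff_eq]
      exact hgd.coeff_eq_zero (by simp; omega)
    have h1 : (1 : MvPolynomial σ K) ∈ RingHom.ker (constantCoeff (R := K) (σ := σ)) :=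
      hle (htop ▸ Submodule.mem_top)
    simp at h1

end Vale.P200.Many
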