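import Vale.Agent.P200.Ext.All
import Vale.Agent.P200.Many.Grow
import Vale.Agent.P200.Many.Lit

/-!
P200: the lex-plus-powers inequality for any number of forms with growing degrees.
-/

namespace Vale.P200.Many

open MvPolynomial Module Finset Vale.P200.Ext Vale.P200.Betti

universe u

/-- The lex-plus-powers conjecture in `n` variables over `K` for forms of degrees `a`: if a
homogeneous ideal `I` contains a regular sequence of forms of degrees `2 ≤ a 0 ≤ … ≤ a (c-1)`,
then its lex-plus-powers space is an ideal `J` with the Hilbert function of `I` and no smaller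
graded Betti numbers. -/
def LexPlusPowersAt (K : Type u) [Field K] (n : ℕ) {c : ℕ} (a : Fin c → ℕ) : Prop :=
  ∀ (h : c ≤ n), (∀ i, 2 ≤ a i) → Monotone a →
    ∀ f : Fin c → MvPolynomial (Fin n) K, (∀ i, (f i).IsHomogeneous (a i)) →
      RingTheory.Sequence.IsRegular (MvPolynomial (Fin n) K) (List.ofFn f) →
    ∀ I : Ideal (MvPolynomial (Fin n) K), Closed I → (∀ i, f i ∈ I) →
    ∃ J : Ideal (MvPolynomial (Fin n) K),
      (∀ d, grade J d = lppSpaceN (powersIdeal K h a) I d ∧
        finrank K ↥(grade J d) = finrank K ↥(grade I d)) ∧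
      ∀ p j, betti I p j ≤ betti J p j

/-- The two forms of the statement agree. -/
lemma lexPlusPowersAt_iff {K : Type u} [Field K] {n c : ℕ} {a : Fin c → ℕ} :
    LexPlusPowersAt K n a ↔ LppAt K n a := by
  constructor
  · intro H h ha hmono f hf hreg
    refine H h ha hmono f hf (isRegular_of_regMod (fun g hg => ?_) hreg)
    obtain ⟨i, rfl⟩ := List.mem_ofFn.1 hg
    exact ⟨a i, le_trans (by omega) (ha i), hf i⟩
  · intro H h ha hmono f hf hreg
    exact H h ha hmono f hf (regMod_of_isRegular_list hreg)

/-- The statement passes to every larger number of variables and every field. -/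
theorem lppAt_mono {r c : ℕ} (hc : c ≤ r) {a : Fin c → ℕ}
    (H : ∀ (L : Type u) [Field L] [Infinite L], LppAt L r a) {n : ℕ} (hn : r ≤ n)
    (K : Type u) [Field K] : LppAt K n a := by
  refine lppAt_of_infinite (fun L _ _ => ?_) K
  induction n, hn using Nat.le_induction with
  | base => exact H L
  | succ n hn ih => exact lppAt_succ (hc.trans hn) ih

/-- As many variables as forms. -/
theorem lppAt_growing : ∀ {c : ℕ}, 3 ≤ c → ∀ {a : Fin c → ℕ}, DegreeCond a →
    ∀ (K : Type u) [Field K] [Infinite K], LppAt K c a := by
  intro c hc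
  induction c, hc using Nat.le_induction with
  | base => exact fun {a} _ K _ _ => (lppBettiN_all le_rfl le_rfl K).at a
  | succ c hc ih =>
    intro a hgrow K _ _ h ha hmono
    have hIH : LppAt K c (Fin.init a) := ih (fun i hi => by
      have h := hgrow i.castSucc (by simpa using hi)
      rw [← Fin.map_castSuccEmb_Iio, Finset.sum_map] at h
      exact h) K
    have hbig : ∑ i, (Fin.init a i - 1) ≤ a (Fin.last c) := by
      have h := hgrow (Fin.last c) (by simpa using hc)
      have e : Finset.Iio (Fin.last c) = Finset.univ.map Fin.castSuccEmb := by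
        ext x
        simp [Fin.lt_last_iff_ne_last, Fin.exists_castSucc_eq]
      rw [e, Finset.sum_map] at h
      exact h
    refine lppAt_snoc hIH hbig (fun f hf hreg B hB hfB => ?_) h ha hmono
    exact hasMon_of_good le_rfl ha (fun L _ _ => good_all (by omega) hmono ha hgrow) hf hreg hB hfB

/-- Growing degrees, in every number of variables from three on and over every field. -/
theorem lppAt_growing_all {n c : ℕ} (hn : 3 ≤ n) (hcn : c ≤ n) {a : Fin c → ℕ} (hgrow : DegreeCond a)
    (K : Type u) [Field K] : LppAt K n a := by
  by_cases hc : 3 ≤ c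
  · exact lppAt_mono le_rfl (fun L _ _ => lppAt_growing hc hgrow L) hcn K
  · exact (lppBettiN_all hn (by omega) K).at a

end Vale.P200.Many
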