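import Vale.Agent.P200.Ext.General
import Vale.Agent.P200.Many.Complex

/-!
P200, any number of variables: the layers of the last variable.
-/

namespace Vale.P200.Many

open MvPolynomial Module Finset Vale.P200.Ext Vale.P200.Betti

universe u

section Linear

variable {K : Type*} [Field K] {V : Type*} [AddCommGroup V] [Module K V]

/-- The elements of `W` killed by the projections below `k`. -/
def below (π : ℕ → V →ₗ[K] V) (W : Submodule K V) (k : ℕ) : Submodule K V :=
  W ⊓ ⨅ (i : ℕ) (_ : i < k), LinearMap.ker (π i)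

lemma mem_below {π : ℕ → V →ₗ[K] V} {W : Submodule K V} {k : ℕ} {x : V} :
    x ∈ below π W k ↔ x ∈ W ∧ ∀ i < k, π i x = 0 := by
  simp [below]

/-- A subspace splits into its layers below `M` and the rest. -/
theorem finrank_below (π : ℕ → V →ₗ[K] V) (W : Submodule K V) [FiniteDimensional K ↥W] (M : ℕ) :
    finrank K ↥W = (∑ k ∈ range M, finrank K ↥((below π W k).map (π k))) +
      finrank K ↥(below π W M) := by
  induction M with
  | zero =>
    rw [Finset.sum_range_zero, zero_add, show below π W 0 = W by ext x; simp [mem_below]]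
  | succ M ih =>
    have : FiniteDimensional K ↥(below π W M) := Submodule.finiteDimensional_of_le inf_le_left
    have hstep : below π W M ⊓ LinearMap.ker (π M) = below π W (M + 1) := by
      ext x
      simp only [Submodule.mem_inf, LinearMap.mem_ker, mem_below]
      constructor
      · rintro ⟨⟨h1, h2⟩, h3⟩
        exact ⟨h1, fun i hi => (Nat.lt_succ_iff_lt_or_eq.1 hi).elim (h2 i) (fun h => h ▸ h3)⟩
      · exact fun h => ⟨⟨h.1, fun i hi => h.2 i (by omega)⟩, h.2 M (by omega)⟩
    have h := finrank_inf_ker_add (π M) (below π W M)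
    rw [hstep] at h
    rw [Finset.sum_range_succ]
    omega

/-- A subspace has the dimension of the sum of its layers. -/
theorem finrank_layers (π : ℕ → V →ₗ[K] V) (W : Submodule K V) [FiniteDimensional K ↥W] (N : ℕ)
    (hW : ∀ x ∈ W, (∀ k < N, π k x = 0) → x = 0) :
    finrank K ↥W = ∑ k ∈ range N, finrank K ↥((below π W k).map (π k)) := by
  rw [finrank_below π W N, show below π W N = ⊥ by
    rw [Submodule.eq_bot_iff]; intro x hx; exact hW x (mem_below.1 hx).1 (mem_below.1 hx).2,
    finrank_bot, add_zero]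

/-- Passing to the lowest layers does not raise the dimension of a sum with a graded space. -/
theorem finrank_sup_layers_le (π : ℕ → V →ₗ[K] V) (hπ : ∀ k l x, π l (π k x) = if l = k then π k x else 0)
    (N : ℕ) (G D D' : Submodule K V) [FiniteDimensional K ↥G] [FiniteDimensional K ↥D]
    [FiniteDimensional K ↥D'] (hsep : ∀ x ∈ G ⊔ D ⊔ D', (∀ k < N, π k x = 0) → x = 0)
    (hG : ∀ k, ∀ x ∈ G, π k x ∈ G) (hD : ∀ k, D'.map (π k) ≤ (below π D k).map (π k)) :
    finrank K ↥(G ⊔ D') ≤ finrank K ↥(G ⊔ D) := by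
  have hle : G ⊔ D' ≤ G ⊔ D ⊔ D' := sup_le (le_sup_left.trans le_sup_left) le_sup_right
  rw [finrank_layers π (G ⊔ D') N fun x hx => hsep x (hle hx),
    finrank_layers π (G ⊔ D) N fun x hx => hsep x (Submodule.mem_sup_left hx)]
  refine Finset.sum_le_sum fun k _ => ?_
  have : FiniteDimensional K ↥(below π (G ⊔ D) k) :=
    Submodule.finiteDimensional_of_le inf_le_left
  refine Submodule.finrank_mono ?_
  rintro _ ⟨x, hx, rfl⟩
  obtain ⟨g, hg, e, he, rfl⟩ := Submodule.mem_sup.1 (mem_below.1 hx).1
  obtain ⟨y, hy, hye⟩ := hD k ⟨e, he, rfl⟩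
  refine ⟨π k g + y, mem_below.2 ⟨Submodule.add_mem_sup (hG k g hg) (mem_below.1 hy).1,
    fun i hi => ?_⟩, ?_⟩
  · rw [map_add, hπ, if_neg hi.ne, (mem_below.1 hy).2 i hi, add_zero]
  · rw [map_add, map_add, hπ, if_pos rfl, hye]

end Linear

section Poly

variable {K : Type u} [Field K] {r : ℕ}

/-- The part of degree `k` in the last variable. -/
noncomputable def zc (k : ℕ) : MvPolynomial (Fin (r + 1)) K →ₗ[K] MvPolynomial (Fin (r + 1)) K :=
  (basisMonomials (Fin (r + 1)) K).constr K fun m =>
    if m (Fin.last r) = k then monomial m 1 else 0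

lemma zc_monomial (k : ℕ) (m : Fin (r + 1) →₀ ℕ) (c : K) :
    zc k (monomial m c) = if m (Fin.last r) = k then monomial m c else 0 := by
  have h : zc k (monomial m (1 : K)) = if m (Fin.last r) = k then monomial m 1 else 0 := by
    have := (basisMonomials (Fin (r + 1)) K).constr_basis K
      (fun m => if m (Fin.last r) = k then monomial m (1 : K) else 0) m
    rwa [coe_basisMonomials] at this
  rw [show monomial m c = c • monomial m (1 : K) by simp [smul_monomial], map_smul, h]
  split_ifs <;> simp

lemma coeff_zc (k : ℕ) (p : MvPolynomial (Fin (r + 1)) K) (m : Fin (r + 1) →₀ ℕ) :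
    coeff m (zc k p) = if m (Fin.last r) = k then coeff m p else 0 := by
  induction p using MvPolynomial.induction_on' with
  | add p q hp hq => simp only [map_add, coeff_add, hp, hq]; split_ifs <;> simp
  | monomial n c =>
    rw [zc_monomial, apply_ite (coeff m), coeff_zero, coeff_monomial]
    by_cases h : n = m
    · subst h; simp
    · simp [h]

lemma zc_zc (k l : ℕ) (p : MvPolynomial (Fin (r + 1)) K) :
    zc l (zc k p) = if l = k then zc k p else 0 := by
  ext m
  rw [coeff_zc, coeff_zc, apply_ite (coeff m), coeff_zero, coeff_zc]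
  split_ifs <;> simp_all

lemma eq_zero_of_zc {p : MvPolynomial (Fin (r + 1)) K} {d : ℕ} (hp : p.IsHomogeneous d)
    (h : ∀ k < d + 1, zc k p = 0) : p = 0 := by
  ext m
  rw [coeff_zero]
  by_contra hm
  have hdeg : m.degree = d := by
    by_contra hne
    exact hm (hp.coeff_eq_zero hne)
  have hle : m (Fin.last r) < d + 1 := by
    have := Finsupp.le_degree (Fin.last r) m
    omega
  have := congrArg (coeff m) (h _ hle)
  rw [coeff_zc, if_pos rfl, coeff_zero] at this
  exact hm this

lemma zc_hcomp (k d : ℕ) (p : MvPolynomial (Fin (r + 1)) K) :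
    homogeneousComponent d (zc k p) = zc k (homogeneousComponent d p) := by
  ext m
  simp only [coeff_homogeneousComponent, coeff_zc]
  split_ifs <;> rfl

lemma zc_homogeneous (k : ℕ) {p : MvPolynomial (Fin (r + 1)) K} {d : ℕ} (hp : p.IsHomogeneous d) :
    (zc k p).IsHomogeneous d := by
  rw [← homogeneousComponent_eq_self hp, ← zc_hcomp]
  exact homogeneousComponent_isHomogeneous _ _

lemma zc_X_mul (k : ℕ) (i : Fin r) (p : MvPolynomial (Fin (r + 1)) K) :
    zc k (X i.castSucc * p) = X i.castSucc * zc k p := by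
  induction p using MvPolynomial.induction_on' with
  | add p q hp hq => simp [mul_add, map_add, hp, hq]
  | monomial n c =>
    rw [show (X i.castSucc : MvPolynomial (Fin (r + 1)) K) * monomial n c =
      monomial (Finsupp.single i.castSucc 1 + n) c by simp [X, monomial_mul],
      zc_monomial, zc_monomial]
    have : (Finsupp.single i.castSucc 1 + n : Fin (r + 1) →₀ ℕ) (Fin.last r) = n (Fin.last r) := by
      simp [Fin.castSucc_ne_last]
    rw [this]
    split_ifs
    · simp [X, monomial_mul]
    · simp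

lemma zc_z_mul (k : ℕ) (p : MvPolynomial (Fin (r + 1)) K) :
    zc k (X (Fin.last r) * p) = if k = 0 then 0 else X (Fin.last r) * zc (k - 1) p := by
  induction p using MvPolynomial.induction_on' with
  | add p q hp hq => rw [mul_add, map_add, hp, hq, map_add]; split_ifs <;> simp [mul_add]
  | monomial n c =>
    rw [show (X (Fin.last r) : MvPolynomial (Fin (r + 1)) K) * monomial n c =
      monomial (Finsupp.single (Fin.last r) 1 + n) c by simp [X, monomial_mul],
      zc_monomial, zc_monomial]
    simp only [Finsupp.add_apply, Finsupp.single_eq_same]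
    rcases k with _ | k
    · simp
    · by_cases h : n (Fin.last r) = k
      · simp [h, add_comm 1 k, X, monomial_mul]
      · simp [h, show ¬ 1 + n (Fin.last r) = k + 1 by omega]

/-- The ideal of lowest layers in the last variable. -/
noncomputable def inIdeal (I : Ideal (MvPolynomial (Fin (r + 1)) K)) :
    Ideal (MvPolynomial (Fin (r + 1)) K) where
  carrier := {q | ∀ k, ∃ x ∈ I, (∀ l < k, zc l x = 0) ∧ zc k x = zc k q}
  zero_mem' k := ⟨0, I.zero_mem, fun l _ => map_zero _, rfl⟩
  add_mem' {p q} hp hq k := by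
    obtain ⟨x, hx, hx0, hxk⟩ := hp k
    obtain ⟨y, hy, hy0, hyk⟩ := hq k
    exact ⟨x + y, I.add_mem hx hy, fun l hl => by rw [map_add, hx0 l hl, hy0 l hl, add_zero],
      by rw [map_add, map_add, hxk, hyk]⟩
  smul_mem' := by
    intro a q hq
    rw [smul_eq_mul]
    show ∀ k, _
    induction a using MvPolynomial.induction_on generalizing q with
    | C s =>
      intro k
      obtain ⟨x, hx, hx0, hxk⟩ := hq k
      exact ⟨C s * x, I.mul_mem_left _ hx,
        fun l hl => by rw [C_mul', map_smul, hx0 l hl, smul_zero],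
        by rw [C_mul', C_mul', map_smul, map_smul, hxk]⟩
    | add a b ha hb =>
      intro k
      obtain ⟨x, hx, hx0, hxk⟩ := ha hq k
      obtain ⟨y, hy, hy0, hyk⟩ := hb hq k
      exact ⟨x + y, I.add_mem hx hy, fun l hl => by rw [map_add, hx0 l hl, hy0 l hl, add_zero],
        by rw [add_mul, map_add, map_add, hxk, hyk]⟩
    | mul_X a i ha =>
      intro k
      rw [mul_comm a, mul_assoc]
      induction i using Fin.lastCases with
      | last =>
        cases k with
        | zero => exact ⟨0, I.zero_mem, fun l hl => absurd hl (Nat.not_lt_zero l),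
            by rw [map_zero, zc_z_mul, if_pos rfl]⟩
        | succ k =>
          obtain ⟨x, hx, hx0, hxk⟩ := ha hq k
          refine ⟨X (Fin.last r) * x, I.mul_mem_left _ hx, fun l hl => ?_, ?_⟩
          · rw [zc_z_mul]
            split_ifs with hl0
            · rfl
            · rw [hx0 _ (by omega), mul_zero]
          · rw [zc_z_mul, zc_z_mul, if_neg (Nat.succ_ne_zero k), if_neg (Nat.succ_ne_zero k),
              Nat.add_sub_cancel, hxk]
      | cast i =>
        obtain ⟨x, hx, hx0, hxk⟩ := ha hq k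
        exact ⟨X i.castSucc * x, I.mul_mem_left _ hx,
          fun l hl => by rw [zc_X_mul, hx0 l hl, mul_zero], by rw [zc_X_mul, zc_X_mul, hxk]⟩

lemma mem_inIdeal {I : Ideal (MvPolynomial (Fin (r + 1)) K)} {q : MvPolynomial (Fin (r + 1)) K} :
    q ∈ inIdeal I ↔ ∀ k, ∃ x ∈ I, (∀ l < k, zc l x = 0) ∧ zc k x = zc k q := Iff.rfl

/-- The ideal is graded by the degree in the last variable. -/
def ZGraded (I : Ideal (MvPolynomial (Fin (r + 1)) K)) : Prop := ∀ p ∈ I, ∀ k, zc k p ∈ I

lemma zGraded_in (I : Ideal (MvPolynomial (Fin (r + 1)) K)) : ZGraded (inIdeal I) := by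
  intro q hq k l
  by_cases h : l = k
  · subst h
    obtain ⟨x, hx, hx0, hxk⟩ := mem_inIdeal.1 hq l
    exact ⟨x, hx, hx0, by rw [zc_zc, if_pos rfl, hxk]⟩
  · exact ⟨0, I.zero_mem, fun i _ => map_zero _, by rw [zc_zc, if_neg h, map_zero]⟩

lemma zc_mem_in {I : Ideal (MvPolynomial (Fin (r + 1)) K)} {p : MvPolynomial (Fin (r + 1)) K}
    (hp : p ∈ I) {k : ℕ} (h : ∀ l < k, zc l p = 0) : zc k p ∈ inIdeal I := by
  intro l
  by_cases hl : l = k
  · subst hl; exact ⟨p, hp, h, by rw [zc_zc, if_pos rfl]⟩
  · exact ⟨0, I.zero_mem, fun i _ => map_zero _, by rw [zc_zc, if_neg hl, map_zero]⟩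

lemma closed_in {I : Ideal (MvPolynomial (Fin (r + 1)) K)} (hI : Closed I) :
    Closed (inIdeal I) := by
  intro q hq d k
  obtain ⟨x, hx, hx0, hxk⟩ := mem_inIdeal.1 hq k
  exact ⟨homogeneousComponent d x, hI x hx d,
    fun l hl => by rw [← zc_hcomp, hx0 l hl, map_zero], by rw [← zc_hcomp, ← zc_hcomp, hxk]⟩

/-- The layers of the graded pieces of the ideal and of its initial ideal agree. -/
lemma map_below_in {I : Ideal (MvPolynomial (Fin (r + 1)) K)} (hI : Closed I) (d k : ℕ) :
    (below zc (grade (inIdeal I) d) k).map (zc k) = (below zc (grade I d) k).map (zc k) := by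
  apply le_antisymm
  · rintro _ ⟨q, hq, rfl⟩
    obtain ⟨⟨hq1, hq2⟩, -⟩ := mem_below.1 hq
    obtain ⟨x, hx, hx0, hxk⟩ := mem_inIdeal.1 hq1 k
    exact ⟨homogeneousComponent d x, mem_below.2 ⟨⟨hI x hx d, homogeneousComponent_isHomogeneous _ _⟩,
      fun l hl => by rw [← zc_hcomp, hx0 l hl, map_zero]⟩,
      by rw [← zc_hcomp, hxk, zc_hcomp, homogeneousComponent_eq_self hq2]⟩
  · rintro _ ⟨x, hx, rfl⟩
    obtain ⟨⟨hx1, hx2⟩, hx3⟩ := mem_below.1 hx
    refine ⟨zc k x, mem_below.2 ⟨⟨zc_mem_in hx1 hx3, zc_homogeneous k hx2⟩, fun l hl => ?_⟩, ?_⟩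
    · rw [zc_zc, if_neg hl.ne]
    · rw [zc_zc, if_pos rfl]

lemma finrank_grade_layers (I : Ideal (MvPolynomial (Fin (r + 1)) K)) (d : ℕ) :
    finrank K ↥(grade I d) = ∑ k ∈ range (d + 1), finrank K ↥((below zc (grade I d) k).map (zc k)) := by
  have := finiteDimensional_grade I d
  exact finrank_layers zc _ _ fun x hx h => eq_zero_of_zc hx.2 h

lemma finrank_grade_in {I : Ideal (MvPolynomial (Fin (r + 1)) K)} (hI : Closed I) (d : ℕ) :
    finrank K ↥(grade (inIdeal I) d) = finrank K ↥(grade I d) := by
  rw [finrank_grade_layers, finrank_grade_layers I]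
  exact Finset.sum_congr rfl fun k _ => by rw [map_below_in hI]

/-- The layers of chains: inserting the last basis vector has degree one. -/
noncomputable def chc (k : ℕ) :
    (Finset (Fin (r + 1)) → MvPolynomial (Fin (r + 1)) K) →ₗ[K]
      (Finset (Fin (r + 1)) → MvPolynomial (Fin (r + 1)) K) :=
  LinearMap.pi fun U => ((if Fin.last r ∈ U then (if k = 0 then 0 else zc (k - 1)) else zc k) :
    MvPolynomial (Fin (r + 1)) K →ₗ[K] MvPolynomial (Fin (r + 1)) K).comp (LinearMap.proj U)

lemma chc_apply (k : ℕ) (f : Finset (Fin (r + 1)) → MvPolynomial (Fin (r + 1)) K)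
    (U : Finset (Fin (r + 1))) :
    chc k f U = if Fin.last r ∈ U then (if k = 0 then 0 else zc (k - 1) (f U)) else zc k (f U) := by
  simp only [chc, LinearMap.pi_apply, LinearMap.comp_apply, LinearMap.proj_apply]
  split_ifs <;> rfl

lemma chc_dS (k : ℕ) (f : Finset (Fin (r + 1)) → MvPolynomial (Fin (r + 1)) K) :
    chc k (dS K (r + 1) f) = dS K (r + 1) (chc k f) := by
  funext U
  rw [chc_apply, dS, kd_apply, kd_apply]
  simp only [mul_assoc, map_sum, map_sgn_mul]
  by_cases hU : Fin.last r ∈ U
  · rw [if_pos hU]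
    have hne : ∀ i ∈ Uᶜ, ∃ i' : Fin r, i = i'.castSucc := fun i hi => by
      induction i using Fin.lastCases with
      | last => exact absurd hU (mem_compl.1 hi)
      | cast i => exact ⟨i, rfl⟩
    split_ifs with hk
    · refine (Finset.sum_eq_zero fun i hi => ?_).symm
      rw [chc_apply, if_pos (mem_insert_of_mem hU), if_pos hk, mul_zero, mul_zero]
    · refine Finset.sum_congr rfl fun i hi => ?_
      obtain ⟨i', rfl⟩ := hne i hi
      rw [chc_apply, if_pos (mem_insert_of_mem hU), if_neg hk, zc_X_mul]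
  · rw [if_neg hU]
    refine Finset.sum_congr rfl fun i hi => ?_
    induction i using Fin.lastCases with
    | last =>
      rw [chc_apply, if_pos (mem_insert_self _ _), zc_z_mul]
      split_ifs <;> simp
    | cast i =>
      rw [chc_apply, if_neg (by simp [hU, (Fin.castSucc_ne_last i).symm]), zc_X_mul]

lemma chc_chc (k l : ℕ) (f : Finset (Fin (r + 1)) → MvPolynomial (Fin (r + 1)) K) :
    chc l (chc k f) = if l = k then chc k f else 0 := by
  funext U
  rw [apply_ite (fun g : Finset (Fin (r + 1)) → MvPolynomial (Fin (r + 1)) K => g U), chc_apply,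
    chc_apply, Pi.zero_apply]
  by_cases hU : Fin.last r ∈ U
  · simp only [hU, if_true]
    rcases k with _ | k <;> rcases l with _ | l <;> simp [zc_zc]
  · simp [hU, zc_zc]

lemma chc_mem_chS {p j : ℕ} (k : ℕ) {f : Finset (Fin (r + 1)) → MvPolynomial (Fin (r + 1)) K}
    (hf : f ∈ chS K (r + 1) p j) : chc k f ∈ chS K (r + 1) p j := by
  have hz : ∀ (i : ℕ) q, q ∈ sDeg K (r + 1) p j → zc i q ∈ sDeg K (r + 1) p j := by
    intro i q hq
    unfold sDeg at hq ⊢
    split_ifs at hq ⊢
    · exact zc_homogeneous i hq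
    · rw [Submodule.mem_bot] at hq ⊢; rw [hq, map_zero]
  refine mem_suppOn.2 ⟨fun U hU => ?_, fun U hU => ?_⟩
  · rw [chc_apply]
    have h := (mem_suppOn.1 hf).1 U hU
    split_ifs
    exacts [zero_mem _, hz _ _ h, hz _ _ h]
  · rw [chc_apply, (mem_suppOn.1 hf).2 U hU]
    simp

/-- The Betti numbers do not drop on passing to the lowest layers. -/
theorem betti_le_in {I : Ideal (MvPolynomial (Fin (r + 1)) K)} (hI : Closed I) (p j : ℕ) :
    betti I p j ≤ betti (inIdeal I) p j := by
  classical
  have hdim : ∀ p, finrank K ↥(chI (inIdeal I) p j) = finrank K ↥(chI I p j) := by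
    intro p
    rw [chI, chI, finrank_suppOn, finrank_suppOn]
    congr 1
    by_cases h : p ≤ j
    · rw [iDeg, iDeg, if_pos h, if_pos h]; exact finrank_grade_in hI _
    · rw [iDeg, iDeg, if_neg h, if_neg h]
  have hrk : ∀ p, rk (inIdeal I) p j ≤ rk I p j := by
    intro p
    rw [rk, rk, hdim (p - 1)]
    refine Nat.sub_le_sub_right ?_ _
    refine finrank_sup_layers_le chc chc_chc (j + 2) _ _ _ ?_ ?_ ?_
    · intro x hx h
      have hx' : x ∈ chS K (r + 1) (p - 1) j := by
        exact sup_le (sup_le (map_chS_le' p j) (chI_le I _ j)) (chI_le _ _ j) hx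
      funext U
      by_cases hU : U.card = p - 1
      · have hv := (mem_suppOn.1 hx').1 U hU
        unfold sDeg at hv
        split_ifs at hv
        · refine eq_zero_of_zc hv fun k hk => ?_
          by_cases hl : Fin.last r ∈ U
          · have h1 := congrFun (h (k + 1) (by omega)) U
            rw [chc_apply, if_pos hl, if_neg (Nat.succ_ne_zero k)] at h1
            simpa using h1
          · have h1 := congrFun (h k (by omega)) U
            rw [chc_apply, if_neg hl] at h1
            simpa using h1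
        · rw [Submodule.mem_bot] at hv
          exact hv
      · exact (mem_suppOn.1 hx').2 U hU
    · rintro k _ ⟨f, hf, rfl⟩
      exact ⟨chc k f, chc_mem_chS k hf, (chc_dS k f).symm⟩
    · rintro k _ ⟨f, hf, rfl⟩
      obtain ⟨hf1, hf2⟩ := mem_suppOn.1 hf
      have hw : ∀ U : Finset (Fin (r + 1)), ∃ x, x ∈ (if U.card = p - 1 then iDeg I (p - 1) j else ⊥) ∧
          (∀ l < k, (if Fin.last r ∈ U then (if l = 0 then 0 else zc (l - 1) x) else zc l x) = 0) ∧
          (if Fin.last r ∈ U then (if k = 0 then 0 else zc (k - 1) x) else zc k x) = chc k f U := by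
        intro U
        by_cases hU : U.card = p - 1
        · rw [if_pos hU, chc_apply]
          have hv := hf1 U hU
          unfold iDeg at hv ⊢
          split_ifs at hv ⊢ with hpj hl hk
          · exact ⟨0, zero_mem _, fun l _ => by simp, by simp⟩
          · obtain ⟨x, hx, hxk⟩ := (map_below_in hI _ (k - 1)).le
              ⟨zc (k - 1) (f U), mem_below.2 ⟨⟨zGraded_in I _ hv.1 _, zc_homogeneous _ hv.2⟩,
                fun l hl => by rw [zc_zc, if_neg hl.ne]⟩, rfl⟩
            rw [zc_zc, if_pos rfl] at hxk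
            refine ⟨x, (mem_below.1 hx).1, fun l hl' => ?_, hxk⟩
            split_ifs
            · rfl
            · exact (mem_below.1 hx).2 _ (by omega)
          · obtain ⟨x, hx, hxk⟩ := (map_below_in hI _ k).le
              ⟨zc k (f U), mem_below.2 ⟨⟨zGraded_in I _ hv.1 _, zc_homogeneous _ hv.2⟩,
                fun l hl => by rw [zc_zc, if_neg hl.ne]⟩, rfl⟩
            rw [zc_zc, if_pos rfl] at hxk
            exact ⟨x, (mem_below.1 hx).1, (mem_below.1 hx).2, hxk⟩
          all_goals
            rw [Submodule.mem_bot] at hv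
            exact ⟨0, zero_mem _, fun l _ => by simp, by simp [hv]⟩
        · rw [if_neg hU, chc_apply, hf2 U hU]
          exact ⟨0, zero_mem _, fun l _ => by simp, by simp⟩
      choose g hg1 hg2 hg3 using hw
      refine ⟨g, mem_below.2 ⟨Submodule.mem_pi.2 fun U _ => hg1 U, fun l hl => funext fun U => ?_⟩,
        funext fun U => ?_⟩
      · rw [chc_apply]; exact hg2 U l hl
      · rw [chc_apply]; exact hg3 U
  have h1 := betti_rank I p j
  have h2 := betti_rank (inIdeal I) p j
  have h3 := hrk p
  have h4 := hrk (p + 1)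
  have h5 := hdim p
  omega

end Poly

end Vale.P200.Many
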