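import Vale.Agent.P200.Many.Pair
import Vale.Agent.P200.Many.Section
import Vale.Agent.P200.Many.Stable

/-!
P200, any number of variables: the ranks on a pair of ideals under stabilisation.
-/

namespace Vale.P200.Many

open MvPolynomial Module Finset Vale.P200.Ext Vale.P200.Betti

universe u

variable {K : Type u} [Field K] {r : ℕ}

lemma finrank_chI_in {I : Ideal (MvPolynomial (Fin (r + 1)) K)} (hI : Closed I) (p j : ℕ) :
    finrank K ↥(chI (inIdeal I) p j) = finrank K ↥(chI I p j) := by
  rw [chI, chI, finrank_suppOn, finrank_suppOn]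
  congr 1
  by_cases h : p ≤ j
  · rw [iDeg, iDeg, if_pos h, if_pos h]; exact finrank_grade_in hI _
  · rw [iDeg, iDeg, if_neg h, if_neg h]

/-- A layer of a chain with values in the lowest layers lifts. -/
lemma exists_lift_in {I : Ideal (MvPolynomial (Fin (r + 1)) K)} (hI : Closed I) {p j : ℕ} (k : ℕ)
    {f : Finset (Fin (r + 1)) → MvPolynomial (Fin (r + 1)) K} (hf : f ∈ chI (inIdeal I) p j) :
    ∃ g ∈ chI I p j, (∀ l < k, chc l g = 0) ∧ chc k g = chc k f := by
  classical
  obtain ⟨hf1, hf2⟩ := mem_suppOn.1 hf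
  have hw : ∀ U : Finset (Fin (r + 1)), ∃ x, x ∈ (if U.card = p then iDeg I p j else ⊥) ∧
      (∀ l < k, (if Fin.last r ∈ U then (if l = 0 then 0 else zc (l - 1) x) else zc l x) = 0) ∧
      (if Fin.last r ∈ U then (if k = 0 then 0 else zc (k - 1) x) else zc k x) = chc k f U := by
    intro U
    by_cases hU : U.card = p
    · rw [if_pos hU, chc_apply]
      have hv := hf1 U hU
      unfold iDeg at hv ⊢
      split_ifs at hv ⊢ with hpj hl hk
      · exact ⟨0, zero_mem _, fun l _ => by simp, by simp⟩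
      · obtain ⟨x, hx, hxk⟩ := (map_below_in hI _ (k - 1)).le
          ⟨zc (k - 1) (f U), mem_below.2 ⟨⟨zGraded_in I _ hv.1 _, zc_homogeneous _ hv.2⟩,
            fun l hl => by rw [zc_zc, if_neg hl.ne]⟩, rfl⟩
        rw [zc_zc, if_pos rfl] at hxk
        refine ⟨x, (mem_below.1 hx).1, fun l hl' => ?_, hxk⟩
        split_ifs
        · rfl
        · exact (mem_below.1 hx).2 _ (by omega)
      · obtain ⟨x, hx, hxk⟩ := (map_below_in hI _ k).le
          ⟨zc k (f U), mem_below.2 ⟨⟨zGraded_in I _ hv.1 _, zc_homogeneous _ hv.2⟩,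
            fun l hl => by rw [zc_zc, if_neg hl.ne]⟩, rfl⟩
        rw [zc_zc, if_pos rfl] at hxk
        exact ⟨x, (mem_below.1 hx).1, (mem_below.1 hx).2, hxk⟩
      all_goals
        rw [Submodule.mem_bot] at hv
        exact ⟨0, zero_mem _, fun l _ => by simp, by simp [hv]⟩
    · rw [if_neg hU, chc_apply, hf2 U hU]
      exact ⟨0, zero_mem _, fun l _ => by simp, by simp⟩
  choose g hg1 hg2 hg3 using hw
  exact ⟨g, Submodule.mem_pi.2 fun U _ => hg1 U,
    fun l hl => funext fun U => by rw [chc_apply]; exact hg2 U l hl,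
    funext fun U => by rw [chc_apply]; exact hg3 U⟩

/-- The ranks do not rise on passing to the lowest layers. -/
theorem rkP_in_le {G L : Ideal (MvPolynomial (Fin (r + 1)) K)} (hG : Closed G) (hL : Closed L)
    (p j : ℕ) : rkP (inIdeal G) (inIdeal L) p j ≤ rkP G L p j := by
  classical
  unfold rkP
  rw [finrank_chI_in hG]
  refine Nat.sub_le_sub_right ?_ _
  set D := (chI L p j).map (dS K (r + 1)) ⊔ chI G (p - 1) j
  set D' := (chI (inIdeal L) p j).map (dS K (r + 1)) ⊔ chI (inIdeal G) (p - 1) j with hD'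
  have hle : ∀ M N : Ideal (MvPolynomial (Fin (r + 1)) K),
      (chI M p j).map (dS K (r + 1)) ⊔ chI N (p - 1) j ≤ chS K (r + 1) (p - 1) j :=
    fun M N => sup_le (map_chI_le' M p j) (chI_le N _ j)
  have : FiniteDimensional K ↥D := Submodule.finiteDimensional_of_le (hle L G)
  have : FiniteDimensional K ↥D' := Submodule.finiteDimensional_of_le (hle _ _)
  suffices h : finrank K ↥(⊥ ⊔ D') ≤ finrank K ↥(⊥ ⊔ D) by rwa [bot_sup_eq, bot_sup_eq] at h
  refine finrank_sup_layers_le chc chc_chc (j + 2) ⊥ D D' ?_ ?_ ?_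
  · intro x hx h
    have hx' : x ∈ chS K (r + 1) (p - 1) j := sup_le (sup_le bot_le (hle L G)) (hle _ _) hx
    funext U
    by_cases hU : U.card = p - 1
    · have hv := (mem_suppOn.1 hx').1 U hU
      unfold sDeg at hv
      split_ifs at hv
      · refine eq_zero_of_zc hv fun k hk => ?_
        by_cases hl : Fin.last r ∈ U
        · have h1 := congrFun (h (k + 1) (by omega)) U
          rw [chc_apply, if_pos hl, if_neg (Nat.succ_ne_zero k)] at h1
          simpa using h1
        · have h1 := congrFun (h k (by omega)) U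
          rw [chc_apply, if_neg hl] at h1
          simpa using h1
      · rw [Submodule.mem_bot] at hv
        exact hv
    · exact (mem_suppOn.1 hx').2 U hU
  · intro k x hx
    rw [(Submodule.mem_bot K).1 hx, map_zero]; exact zero_mem _
  · intro k
    rw [hD', Submodule.map_sup]
    refine sup_le ?_ ?_
    · rintro _ ⟨_, ⟨f, hf, rfl⟩, rfl⟩
      obtain ⟨g, hg, hg0, hgk⟩ := exists_lift_in hL k hf
      refine ⟨dS K (r + 1) g, mem_below.2 ⟨Submodule.mem_sup_left ⟨g, hg, rfl⟩, fun l hl => ?_⟩, ?_⟩
      · rw [chc_dS, hg0 l hl, map_zero]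
      · rw [chc_dS, hgk, ← chc_dS]
    · rintro _ ⟨f, hf, rfl⟩
      obtain ⟨g, hg, hg0, hgk⟩ := exists_lift_in hG k hf
      exact ⟨g, mem_below.2 ⟨Submodule.mem_sup_right hg, hg0⟩, hgk⟩

/-- The ranks are unchanged by the distraction. -/
theorem rkP_dist (i : Fin r) {G L : Ideal (MvPolynomial (Fin (r + 1)) K)} (hG : Closed G)
    (hzG : ZGraded G) (hL : Closed L) (hzL : ZGraded L) (p j : ℕ) :
    rkP (distIdeal i hzG) (distIdeal i hzL) p j = rkP G L p j := by
  obtain ⟨Ψ, hinj, hdΨ, -, hD⟩ := exists_twist (Fin.last r) (dist i) (zc 0)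
    (Pi.single i.castSucc (1 : K)) (Pi.single_eq_of_ne (Fin.castSucc_ne_last i).symm _)
    (dist_injective i) (dist_homogeneous i) (fun d q hq => zc_homogeneous 0 hq)
    (fun k hk q => by obtain ⟨k, rfl⟩ := Fin.exists_castSucc_eq.2 hk; exact dist_X_mul i k q)
    (fun k hk q => by obtain ⟨k, rfl⟩ := Fin.exists_castSucc_eq.2 hk; exact zc_X_mul 0 k q)
    (fun q => by
      rw [Finset.sum_eq_single i.castSucc (fun k _ hk => by rw [Pi.single_eq_of_ne hk, zero_smul])
        (by simp), Pi.single_eq_same, one_smul]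
      exact dist_z_mul i q) j
  have hmap : ∀ {M : Ideal (MvPolynomial (Fin (r + 1)) K)}, Closed M → ∀ (hz : ZGraded M) q,
      (chI M q j).map Ψ = chI (distIdeal i hz) q j := fun {M} hM hz q =>
    hD M _ (fun x hx => hz x hx 0) (fun x hx => (⟨x, hx, rfl⟩ : dist i x ∈ dist i '' M)) (fun d => by
      rw [grade_dist i hM hz, ← (Submodule.equivMapOfInjective _ (dist_injective i) _).finrank_eq]) q
  have e : ((chI L p j).map (dS K (r + 1)) ⊔ chI G (p - 1) j).map Ψ =
      (chI (distIdeal i hzL) p j).map (dS K (r + 1)) ⊔ chI (distIdeal i hzG) (p - 1) j := by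
    rw [Submodule.map_sup, hmap hG hzG, ← hmap hL hzL, ← Submodule.map_comp, ← Submodule.map_comp]
    congr 2
    exact LinearMap.ext fun f => (hdΨ f).symm
  rw [rkP, rkP, ← e, ← hmap hG hzG, ← (Submodule.equivMapOfInjective Ψ hinj _).finrank_eq,
    ← (Submodule.equivMapOfInjective Ψ hinj _).finrank_eq]

/-- The extension of an ideal of the section. -/
noncomputable def extend (B : Ideal (MvPolynomial (Fin r) K)) :
    Ideal (MvPolynomial (Fin (r + 1)) K) :=
  B.map (rename Fin.castSucc)

/-- A linear map commuting with the first variables keeps an extended ideal. -/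
lemma map_extend_mem {B : Ideal (MvPolynomial (Fin r) K)}
    (ψ : MvPolynomial (Fin (r + 1)) K →ₗ[K] MvPolynomial (Fin (r + 1)) K)
    (hψ : ∀ (k : Fin r) q, ψ (X k.castSucc * q) = X k.castSucc * ψ q)
    {q : MvPolynomial (Fin (r + 1)) K} (hq : q ∈ extend B) : ψ q ∈ extend B := by
  have hren : ∀ (u : MvPolynomial (Fin r) K) x,
      ψ (rename Fin.castSucc u * x) = rename Fin.castSucc u * ψ x := by
    intro u
    induction u using MvPolynomial.induction_on with
    | C s => intro x; rw [rename_C, C_mul', C_mul', map_smul]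
    | add a b ha hb => intro x; rw [map_add, add_mul, add_mul, map_add, ha, hb]
    | mul_X a k ha => intro x; rw [map_mul (rename Fin.castSucc), rename_X, mul_assoc, ha, hψ, mul_assoc]
  induction hq using Submodule.span_induction generalizing ψ with
  | mem x hx =>
    obtain ⟨u, hu, rfl⟩ := hx
    rw [← mul_one (rename Fin.castSucc u), hren]
    exact Ideal.mul_mem_right _ _ (Ideal.mem_map_of_mem _ hu)
  | zero => rw [map_zero]; exact zero_mem _
  | add x y _ _ hx hy => rw [map_add]; exact add_mem (hx ψ hψ hren) (hy ψ hψ hren)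
  | smul a x _ hx =>
    rw [smul_eq_mul]
    refine hx (ψ.comp (LinearMap.mulLeft K a)) (fun k q => ?_) (fun u q => ?_)
    · show ψ (a * (X k.castSucc * q)) = X k.castSucc * ψ (a * q)
      rw [mul_left_comm, hψ]
    · show ψ (a * (rename Fin.castSucc u * q)) = rename Fin.castSucc u * ψ (a * q)
      rw [mul_left_comm, hren]

lemma zGraded_extend (B : Ideal (MvPolynomial (Fin r) K)) : ZGraded (extend B) :=
  fun _ hp k => map_extend_mem (zc k) (fun i q => zc_X_mul k i q) hp

lemma killLast_extend (B : Ideal (MvPolynomial (Fin r) K)) :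
    (extend B).map killLast = B := by
  apply le_antisymm
  · rw [Ideal.map_le_iff_le_comap, extend, Ideal.map_le_iff_le_comap]
    intro u hu
    rw [Ideal.mem_comap, Ideal.mem_comap, killLast_rename]
    exact hu
  · intro u hu
    rw [← killLast_rename u]
    exact Ideal.mem_map_of_mem _ (Ideal.mem_map_of_mem _ hu)

lemma nzd_extend (B : Ideal (MvPolynomial (Fin r) K)) :
    NZD (extend B) (X (Fin.last r)) := fun p hp => by
  rw [← down_z_mul p]
  exact map_extend_mem down (fun i q => down_X_mul i q) hp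

lemma zc_down_mul {x : MvPolynomial (Fin (r + 1)) K} (h : zc 0 x = 0) :
    X (Fin.last r) * down x = x := by
  rw [z_mul_down, h, sub_zero]

/-- With the last variable regular, the lowest layers of an ideal are its extended section. -/
theorem inIdeal_of_nzd {G : Ideal (MvPolynomial (Fin (r + 1)) K)} (hG : Closed G)
    (hn : NZD G (X (Fin.last r))) : inIdeal G = extend (G.map killLast) := by
  have key : ∀ (k : ℕ) x, x ∈ G → (∀ l < k, zc l x = 0) → zc k x ∈ extend (G.map killLast) := by
    intro k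
    induction k with
    | zero =>
      intro x hx _
      rw [← rename_killLast]
      exact Ideal.mem_map_of_mem _ (Ideal.mem_map_of_mem _ hx)
    | succ k ih =>
      intro x hx hlow
      have h0 := zc_down_mul (hlow 0 (Nat.succ_pos _))
      rw [← h0, zc_z_mul, if_neg (Nat.succ_ne_zero k), Nat.add_sub_cancel]
      refine Ideal.mul_mem_left _ _ (ih _ (hn _ (by rwa [h0])) fun l hl => ?_)
      rw [zc_down, hlow _ (Nat.succ_lt_succ hl), map_zero]
  apply le_antisymm
  · intro q hq
    rw [← sum_homogeneousComponent q]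
    refine Ideal.sum_mem _ fun d _ => ?_
    have hqd := closed_in hG q hq d
    rw [← sum_zc (homogeneousComponent_isHomogeneous d q)]
    refine Ideal.sum_mem _ fun k _ => ?_
    obtain ⟨x, hx, hx0, hxk⟩ := mem_inIdeal.1 hqd k
    rw [← hxk]
    exact key k x hx hx0
  · rw [extend, Ideal.map_le_iff_le_comap, Ideal.map_le_iff_le_comap]
    intro x hx
    rw [Ideal.mem_comap, Ideal.mem_comap, rename_killLast]
    exact zc_mem_in hx fun l hl => absurd hl (Nat.not_lt_zero l)

/-- A pair becomes stable in the last variable without a rise of the ranks. -/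
theorem exists_stable_pair {G L : Ideal (MvPolynomial (Fin (r + 1)) K)} (hG : Closed G)
    (hL : Closed L) (hle : G ≤ L) (hn : NZD G (X (Fin.last r))) (D : ℕ) :
    ∃ L3 : Ideal (MvPolynomial (Fin (r + 1)) K), Closed L3 ∧ ZGraded L3 ∧
      extend (G.map killLast) ≤ L3 ∧ Closed (extend (G.map killLast)) ∧
      (∀ d, finrank K ↥(grade L3 d) = finrank K ↥(grade L d)) ∧
      (∀ d, finrank K ↥(grade (extend (G.map killLast)) d) = finrank K ↥(grade G d)) ∧
      (∀ p j, rkP (extend (G.map killLast)) L3 p j ≤ rkP G L p j) ∧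
      ∀ i : Fin r, ∀ e ≤ D, ∀ q, q.IsHomogeneous e → X (Fin.last r) * q ∈ L3 →
        X i.castSucc * q ∈ L3 := by
  set E := extend (G.map killLast)
  have hin : inIdeal G = E := inIdeal_of_nzd hG hn
  have hE : Closed E := hin ▸ closed_in hG
  have hzE : ZGraded E := zGraded_extend _
  have hEd : ∀ d, finrank K ↥(grade E d) = finrank K ↥(grade G d) := fun d => by
    rw [← hin]; exact finrank_grade_in hG d
  have hdist : ∀ i : Fin r, ∀ q ∈ E, dist i q ∈ E := fun i q hq =>
    map_extend_mem (dist i) (fun k x => dist_X_mul i k x) hq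
  have hstep : ∀ (i : Fin r) (M : Ideal (MvPolynomial (Fin (r + 1)) K)), Closed M →
      ∀ (hz : ZGraded M), (E ≤ M ∧ ∀ p j, rkP E M p j ≤ rkP G L p j) →
      E ≤ inIdeal (distIdeal i hz) ∧
        ∀ p j, rkP E (inIdeal (distIdeal i hz)) p j ≤ rkP G L p j := by
    intro i M hM hz hPM
    have hgr : ∀ d, grade (distIdeal i hzE) d = grade E d := fun d => by
      have := finiteDimensional_grade E d
      refine Submodule.eq_of_le_of_finrank_eq ?_ ?_
      · rw [grade_dist i hE hzE]
        rintro _ ⟨x, hx, rfl⟩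
        exact ⟨hdist i x hx.1, dist_homogeneous i d x hx.2⟩
      · rw [grade_dist i hE hzE,
          ← (Submodule.equivMapOfInjective _ (dist_injective i) _).finrank_eq]
    refine ⟨fun q hq k => ?_, fun p j => ?_⟩
    · refine ⟨zc k q, ?_, fun l hl => by rw [zc_zc, if_neg hl.ne], by rw [zc_zc, if_pos rfl]⟩
      rw [← sum_homogeneousComponent (zc k q)]
      refine Ideal.sum_mem _ fun d _ => ?_
      obtain ⟨x, hx, hxe⟩ := (grade_dist i hE hzE d).le
        ((hgr d).ge ⟨hE _ (hzE q hq k) d, homogeneousComponent_isHomogeneous _ _⟩)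
      exact ⟨x, hPM.1 hx.1, hxe⟩
    · have e1 : ∀ d, grade (inIdeal (distIdeal i hzE)) d = grade E d := fun d => by
        have := finiteDimensional_grade (inIdeal (distIdeal i hzE)) d
        have hsub : grade E d ≤ grade (inIdeal (distIdeal i hzE)) d := by
          intro x hx
          refine ⟨mem_inIdeal.2 fun k => ?_, hx.2⟩
          refine ⟨zc k x, ?_, fun l hl => by rw [zc_zc, if_neg hl.ne], by rw [zc_zc, if_pos rfl]⟩
          exact ((hgr d).ge ⟨hzE x hx.1 k, zc_homogeneous k hx.2⟩).1
        exact (Submodule.eq_of_le_of_finrank_eq hsub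
          (by rw [finrank_grade_in (closed_dist i hE hzE), hgr])).symm
      calc rkP E (inIdeal (distIdeal i hz)) p j
          = rkP (inIdeal (distIdeal i hzE)) (inIdeal (distIdeal i hz)) p j :=
            rkP_congr (fun _ => rfl) (fun _ _ => (e1 _).symm)
        _ ≤ rkP (distIdeal i hzE) (distIdeal i hz) p j :=
            rkP_in_le (closed_dist i hE hzE) (closed_dist i hM hz) p j
        _ = rkP E M p j := rkP_dist i hE hzE hM hz p j
        _ ≤ rkP G L p j := hPM.2 p j
  obtain ⟨L3, h1, h2, ⟨h3, h4⟩, h5, -, -, h6⟩ := exists_stable_of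
    (fun M => E ≤ M ∧ ∀ p j, rkP E M p j ≤ rkP G L p j) hstep D (closed_in hL) (zGraded_in L)
    ⟨fun q hq k => by
      rw [← hin] at hq
      obtain ⟨x, hx, hx0, hxk⟩ := mem_inIdeal.1 hq k
      exact ⟨x, hle hx, hx0, hxk⟩, fun p j => by rw [← hin]; exact rkP_in_le hG hL p j⟩
  exact ⟨L3, h1, h2, h3, hE, fun d => (h5 d).trans (finrank_grade_in hL d), hEd, h4, h6⟩

end Vale.P200.Many
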