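import Vale.Agent.P200.Betti.Final
import Vale.Agent.P200.Many.Lex
import Vale.Agent.P200.Many.PairStable
import Vale.Agent.P200.Many.Slices

/-!
P200, one more form of large degree: what is seen below that degree.
-/

namespace Vale.P200.Many

open MvPolynomial Module Finset Vale.P200.Ext Vale.P200.Betti

universe u

variable {K : Type u} [Field K]

/-- A Betti number depends on two degrees of the ideal. -/
lemma betti_eq_of_grade {n : ℕ} {I I' : Ideal (MvPolynomial (Fin n) K)} {p j : ℕ}
    (h : ∀ e, e + p = j ∨ e + p = j + 1 → grade I e = grade I' e) :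
    betti I p j = betti I' p j := by
  have h1 : rk I p j = rk I' p j := by
    rw [rk_eq_rkP, rk_eq_rkP]
    exact rkP_congr (fun _ => rfl) fun _ hp => h _ (by omega)
  have h2 : rk I (p + 1) j = rk I' (p + 1) j := by
    rw [rk_eq_rkP, rk_eq_rkP]
    exact rkP_congr (fun _ => rfl) fun _ hp => h _ (by omega)
  have h3 : chI I p j = chI I' p j := chI_congr fun hp => h _ (by omega)
  have a1 := betti_rank I p j
  have a2 := betti_rank I' p j
  rw [h1, h2, h3] at a1
  omega

/-- Adding a form leaves the rank in the degree of that form unchanged beyond the first step. -/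
theorem rkP_add_form {n : ℕ} {G L : Ideal (MvPolynomial (Fin n) K)} {f : MvPolynomial (Fin n) K}
    (hG : Closed G) (hn : NZD G f) (hlin : grade G 1 = ⊥) {p j : ℕ} (hp : 2 ≤ p)
    (hf : f.IsHomogeneous (j - p + 1)) :
    rkP (G ⊔ Ideal.span {f}) L p j = rkP G L p j := by
  classical
  rcases Nat.lt_or_ge j p with hj | hj
  · rw [rkP_eq_zero (Or.inr hj), rkP_eq_zero (Or.inr hj)]
  set G' := G ⊔ Ideal.span {f}
  set D := (chI L p j).map (dS K n)
  set H := chI G (p - 1) j
  set H' := chI G' (p - 1) j
  have hjp : j - (p - 1) = j - p + 1 := by omega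
  have hHH : H ≤ H' := chI_mono fun _ => inf_le_inf_right _ fun x hx => Submodule.mem_sup_left hx
  have key : (D ⊔ H) ⊓ H' ≤ H := by
    rintro x ⟨hx, hx'⟩
    obtain ⟨y, hy, γ, hγ, rfl⟩ := Submodule.mem_sup.1 hx
    have hg : ∀ U : Finset (Fin n), ∃ c : K, (y + γ) U - c • f ∈ G := by
      intro U
      by_cases hU : U.card = p - 1
      · have hv := (mem_suppOn.1 hx').1 U hU
        rw [iDeg, if_pos (by omega), hjp] at hv
        obtain ⟨g, hg, w, hw⟩ := mem_sup_span.1 hv.1
        refine ⟨constantCoeff w, ?_⟩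
        have he := congrArg (homogeneousComponent (j - p + 1)) hw
        rw [homogeneousComponent_eq_self hv.2, map_add, hcomp_mul hf, if_pos le_rfl,
          Nat.sub_self, homogeneousComponent_zero] at he
        rw [← he, smul_eq_C_mul, constantCoeff_eq, add_sub_cancel_right]
        exact hG g hg _
      · exact ⟨0, by rw [(mem_suppOn.1 hx').2 U hU]; simp⟩
    choose c hc using hg
    have hz : ∀ W : Finset (Fin n), W.card = p - 1 → c W = 0 := by
      intro W hW
      obtain ⟨i, hi⟩ : W.Nonempty := card_pos.1 (by omega)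
      set U := W.erase i
      have hy0 : dS K n y = 0 := by
        obtain ⟨v, -, rfl⟩ := hy
        exact kd_kd _ _
      have hd : dS K n (y + γ) U ∈ G := by
        rw [map_add, hy0, zero_add, dS, kd_apply]
        exact G.sum_mem fun k _ => G.mul_mem_left _ (value_mem_of_chI hγ _)
      set l : MvPolynomial (Fin n) K :=
        ∑ k ∈ Uᶜ, sgn (MvPolynomial (Fin n) K) k U * X k * C (c (insert k U))
      have hl : f * l ∈ G := by
        have h1 : dS K n (y + γ) U - f * l ∈ G := by
          rw [dS, kd_apply, Finset.mul_sum, ← Finset.sum_sub_distrib]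
          refine G.sum_mem fun k _ => ?_
          rw [show sgn (MvPolynomial (Fin n) K) k U * X k * (y + γ) (insert k U) -
              f * (sgn (MvPolynomial (Fin n) K) k U * X k * C (c (insert k U))) =
              sgn (MvPolynomial (Fin n) K) k U * X k *
                ((y + γ) (insert k U) - c (insert k U) • f) by rw [smul_eq_C_mul]; ring]
          exact G.mul_mem_left _ (hc _)
        simpa using G.sub_mem hd h1
      have hl1 : l.IsHomogeneous 1 := IsHomogeneous.sum _ _ _ fun k _ => by
        have h := ((isHomogeneous_X K k).mul (isHomogeneous_C (Fin n) (c (insert k U))))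
        rw [sgn]
        rcases neg_one_pow_eq_or (MvPolynomial (Fin n) K) (U.filter (· < k)).card with h1 | h1
        · simpa [h1] using h
        · simpa [h1] using h.neg
      have hl0 : l = 0 := by
        have : l ∈ grade G 1 := ⟨hn _ hl, hl1⟩
        rwa [hlin, Submodule.mem_bot] at this
      have hco := congrArg (coeff (Finsupp.single i 1)) hl0
      rw [coeff_sum, coeff_zero, Finset.sum_eq_single i] at hco
      · rw [show insert i U = W from insert_erase hi] at hco
        rw [sgn] at hco
        rcases neg_one_pow_eq_or (MvPolynomial (Fin n) K) (U.filter (· < i)).card with h1 | h1 <;>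
          simpa [h1, mul_comm _ (C (c W)), coeff_C_mul] using hco
      · intro k _ hk
        rw [mul_comm (sgn _ k U * X k), coeff_C_mul]
        have : coeff (Finsupp.single i 1) (sgn (MvPolynomial (Fin n) K) k U * X k) = 0 := by
          rw [sgn]
          rcases neg_one_pow_eq_or (MvPolynomial (Fin n) K) (U.filter (· < k)).card with h1 | h1 <;>
            simp [h1, coeff_X, Finsupp.single_left_inj, hk]
        rw [this, mul_zero]
      · simp [U]
    refine mem_chI_of (chI_le _ _ _ hx') fun U => ?_
    by_cases hU : U.card = p - 1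
    · have := hc U
      rwa [hz U hU, zero_smul, sub_zero] at this
    · rw [(mem_suppOn.1 hx').2 U hU]; exact zero_mem _
  have : FiniteDimensional K ↥D := Module.Finite.map _ _
  have h1 := rkP_add G' L p j
  have h2 := rkP_add G L p j
  change _ + finrank K ↥H' = finrank K ↥(D ⊔ H') at h1
  change _ + finrank K ↥H = finrank K ↥(D ⊔ H) at h2
  have h3 := Submodule.finrank_sup_add_finrank_inf_eq (D ⊔ H) H'
  rw [le_antisymm key (le_inf le_sup_right hHH), sup_assoc, sup_eq_right.2 hHH] at h3
  omega

lemma chI_zero {n : ℕ} (G : Ideal (MvPolynomial (Fin n) K)) (j : ℕ) :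
    chI G 0 j = suppOn K 0 (grade G j) := by
  rw [chI, iDeg, if_pos (Nat.zero_le j), Nat.sub_zero]

/-- The first rank from above. -/
lemma rkP_one_le {n : ℕ} {G L B : Ideal (MvPolynomial (Fin n) K)} {d : ℕ} (hG : G ≤ B)
    (hL : grade L d ≤ grade B d) :
    rkP G L 1 (d + 1) + finrank K ↥(grade G (d + 1)) ≤ finrank K ↥(grade B (d + 1)) := by
  have := finiteDimensional_grade B (d + 1)
  have := finiteDimensional_grade G (d + 1)
  have := finite_suppOn (n := n) 0 (grade B (d + 1))
  have h1 := rkP_add G L 1 (d + 1)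
  rw [show 1 - 1 = 0 from rfl, chI_zero, finrank_suppOn, Nat.choose_zero_right, one_mul] at h1
  have h2 : (chI L 1 (d + 1)).map (dS K n) ⊔ suppOn K 0 (grade G (d + 1)) ≤
      suppOn K 0 (grade B (d + 1)) := by
    refine sup_le ?_ (Submodule.pi_mono fun U _ => ?_)
    · rintro _ ⟨f, hf, rfl⟩
      refine mem_suppOn.2 ⟨fun U hU => ⟨?_, ?_⟩, fun U hU => dS_apply_zero (chI_le _ _ _ hf) (by omega)⟩
      · rw [dS, kd_apply]
        refine B.sum_mem fun i hi => B.mul_mem_left _ (hL ?_).1
        have := (mem_suppOn.1 hf).1 (insert i U)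
          (by rw [card_insert_of_notMem (mem_compl.1 hi), hU])
        rwa [iDeg, if_pos (by omega), Nat.add_sub_cancel] at this
      · have := (mem_suppOn.1 (map_chS_le 0 (d + 1) ⟨f, chI_le _ _ _ hf, rfl⟩)).1 U hU
        rwa [sDeg, if_pos (Nat.zero_le _), Nat.sub_zero] at this
    · split_ifs
      · exact inf_le_inf_right _ fun x hx => hG hx
      · exact le_rfl
  have h3 := Submodule.finrank_mono h2
  rw [finrank_suppOn, Nat.choose_zero_right, one_mul] at h3
  omega

/-- The first rank from below. -/
lemma rkP_one_ge {n : ℕ} {G L : Ideal (MvPolynomial (Fin n) K)} (hG : Closed G) (d : ℕ) :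
    finrank K ↥(grade (G ⊔ Ideal.span (grade L d : Set (MvPolynomial (Fin n) K))) (d + 1)) ≤
      rkP G L 1 (d + 1) + finrank K ↥(grade G (d + 1)) := by
  classical
  set B := G ⊔ Ideal.span (grade L d : Set (MvPolynomial (Fin n) K))
  have := finiteDimensional_grade B (d + 1)
  have := finiteDimensional_grade G (d + 1)
  have h1 := rkP_add G L 1 (d + 1)
  rw [show 1 - 1 = 0 from rfl, chI_zero, finrank_suppOn, Nat.choose_zero_right, one_mul] at h1
  set D := (chI L 1 (d + 1)).map (dS K n) ⊔ suppOn K 0 (grade G (d + 1))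
  have h2 : suppOn K 0 (grade B (d + 1)) ≤ D := by
    intro x hx
    obtain ⟨hx1, hx2⟩ := mem_suppOn.1 hx
    obtain ⟨hxB, hxd⟩ := hx1 ∅ rfl
    obtain ⟨g, hg, b, hb, hgb⟩ := Submodule.mem_sup.1 hxB
    obtain ⟨N, w, y, hsum⟩ := Submodule.mem_span_set'.1 hb
    let v : Finset (Fin n) → MvPolynomial (Fin n) K := fun U =>
      ∑ i, if U = {i} then ∑ l, coeff (Finsupp.single i 1) (w l) • (y l : MvPolynomial (Fin n) K) else 0
    have hv : v ∈ chI L 1 (d + 1) := by
      refine mem_suppOn.2 ⟨fun U _ => ?_, fun U hU => ?_⟩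
      · rw [iDeg, if_pos (by omega), Nat.add_sub_cancel]
        refine Submodule.sum_mem _ fun i _ => ?_
        split_ifs
        · exact Submodule.sum_mem _ fun l _ => Submodule.smul_mem _ _ (y l).2
        · exact zero_mem _
      · refine Finset.sum_eq_zero fun i _ => if_neg ?_
        rintro rfl
        simp at hU
    have hw1 : ∀ l, homogeneousComponent 1 (w l) = ∑ i, coeff (Finsupp.single i 1) (w l) • X i := by
      intro l
      ext m
      rw [coeff_homogeneousComponent, coeff_sum]
      simp only [coeff_smul, coeff_X, smul_eq_mul, mul_ite, mul_one, mul_zero]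
      split_ifs with hm
      · obtain ⟨i, rfl⟩ : ∃ i, m = Finsupp.single i 1 := by
          rw [Finsupp.degree_eq_sum] at hm
          obtain ⟨i, hi⟩ : ∃ i, m i ≠ 0 := by
            by_contra hc
            simp only [not_exists, not_not] at hc
            simp [hc] at hm
          refine ⟨i, Finsupp.ext fun k => ?_⟩
          rw [← Finset.add_sum_erase _ _ (Finset.mem_univ i)] at hm
          by_cases hk : k = i
          · subst hk; simp; omega
          · have : m k ≤ ∑ l ∈ Finset.univ.erase i, m l :=
              Finset.single_le_sum (fun l _ => Nat.zero_le _) (by simp [hk])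
            simp [hk]
            omega
        simp [Finsupp.single_left_inj]
      · rw [Finset.sum_eq_zero]
        intro i _
        rw [if_neg]
        rintro rfl
        simp at hm
    refine Submodule.mem_sup.2 ⟨dS K n v, ⟨v, hv, rfl⟩, x - dS K n v, ?_, add_sub_cancel _ _⟩
    refine mem_suppOn.2 ⟨fun U hU => ⟨?_, ?_⟩, fun U hU => ?_⟩
    · obtain rfl : U = ∅ := card_eq_zero.1 hU
      have hd : dS K n v ∅ = homogeneousComponent (d + 1) b := by
        rw [dS, kd_apply, compl_empty, ← hsum, map_sum]
        simp only [smul_eq_mul, hcomp_mul (y _).2.2, Nat.le_add_right, if_true,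
          Nat.add_sub_cancel_left, hw1, Finset.sum_mul]
        rw [Finset.sum_comm]
        refine Finset.sum_congr rfl fun i _ => ?_
        rw [show insert i (∅ : Finset (Fin n)) = {i} from rfl]
        simp only [v, Finset.singleton_inj]
        rw [Finset.sum_ite_eq, if_pos (Finset.mem_univ i), Finset.mul_sum]
        refine Finset.sum_congr rfl fun l _ => ?_
        simp [sgn, smul_eq_C_mul]
        ring
      rw [Pi.sub_apply, hd, ← homogeneousComponent_eq_self hxd, ← hgb, map_add, add_sub_cancel_right]
      exact hG g hg _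
    · refine Submodule.sub_mem _ (hx1 U hU).2 ?_
      have := (mem_suppOn.1 (map_chS_le 0 (d + 1) ⟨v, chI_le _ _ _ hv, rfl⟩)).1 U hU
      rwa [sDeg, if_pos (Nat.zero_le _), Nat.sub_zero] at this
    · rw [Pi.sub_apply, hx2 U hU, dS_apply_zero (chI_le _ _ _ hv) (by omega), sub_zero]
  have := finite_suppOn (n := n) 0 (grade G (d + 1))
  have : FiniteDimensional K ↥((chI L 1 (d + 1)).map (dS K n)) := Module.Finite.map _ _
  have h3 := Submodule.finrank_mono h2
  rw [finrank_suppOn, Nat.choose_zero_right, one_mul] at h3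
  omega

section Powers

variable {r : ℕ}

lemma outN_low {a : Fin (r + 1) → ℕ} {d : ℕ} (hd : d < a (Fin.last r)) {m : Fin (r + 1) →₀ ℕ}
    (hm : m.degree = d) :
    OutN le_rfl a m ↔ OutN r.le_succ (Fin.init a) m := by
  refine ⟨fun h i => h i.castSucc, fun h i => ?_⟩
  induction i using Fin.lastCases with
  | last =>
    have := Finsupp.le_degree (Fin.last r) m
    simp
    omega
  | cast i => exact h i

lemma grade_powers_low {a : Fin (r + 1) → ℕ} {d : ℕ} (hd : d < a (Fin.last r)) :
    grade (powersIdeal K le_rfl a) d = grade (powersIdeal K r.le_succ (Fin.init a)) d := by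
  rw [powersIdeal_eq, powersIdeal_eq, grade_restrictSupportIdeal, grade_restrictSupportIdeal]
  congr 1
  ext m
  exact and_congr_right fun hm => not_congr (outN_low hd hm)

lemma lpSet_low {a : Fin (r + 1) → ℕ} {d : ℕ} (hd : d < a (Fin.last r)) (q : ℕ) :
    lpSet le_rfl a d q = lpSet r.le_succ (Fin.init a) d q := by
  have e1 : {m : Fin (r + 1) →₀ ℕ | m.degree = d ∧ ¬ OutN le_rfl a m} =
      {m | m.degree = d ∧ ¬ OutN r.le_succ (Fin.init a) m} := by
    ext m
    exact and_congr_right fun hm => not_congr (outN_low hd hm)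
  ext m
  refine and_congr_right fun hm => or_congr (not_congr (outN_low hd hm)) ?_
  rw [e1]
  have e2 : {m' : Fin (r + 1) →₀ ℕ | m'.degree = d ∧ toLex m < toLex m' ∧ OutN le_rfl a m'} =
      {m' | m'.degree = d ∧ toLex m < toLex m' ∧ OutN r.le_succ (Fin.init a) m'} := by
    ext m'
    exact and_congr_right fun hm' => and_congr_right fun _ => outN_low hd hm'
  rw [e2]

lemma lppSpaceN_low {a : Fin (r + 1) → ℕ} {d : ℕ} (hd : d < a (Fin.last r))
    (I : Ideal (MvPolynomial (Fin (r + 1)) K)) :
    lppSpaceN (powersIdeal K le_rfl a) I d =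
      lppSpaceN (powersIdeal K r.le_succ (Fin.init a)) I d := by
  rw [lppSpaceN_eq_restrict, lppSpaceN_eq_restrict, lpSet_low hd]

lemma powers_extend (a : Fin r → ℕ) :
    powersIdeal K r.le_succ a = extend (powersIdeal K le_rfl a) := by
  rw [extend, powersIdeal, powersIdeal, Ideal.map_span, ← Set.range_comp]
  congr 2
  funext i
  simp
  rfl

lemma powers_le_of_lpp {n c : ℕ} {h : c ≤ n} {a : Fin c → ℕ}
    {X' J : Ideal (MvPolynomial (Fin n) K)}
    (hJ : ∀ d, grade J d = lppSpaceN (powersIdeal K h a) X' d) : powersIdeal K h a ≤ J := by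
  refine Ideal.span_le.2 ?_
  rintro _ ⟨i, rfl⟩
  have hm : (X (Fin.castLE h i) : MvPolynomial (Fin n) K) ^ a i ∈ grade J (a i) := by
    rw [hJ, lppSpaceN, X_pow_eq_monomial]
    refine Submodule.subset_span ⟨_, ⟨Finsupp.degree_single _ _, Or.inl ?_⟩, rfl⟩
    rw [← X_pow_eq_monomial]
    exact Ideal.subset_span ⟨i, rfl⟩
  exact hm.1

/-- A closed lex-plus-powers ideal. -/
lemma exists_lpp_closed {n c : ℕ} {h : c ≤ n} {a : Fin c → ℕ} (ha : Monotone a)
    {I : Ideal (MvPolynomial (Fin n) K)} (hmon : HasMon h a I) :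
    ∃ J : Ideal (MvPolynomial (Fin n) K), Closed J ∧ ∀ d,
      grade J d = lppSpaceN (powersIdeal K h a) I d ∧
        finrank K ↥(grade J d) = finrank K ↥(grade I d) := by
  obtain ⟨J, hJ⟩ := exists_lpp_of_hasMon h ha hmon
  set J' := Ideal.span (⋃ e, (grade J e : Set (MvPolynomial (Fin n) K))) with hJ'
  have hg : ∀ d, grade J' d = grade J d := fun d => by
    refine le_antisymm (inf_le_inf_right _ fun x hx => ?_) fun x hx =>
      ⟨Ideal.subset_span (Set.mem_iUnion.2 ⟨d, hx⟩), hx.2⟩
    refine (Ideal.span_le.2 ?_ : J' ≤ J) hx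
    intro y hy
    obtain ⟨e, he⟩ := Set.mem_iUnion.1 hy
    exact he.1
  refine ⟨J', closed_span_forms fun x hx => ?_, fun d => by rw [hg d]; exact hJ d⟩
  obtain ⟨e, he⟩ := Set.mem_iUnion.1 hx
  exact ⟨e, he.2⟩

lemma sliceAt_extend (B : Ideal (MvPolynomial (Fin r) K)) (t : ℕ) :
    sliceAt (extend B) t = B := by
  ext u
  rw [mem_sliceAt]
  constructor
  · intro h
    induction t with
    | zero =>
      rw [pow_zero, mul_one] at h
      have := Ideal.mem_map_of_mem (killLast (K := K) (r := r)) h
      rwa [killLast_extend, killLast_rename] at this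
    | succ t ih =>
      rw [pow_succ', mul_left_comm] at h
      exact ih (nzd_extend B _ h)
  · exact fun h => Ideal.mul_mem_right _ _ (Ideal.mem_map_of_mem _ h)

lemma finrank_grade_extend (B : Ideal (MvPolynomial (Fin r) K)) (d : ℕ) :
    finrank K ↥(grade (extend B) d) =
      ∑ t ∈ Finset.range (d + 1), finrank K ↥(grade B (d - t)) := by
  rw [finrank_grade_slices (zGraded_extend B) d]
  exact Finset.sum_congr rfl fun t _ => by rw [sliceAt_extend]

end Powers

end Vale.P200.Many
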